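import Vale.Agent.P042.MathlibUsed
import Vale.Agent.P042.Defs

set_option linter.all false

section

section

section

namespace Vale.Agent.P042

/-- A ranked residue system modulo `Q` with `n` elements and ranks below `H`. -/
def Sys (Q n H : ℕ) : Prop :=
  ∃ (X : Finset ℕ) (R : ℕ → ℕ), X.card = n ∧ (∀ x ∈ X, x < Q) ∧ (∀ x ∈ X, R x < H) ∧
    ∀ x ∈ X, ∀ y ∈ X, ∀ s : ℤ, (Q : ℤ) ∣ (y : ℤ) - x - s ^ 2 → x = y ∨ R x < R y

theorem Sys.one : Sys 1 1 1 := by
  refine ⟨{0}, fun _ => 0, by simp, by simp, by simp only [Finset.mem_singleton, Order.lt_one_iff, implies_true], ?_⟩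
  intro x hx y hy s _
  left
  simp only [Finset.mem_singleton] at hx hy
  rw [hx, hy]

/-- One digit step in base `m ^ 2`. -/
theorem Sys.cons {m n h : ℕ} (hm : 0 < m) (hD : Sys (m ^ 2) n h) {Q' n' H' : ℕ}
    (hX : Sys Q' n' H') : Sys (m ^ 2 * Q') (n * n') (h * H') := by
  obtain ⟨D, ρ, hDc, hDlt, hDr, hDp⟩ := hD
  obtain ⟨X, R, hXc, hXlt, hXr, hXp⟩ := hX
  have hm2 : 0 < m ^ 2 := by positivity
  have hmod : ∀ d x : ℕ, d < m ^ 2 → (d + m ^ 2 * x) % m ^ 2 = d := by
    intro d x hd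
    rw [Nat.add_mul_mod_self_left, Nat.mod_eq_of_lt hd]
  have hdiv : ∀ d x : ℕ, d < m ^ 2 → (d + m ^ 2 * x) / m ^ 2 = x := by
    intro d x hd
    rw [Nat.add_mul_div_left _ _ hm2, Nat.div_eq_of_lt hd, zero_add]
  refine ⟨(D ×ˢ X).image (fun p => p.1 + m ^ 2 * p.2),
    fun z => ρ (z % m ^ 2) * H' + R (z / m ^ 2), ?_, ?_, ?_, ?_⟩
  · rw [Finset.card_image_of_injOn, Finset.card_product, hDc, hXc]
    rintro ⟨d, x⟩ h1 ⟨d', x'⟩ h2 heq
    simp only [Finset.coe_product, Set.mem_prod, Finset.mem_coe] at h1 h2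
    simp only at heq
    have e1 : d = d' := by
      have := congrArg (· % m ^ 2) heq
      simpa only [hmod d x (hDlt d h1.1), hmod d' x' (hDlt d' h2.1)] using this
    have e2 : x = x' := by
      have := congrArg (· / m ^ 2) heq
      simpa [hdiv d x (hDlt d h1.1), hdiv d' x' (hDlt d' h2.1)] using this
    rw [e1, e2]
  · intro z hz
    simp only [Finset.mem_image, Finset.mem_product, Prod.exists] at hz
    obtain ⟨d, x, ⟨hd, hx⟩, rfl⟩ := hz
    have h1 := hDlt d hd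
    have h2 := hXlt x hx
    calc d + m ^ 2 * x < m ^ 2 + m ^ 2 * x := by omega
      _ = m ^ 2 * (x + 1) := by ring
      _ ≤ m ^ 2 * Q' := Nat.mul_le_mul_left _ h2
  · intro z hz
    simp only [Finset.mem_image, Finset.mem_product, Prod.exists] at hz
    obtain ⟨d, x, ⟨hd, hx⟩, rfl⟩ := hz
    simp only [hmod d x (hDlt d hd), hdiv d x (hDlt d hd)]
    have h1 := hDr d hd
    have h2 := hXr x hx
    calc ρ d * H' + R x < ρ d * H' + H' := by omega
      _ = (ρ d + 1) * H' := by ring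
      _ ≤ h * H' := Nat.mul_le_mul_right _ h1
  · intro z hz z' hz' s hs
    simp only [Finset.mem_image, Finset.mem_product, Prod.exists] at hz hz'
    obtain ⟨d, x, ⟨hd, hx⟩, rfl⟩ := hz
    obtain ⟨d', x', ⟨hd', hx'⟩, rfl⟩ := hz'
    simp only [hmod d x (hDlt d hd), hdiv d x (hDlt d hd), hmod d' x' (hDlt d' hd'),
      hdiv d' x' (hDlt d' hd')]
    obtain ⟨c, hc⟩ := hs
    push_cast at hc
    have hdd : ((m ^ 2 : ℕ) : ℤ) ∣ (d' : ℤ) - d - s ^ 2 := by
      refine ⟨Q' * c - x' + x, ?_⟩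
      push_cast
      linear_combination hc
    rcases hDp d hd d' hd' s hdd with h | h
    · subst h
      have hms : (m : ℤ) ^ 2 ∣ s ^ 2 := by
        have h3 : (m : ℤ) ^ 2 ∣ -(s ^ 2) := by
          simpa only [dvd_neg, ne_eq, OfNat.ofNat_ne_zero, not_false_eq_true, IsIntegrallyClosed.pow_dvd_pow_iff,     Nat.cast_pow, sub_self, zero_sub] using hdd
        exact (dvd_neg).1 h3
      have hms' : (m : ℤ) ∣ s := (Int.pow_dvd_pow_iff (by norm_num)).1 hms
      obtain ⟨s1, rfl⟩ := hms'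
      have hm2' : ((m : ℤ) ^ 2) ≠ 0 := by positivity
      have hq : (Q' : ℤ) ∣ (x' : ℤ) - x - s1 ^ 2 := by
        refine ⟨c, ?_⟩
        have : (m : ℤ) ^ 2 * ((x' : ℤ) - x - s1 ^ 2) = (m : ℤ) ^ 2 * (Q' * c) := by
          linear_combination hc
        exact mul_left_cancel₀ hm2' this
      rcases hXp x hx x' hx' s1 hq with h | h
      · left; rw [h]
      · right; omega
    · right
      have h2 := hXr x hx
      calc ρ d * H' + R x < ρ d * H' + H' := by omega
        _ = (ρ d + 1) * H' := by ring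
        _ ≤ ρ d' * H' := Nat.mul_le_mul_right _ h
        _ ≤ ρ d' * H' + R x' := Nat.le_add_right _ _

theorem Sys.pow {m n h : ℕ} (hm : 0 < m) (hD : Sys (m ^ 2) n h) (e : ℕ) :
    Sys ((m ^ 2) ^ e) (n ^ e) (h ^ e) := by
  induction e with
  | zero => simpa using Sys.one
  | succ e ih =>
    have := Sys.cons hm hD ih
    have e1 : (m ^ 2) ^ (e + 1) = m ^ 2 * (m ^ 2) ^ e := pow_succ' _ _
    have e2 : n ^ (e + 1) = n * n ^ e := pow_succ' _ _
    have e3 : h ^ (e + 1) = h * h ^ e := pow_succ' _ _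
    rw [e1, e2, e3]
    exact this

/-- Coprime product. -/
theorem Sys.mul {Q₁ n₁ H₁ Q₂ n₂ H₂ : ℕ} (hQ₁ : 0 < Q₁) (hQ₂ : 0 < Q₂)
    (h₁ : Sys Q₁ n₁ H₁) (h₂ : Sys Q₂ n₂ H₂) (hco : Nat.Coprime Q₁ Q₂) :
    Sys (Q₁ * Q₂) (n₁ * n₂) (H₁ + H₂) := by
  obtain ⟨X₁, R₁, hc₁, hl₁, hr₁, hp₁⟩ := h₁
  obtain ⟨X₂, R₂, hc₂, hl₂, hr₂, hp₂⟩ := h₂
  let f : ℕ × ℕ → ℕ := fun p => (Nat.chineseRemainder hco p.1 p.2 : ℕ)
  have hf1 : ∀ a b, a ∈ X₁ → b ∈ X₂ → f (a, b) % Q₁ = a := by
    intro a b ha hb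
    have := (Nat.chineseRemainder hco a b).2.1
    have h3 : f (a, b) % Q₁ = a % Q₁ := this
    rw [h3, Nat.mod_eq_of_lt (hl₁ a ha)]
  have hf2 : ∀ a b, a ∈ X₁ → b ∈ X₂ → f (a, b) % Q₂ = b := by
    intro a b ha hb
    have := (Nat.chineseRemainder hco a b).2.2
    have h3 : f (a, b) % Q₂ = b % Q₂ := this
    rw [h3, Nat.mod_eq_of_lt (hl₂ b hb)]
  refine ⟨(X₁ ×ˢ X₂).image f, fun z => R₁ (z % Q₁) + R₂ (z % Q₂), ?_, ?_, ?_, ?_⟩
  · rw [Finset.card_image_of_injOn, Finset.card_product, hc₁, hc₂]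
    rintro ⟨a, b⟩ h1 ⟨a', b'⟩ h2 heq
    simp only [Finset.coe_product, Set.mem_prod, Finset.mem_coe] at h1 h2
    have e1 : a = a' := by
      rw [← hf1 a b h1.1 h1.2, ← hf1 a' b' h2.1 h2.2, heq]
    have e2 : b = b' := by
      rw [← hf2 a b h1.1 h1.2, ← hf2 a' b' h2.1 h2.2, heq]
    rw [e1, e2]
  · intro z hz
    simp only [Finset.mem_image, Finset.mem_product, Prod.exists] at hz
    obtain ⟨a, b, ⟨ha, hb⟩, rfl⟩ := hz
    exact Nat.chineseRemainder_lt_mul hco a b hQ₁.ne' hQ₂.ne'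
  · intro z hz
    simp only [Finset.mem_image, Finset.mem_product, Prod.exists] at hz
    obtain ⟨a, b, ⟨ha, hb⟩, rfl⟩ := hz
    simp only [hf1 a b ha hb, hf2 a b ha hb]
    have := hr₁ a ha
    have := hr₂ b hb
    (clear Q₁ n₁ Q₂ n₂ hQ₁ hQ₂ hco hc₁ hl₁ hp₁ hc₂ hl₂ hp₂ f hf1 hf2; omega)
  · intro z hz z' hz' s hs
    simp only [Finset.mem_image, Finset.mem_product, Prod.exists] at hz hz'
    obtain ⟨a, b, ⟨ha, hb⟩, rfl⟩ := hz
    obtain ⟨a', b', ⟨ha', hb'⟩, rfl⟩ := hz'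
    simp only [hf1 a b ha hb, hf2 a b ha hb, hf1 a' b' ha' hb', hf2 a' b' ha' hb']
    have hd1 : (Q₁ : ℤ) ∣ ((f (a', b') : ℕ) : ℤ) - (f (a, b) : ℕ) - s ^ 2 :=
      (dvd_trans ⟨(Q₂ : ℤ), by push_cast; ring⟩ hs)
    have hd2 : (Q₂ : ℤ) ∣ ((f (a', b') : ℕ) : ℤ) - (f (a, b) : ℕ) - s ^ 2 :=
      (dvd_trans ⟨(Q₁ : ℤ), by push_cast; ring⟩ hs)
    have k1 : (Q₁ : ℤ) ∣ (a' : ℤ) - a - s ^ 2 := by
      have u1 : (Q₁ : ℤ) ∣ ((f (a', b') : ℕ) : ℤ) - a' := by
        have := Nat.mod_add_div (f (a', b')) Q₁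
        rw [hf1 a' b' ha' hb'] at this
        exact ⟨((f (a', b') / Q₁ : ℕ) : ℤ), by
          have h5 : ((a' + Q₁ * (f (a', b') / Q₁) : ℕ) : ℤ) = (f (a', b') : ℕ) := by
            exact_mod_cast this
          push_cast at h5 ⊢
          linarith only [this]⟩
      have u2 : (Q₁ : ℤ) ∣ ((f (a, b) : ℕ) : ℤ) - a := by
        have := Nat.mod_add_div (f (a, b)) Q₁
        rw [hf1 a b ha hb] at this
        exact ⟨((f (a, b) / Q₁ : ℕ) : ℤ), by
          have h5 : ((a + Q₁ * (f (a, b) / Q₁) : ℕ) : ℤ) = (f (a, b) : ℕ) := by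
            exact_mod_cast this
          push_cast at h5 ⊢
          linarith only [this]⟩
      have e : (a' : ℤ) - a - s ^ 2 = (((f (a', b') : ℕ) : ℤ) - (f (a, b) : ℕ) - s ^ 2) -
          (((f (a', b') : ℕ) : ℤ) - a') + (((f (a, b) : ℕ) : ℤ) - a) := by ring
      rw [e]
      exact dvd_add (dvd_sub hd1 u1) u2
    have k2 : (Q₂ : ℤ) ∣ (b' : ℤ) - b - s ^ 2 := by
      have u1 : (Q₂ : ℤ) ∣ ((f (a', b') : ℕ) : ℤ) - b' := by
        have := Nat.mod_add_div (f (a', b')) Q₂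
        rw [hf2 a' b' ha' hb'] at this
        exact ⟨((f (a', b') / Q₂ : ℕ) : ℤ), by
          have h5 : ((b' + Q₂ * (f (a', b') / Q₂) : ℕ) : ℤ) = (f (a', b') : ℕ) := by
            exact_mod_cast this
          push_cast at h5 ⊢
          linarith only [this]⟩
      have u2 : (Q₂ : ℤ) ∣ ((f (a, b) : ℕ) : ℤ) - b := by
        have := Nat.mod_add_div (f (a, b)) Q₂
        rw [hf2 a b ha hb] at this
        exact ⟨((f (a, b) / Q₂ : ℕ) : ℤ), by
          have h5 : ((b + Q₂ * (f (a, b) / Q₂) : ℕ) : ℤ) = (f (a, b) : ℕ) := by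
            exact_mod_cast this
          push_cast at h5 ⊢
          linarith only [this]⟩
      have e : (b' : ℤ) - b - s ^ 2 = (((f (a', b') : ℕ) : ℤ) - (f (a, b) : ℕ) - s ^ 2) -
          (((f (a', b') : ℕ) : ℤ) - b') + (((f (a, b) : ℕ) : ℤ) - b) := by ring
      rw [e]
      exact dvd_add (dvd_sub hd2 u1) u2
    have c1 := hp₁ a ha a' ha' s k1
    have c2 := hp₂ b hb b' hb' s k2
    rcases c1 with rfl | c1
    · rcases c2 with rfl | c2
      · left; rfl
      · right; (clear * - hco c2; omega)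
    · rcases c2 with rfl | c2
      · right; (clear * - hco c1; omega)
      · right; omega

/-- The archimedean step. -/
theorem Sys.avoid {Q n H : ℕ} (hX : Sys Q n H) :
    ∃ A : Finset ℤ, A ⊆ Finset.Icc 1 ((Q * H : ℕ) : ℤ) ∧ A.card = n ∧
      DiffFree (Polynomial.X ^ 2) A := by
  obtain ⟨X, R, hc, hl, hr, hp⟩ := hX
  let g : ℕ → ℤ := fun x => 1 + x + (Q : ℤ) * ((H : ℤ) - 1 - R x)
  have hinj : Set.InjOn g X := by
    intro x hx y hy hxy
    simp only [g] at hxy
    have hxl : (x : ℤ) < Q := by exact_mod_cast hl x hx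
    have hyl : (y : ℤ) < Q := by exact_mod_cast hl y hy
    have hd : (Q : ℤ) ∣ (y : ℤ) - x - 0 ^ 2 := by
      refine ⟨(R y : ℤ) - R x, ?_⟩
      linear_combination -hxy
    rcases hp x hx y hy 0 hd with h | h
    · exact h
    · have hd' : (Q : ℤ) ∣ (x : ℤ) - y - 0 ^ 2 := by
        refine ⟨(R x : ℤ) - R y, ?_⟩
        linear_combination hxy
      rcases hp y hy x hx 0 hd' with h' | h'
      · exact h'.symm
      · omega
  refine ⟨X.image g, ?_, ?_, ?_⟩
  · intro z hz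
    simp only [Finset.mem_image] at hz
    obtain ⟨x, hx, rfl⟩ := hz
    have hxl : (x : ℤ) < Q := by exact_mod_cast hl x hx
    have hrl : (R x : ℤ) + 1 ≤ H := by exact_mod_cast hr x hx
    have hx0 : (0 : ℤ) ≤ x := by (clear * -; positivity)
    have hQ0 : (0 : ℤ) < Q := by (clear * - hxl; linarith)
    have hR0 : (0 : ℤ) ≤ R x := by (clear * -; positivity)
    simp only [Finset.mem_Icc, g]
    push_cast
    constructor
    · nlinarith only [hrl]
    · nlinarith only [hxl]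
  · rw [Finset.card_image_of_injOn hinj, hc]
  · rintro d ⟨hd1, hd2⟩
    obtain ⟨k, hk, hkd⟩ := hd2
    simp only [Polynomial.eval_pow, Polynomial.eval_X] at hkd
    rw [Set.mem_sub] at hd1
    obtain ⟨a, ha, b, hb, hab⟩ := hd1
    simp only [Finset.coe_image, Set.mem_image, Finset.mem_coe] at ha hb
    obtain ⟨y, hy, rfl⟩ := ha
    obtain ⟨x, hx, rfl⟩ := hb
    simp only [g] at hab
    have hdv : (Q : ℤ) ∣ (y : ℤ) - x - (k : ℤ) ^ 2 := by
      refine ⟨(R y : ℤ) - R x, ?_⟩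
      linear_combination hab - hkd
    rcases hp x hx y hy k hdv with h | h
    · subst h
      simp only [sub_self] at hab
      simp [← hab]
    · exfalso
      have hxl : (x : ℤ) < Q := by exact_mod_cast hl x hx
      have hyl : (y : ℤ) < Q := by exact_mod_cast hl y hy
      have hx0 : (0 : ℤ) ≤ x := by (clear * -; positivity)
      have hQ0 : (0 : ℤ) < Q := by linarith only [hxl]
      have hRR : (R x : ℤ) + 1 ≤ R y := by exact_mod_cast h
      have hk1 : (1 : ℤ) ≤ k := by exact_mod_cast hk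
      have hk2 : (1 : ℤ) ≤ (k : ℤ) ^ 2 := by nlinarith only [hk]
      nlinarith only [hkd, hab, hyl, hRR]

theorem card_le_rMax {h : Polynomial ℤ} {N : ℕ} {A : Finset ℤ}
    (hA : A ⊆ Finset.Icc 1 (N : ℤ)) (hd : DiffFree h A) : A.card ≤ rMax h N := by
  classical
  unfold rMax
  exact Finset.le_sup (f := Finset.card) (by simp only [Finset.mem_filter, Finset.mem_powerset, hA, hd, and_self])

theorem rMax_mono {h : Polynomial ℤ} {N N' : ℕ} (hN : N ≤ N') : rMax h N ≤ rMax h N' := by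
  classical
  unfold rMax
  apply Finset.sup_mono
  intro A hA
  simp only [Finset.mem_filter, Finset.mem_powerset] at hA ⊢
  refine ⟨hA.1.trans ?_, hA.2⟩
  exact Finset.Icc_subset_Icc le_rfl (by exact_mod_cast hN)

theorem Sys.le_rMax {Q n H N : ℕ} (hX : Sys Q n H) (hN : Q * H ≤ N) :
    n ≤ rMax (Polynomial.X ^ 2) N := by
  obtain ⟨A, hA, hc, hd⟩ := hX.avoid
  rw [← hc]
  exact (card_le_rMax hA hd).trans (rMax_mono hN)

end Vale.Agent.P042
end
end
end

section

section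

section

namespace Vale.Agent.P042

/-- Free second digit in base `m` for squarefree `m`. -/
theorem Sys.free {m n h : ℕ} (hm : Squarefree m) (hD : Sys m n h) : Sys (m ^ 2) (m * n) h := by
  obtain ⟨D, ρ, hDc, hDlt, hDr, hDp⟩ := hD
  have hm0 : 0 < m := Nat.pos_of_ne_zero hm.ne_zero
  have hmod : ∀ d x : ℕ, d < m → (d + m * x) % m = d := by
    intro d x hd
    rw [Nat.add_mul_mod_self_left, Nat.mod_eq_of_lt hd]
  have hdiv : ∀ d x : ℕ, d < m → (d + m * x) / m = x := by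
    intro d x hd
    rw [Nat.add_mul_div_left _ _ hm0, Nat.div_eq_of_lt hd, zero_add]
  refine ⟨(D ×ˢ Finset.range m).image (fun p => p.1 + m * p.2),
    fun z => ρ (z % m), ?_, ?_, ?_, ?_⟩
  · rw [Finset.card_image_of_injOn, Finset.card_product, hDc, Finset.card_range, mul_comm]
    rintro ⟨d, x⟩ h1 ⟨d', x'⟩ h2 heq
    simp only [Finset.coe_product, Set.mem_prod, Finset.mem_coe] at h1 h2
    simp only at heq
    have e1 : d = d' := by
      have := congrArg (· % m) heq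
      simpa [hmod d x (hDlt d h1.1), hmod d' x' (hDlt d' h2.1)] using this
    have e2 : x = x' := by
      have := congrArg (· / m) heq
      simpa [hdiv d x (hDlt d h1.1), hdiv d' x' (hDlt d' h2.1)] using this
    rw [e1, e2]
  · intro z hz
    simp only [Finset.mem_image, Finset.mem_product, Prod.exists, Finset.mem_range] at hz
    obtain ⟨d, x, ⟨hd, hx⟩, rfl⟩ := hz
    have h1 := hDlt d hd
    calc d + m * x < m + m * x := by omega
      _ = m * (x + 1) := by ring
      _ ≤ m * m := Nat.mul_le_mul_left _ hx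
      _ = m ^ 2 := by ring
  · intro z hz
    simp only [Finset.mem_image, Finset.mem_product, Prod.exists, Finset.mem_range] at hz
    obtain ⟨d, x, ⟨hd, hx⟩, rfl⟩ := hz
    simp only [hmod d x (hDlt d hd)]
    exact hDr d hd
  · intro z hz z' hz' s hs
    simp only [Finset.mem_image, Finset.mem_product, Prod.exists, Finset.mem_range] at hz hz'
    obtain ⟨d, x, ⟨hd, hx⟩, rfl⟩ := hz
    obtain ⟨d', x', ⟨hd', hx'⟩, rfl⟩ := hz'
    simp only [hmod d x (hDlt d hd), hmod d' x' (hDlt d' hd')]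
    obtain ⟨c, hc⟩ := hs
    push_cast at hc
    have hdd : ((m : ℕ) : ℤ) ∣ (d' : ℤ) - d - s ^ 2 := by
      refine ⟨m * c - x' + x, ?_⟩
      linear_combination hc
    rcases hDp d hd d' hd' s hdd with h | h
    · subst h
      left
      have hms : (m : ℤ) ∣ s ^ 2 := by
        have h3 : (m : ℤ) ∣ -(s ^ 2) := by
          simpa only [dvd_neg, sub_self, zero_sub] using hdd
        exact (dvd_neg).1 h3
      have hsq : Squarefree (m : ℤ) := by
        rwa [Int.squarefree_natCast]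
      have hms' : (m : ℤ) ∣ s := (hsq.dvd_pow_iff_dvd (by norm_num)).1 hms
      obtain ⟨s1, rfl⟩ := hms'
      have hm2' : (m : ℤ) ≠ 0 := by exact_mod_cast hm0.ne'
      have hq : (x' : ℤ) - x = m * (c + s1 ^ 2) := by
        have : (m : ℤ) * ((x' : ℤ) - x) = (m : ℤ) * (m * (c + s1 ^ 2)) := by
          linear_combination hc
        exact mul_left_cancel₀ hm2' this
      have hx1 : (x : ℤ) < m := by exact_mod_cast hx
      have hx2 : (x' : ℤ) < m := by exact_mod_cast hx'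
      have hx3 : (0 : ℤ) ≤ x := by (clear * -; positivity)
      have hx4 : (0 : ℤ) ≤ x' := by (clear * -; positivity)
      have hz : (x' : ℤ) - x = 0 := by
        apply Int.eq_zero_of_abs_lt_dvd (m := (m : ℤ)) ⟨_, hq⟩
        rw [abs_lt]
        constructor <;> linarith only [hx', hx]
      have : (x' : ℤ) = x := by linarith only [hz]
      have : x' = x := by exact_mod_cast this
      rw [this]
    · right; exact h

/-- Boolean certificate check. -/
def chk (m h : ℕ) (L : List (ℕ × ℕ)) : Bool :=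
  L.all fun a => decide (a.1 < m) && decide (a.2 < h) && L.all fun b =>
    decide (a.1 = b.1) || decide (a.2 < b.2) ||
      (List.range m).all fun s => decide ((s * s) % m ≠ (b.1 + m - a.1) % m)

theorem Sys.of_chk {m h : ℕ} (L : List (ℕ × ℕ)) (hm : 0 < m) (hnd : (L.map Prod.fst).Nodup)
    (hc : chk m h L = true) : Sys m L.length h := by
  classical
  simp only [chk, List.all_eq_true, Bool.and_eq_true, decide_eq_true_eq, Bool.or_eq_true] at hc
  let R : ℕ → ℕ := fun x => ((L.find? (fun a => decide (a.1 = x))).map Prod.snd).getD 0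
  have hR : ∀ a ∈ L, R a.1 = a.2 := by
    intro a ha
    have : L.find? (fun b => decide (b.1 = a.1)) = some a := by
      cases hf : L.find? (fun b => decide (b.1 = a.1)) with
      | none =>
        rw [List.find?_eq_none] at hf
        have := hf a ha
        simp at this
      | some b =>
        have hb := List.mem_of_find?_eq_some hf
        have hb1 : b.1 = a.1 := by simpa using List.find?_some hf
        have : b = a := List.inj_on_of_nodup_map hnd hb ha hb1
        rw [this]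
    simp only [R, this, Option.map_some, Option.getD_some]
  refine ⟨(L.map Prod.fst).toFinset, R, ?_, ?_, ?_, ?_⟩
  · rw [List.toFinset_card_of_nodup hnd, List.length_map]
  · intro x hx
    simp only [List.mem_toFinset, List.mem_map] at hx
    obtain ⟨a, ha, rfl⟩ := hx
    exact (hc a ha).1.1
  · intro x hx
    simp only [List.mem_toFinset, List.mem_map] at hx
    obtain ⟨a, ha, rfl⟩ := hx
    rw [hR a ha]
    exact (hc a ha).1.2
  · intro x hx y hy s hs
    simp only [List.mem_toFinset, List.mem_map] at hx hy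
    obtain ⟨a, ha, rfl⟩ := hx
    obtain ⟨b, hb, rfl⟩ := hy
    rw [hR a ha, hR b hb]
    rcases (hc a ha).2 b hb with (h | h) | h
    · exact Or.inl h
    · exact Or.inr h
    · exfalso
      have hm' : (0 : ℤ) < m := by exact_mod_cast hm
      have hs0 := Int.emod_nonneg s hm'.ne'
      have hs1 := Int.emod_lt_of_pos s hm'
      obtain ⟨t, ht⟩ := Int.eq_ofNat_of_zero_le hs0
      have htm : t < m := by
        have h6 : (t : ℤ) < m := by
          have h7 := hs1
          rw [ht] at h7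
          exact h7
        exact_mod_cast h6
      apply h t (List.mem_range.2 htm)
      have halt : a.1 < m := (hc a ha).1.1
      have e1 : ((b.1 + m - a.1 : ℕ) : ℤ) = (b.1 : ℤ) + m - a.1 := by
        rw [Nat.cast_sub (by omega)]
        push_cast
        ring
      have e2 : ((t * t : ℕ) : ℤ) ≡ ((b.1 + m - a.1 : ℕ) : ℤ) [ZMOD m] := by
        rw [e1]
        have h3 : (s : ℤ) ≡ t [ZMOD m] := by
          have : s % m = (t : ℤ) := ht
          rw [← this]
          exact (Int.mod_modEq s m).symm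
        have h4 : s ^ 2 ≡ (b.1 : ℤ) + m - a.1 [ZMOD m] := by
          rw [Int.modEq_iff_dvd]
          obtain ⟨c, hc⟩ := hs
          exact ⟨c + 1, by linear_combination hc⟩
        have h5 : s ^ 2 ≡ (t : ℤ) * t [ZMOD m] := by
          rw [pow_two]
          exact Int.ModEq.mul h3 h3
        push_cast
        exact h5.symm.trans h4
      exact Int.natCast_modEq_iff.1 e2

/-- A family of systems along powers. -/
def Fam (M D K Q : ℕ) : Prop :=
  0 < M ∧ ∀ t : ℕ, ∃ H, H ≤ K * Q ^ t ∧ Sys (M ^ t) (D ^ t) H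

theorem Fam.start {m n h w Q : ℕ} (hm : 0 < m) (hD : Sys (m ^ 2) n h) (hQ : h ^ w ≤ Q) :
    Fam ((m ^ 2) ^ w) (n ^ w) 1 Q := by
  refine ⟨by positivity, fun t => ⟨h ^ (w * t), ?_, ?_⟩⟩
  · rw [pow_mul, one_mul]
    exact Nat.pow_le_pow_left hQ t
  · have := Sys.pow hm hD (w * t)
    rwa [pow_mul, pow_mul] at this

theorem Fam.add {M D K Q : ℕ} (hF : Fam M D K Q) {m n h w : ℕ} (hm : 0 < m)
    (hD : Sys (m ^ 2) n h) (hQ : h ^ w ≤ Q) (hco : Nat.Coprime m M) :
    Fam ((m ^ 2) ^ w * M) (n ^ w * D) (K + 1) Q := by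
  refine ⟨Nat.mul_pos (by (clear * - hm; positivity)) hF.1, fun t => ?_⟩
  obtain ⟨H, hH, hS⟩ := hF.2 t
  have hM := hF.1
  refine ⟨h ^ (w * t) + H, ?_, ?_⟩
  · have : h ^ (w * t) ≤ Q ^ t := by
      rw [pow_mul]
      exact Nat.pow_le_pow_left hQ t
    calc h ^ (w * t) + H ≤ Q ^ t + K * Q ^ t := Nat.add_le_add this hH
      _ = (K + 1) * Q ^ t := by ring
  · have h1 := Sys.pow hm hD (w * t)
    have hco' : Nat.Coprime ((m ^ 2) ^ (w * t)) (M ^ t) :=
      Nat.Coprime.pow _ _ (Nat.Coprime.pow_left _ hco)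
    have := Sys.mul (by positivity) (by positivity) h1 hS hco'
    have e1 : ((m ^ 2) ^ w * M) ^ t = (m ^ 2) ^ (w * t) * M ^ t := by
      rw [mul_pow, ← pow_mul]
    have e2 : (n ^ w * D) ^ t = n ^ (w * t) * D ^ t := by
      rw [mul_pow, ← pow_mul]
    rw [e1, e2]
    exact this

theorem Fam.bound {M D K Q u v : ℕ} (hF : Fam M D K Q) (hK : 0 < K) (hv : 0 < v)
    (hMQ : M * Q ≤ 2 ^ v) (hD : 2 ^ u ≤ D) :
    ∃ c : ℝ, 0 < c ∧ ∀ N : ℕ, 1 ≤ N →
      c * (N : ℝ) ^ ((u : ℝ) / v) ≤ (rMax (Polynomial.X ^ 2) N : ℝ) := by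
  have hkey : ∀ t N : ℕ, K * (2 ^ v) ^ t ≤ N → (2 ^ u) ^ t ≤ rMax (Polynomial.X ^ 2) N := by
    intro t N hN
    obtain ⟨H, hH, hS⟩ := hF.2 t
    refine (Nat.pow_le_pow_left hD t).trans (hS.le_rMax ?_)
    calc M ^ t * H ≤ M ^ t * (K * Q ^ t) := Nat.mul_le_mul_left _ hH
      _ = K * (M * Q) ^ t := by rw [mul_pow]; ring
      _ ≤ K * (2 ^ v) ^ t := Nat.mul_le_mul_left _ (Nat.pow_le_pow_left hMQ t)
      _ ≤ N := hN
  have hone : ∀ N : ℕ, 1 ≤ N → 1 ≤ rMax (Polynomial.X ^ 2) N := by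
    intro N hN
    exact Sys.one.le_rMax (by simpa only [mul_one] using hN)
  set E : ℝ := (u : ℝ) / v with hE
  have hE0 : 0 ≤ E := by (clear * - hv; positivity)
  have hB : (0 : ℝ) < (K : ℝ) * 2 ^ v := by positivity
  have hBE : (0 : ℝ) < ((K : ℝ) * 2 ^ v) ^ E := Real.rpow_pos_of_pos hB _
  refine ⟨(((K : ℝ) * 2 ^ v) ^ E)⁻¹, inv_pos.2 hBE, ?_⟩
  intro N hN
  rw [inv_mul_le_iff₀ hBE]
  have hN0 : (0 : ℝ) < N := by exact_mod_cast hN
  by_cases hNK : N < K
  · have h1 : (N : ℝ) ≤ (K : ℝ) * 2 ^ v := by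
      have : (N : ℝ) ≤ K := by exact_mod_cast hNK.le
      have h2 : (1 : ℝ) ≤ 2 ^ v := one_le_pow₀ (by norm_num)
      have h3 : (0 : ℝ) < K := by exact_mod_cast hK
      nlinarith only [this, h2]
    have h2 : (N : ℝ) ^ E ≤ ((K : ℝ) * 2 ^ v) ^ E := Real.rpow_le_rpow hN0.le h1 hE0
    have h3 : (1 : ℝ) ≤ (rMax (Polynomial.X ^ 2) N : ℝ) := by exact_mod_cast hone N hN
    calc (N : ℝ) ^ E ≤ ((K : ℝ) * 2 ^ v) ^ E := h2
      _ = ((K : ℝ) * 2 ^ v) ^ E * 1 := (mul_one _).symm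
      _ ≤ _ := mul_le_mul_of_nonneg_left h3 hBE.le
  · have hNK' : K ≤ N := Nat.le_of_not_lt hNK
    -- choose t maximal
    have hex : ∃ t : ℕ, K * (2 ^ v) ^ t ≤ N ∧ N < K * (2 ^ v) ^ (t + 1) := by
      have hb : 1 < 2 ^ v := Nat.one_lt_two_pow hv.ne'
      refine ⟨Nat.log (2 ^ v) (N / K), ?_, ?_⟩
      · have h1 : N / K ≠ 0 := (Nat.div_pos hNK' hK).ne'
        have h2 := Nat.pow_log_le_self (2 ^ v) h1
        calc K * (2 ^ v) ^ Nat.log (2 ^ v) (N / K) ≤ K * (N / K) := Nat.mul_le_mul_left _ h2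
          _ ≤ N := Nat.mul_div_le N K
      · have h2 := Nat.lt_pow_succ_log_self hb (N / K)
        calc N < K * (N / K + 1) := by
              have := Nat.lt_mul_div_succ N hK
              simpa only [gt_iff_lt] using this
          _ ≤ K * (2 ^ v) ^ (Nat.log (2 ^ v) (N / K) + 1) := Nat.mul_le_mul_left _ h2
    obtain ⟨t, ht1, ht2⟩ := hex
    have h1 := hkey t N ht1
    have h1' : ((2 : ℝ) ^ u) ^ t ≤ (rMax (Polynomial.X ^ 2) N : ℝ) := by exact_mod_cast h1
    have h2 : (N : ℝ) ≤ ((K : ℝ) * 2 ^ v) * (2 ^ v) ^ t := by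
      have : (N : ℝ) ≤ (K : ℝ) * (2 ^ v) ^ (t + 1) := by exact_mod_cast ht2.le
      calc (N : ℝ) ≤ (K : ℝ) * (2 ^ v) ^ (t + 1) := this
        _ = ((K : ℝ) * 2 ^ v) * (2 ^ v) ^ t := by ring
    have h3 : (((2 : ℝ) ^ v) ^ t) ^ E = ((2 : ℝ) ^ u) ^ t := by
      have hv' : (v : ℝ) ≠ 0 := by exact_mod_cast hv.ne'
      rw [← pow_mul, ← pow_mul, ← Real.rpow_natCast, ← Real.rpow_natCast,
        ← Real.rpow_mul (by norm_num)]
      congr 1
      rw [hE]
      push_cast
      (clear * - hv'; field_simp)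
    calc (N : ℝ) ^ E ≤ (((K : ℝ) * 2 ^ v) * (2 ^ v) ^ t) ^ E :=
          Real.rpow_le_rpow hN0.le h2 hE0
      _ = ((K : ℝ) * 2 ^ v) ^ E * (((2 : ℝ) ^ v) ^ t) ^ E := by
          rw [Real.mul_rpow hB.le (by positivity)]
      _ = ((K : ℝ) * 2 ^ v) ^ E * ((2 : ℝ) ^ u) ^ t := by rw [h3]
      _ ≤ _ := mul_le_mul_of_nonneg_left h1' hBE.le

end Vale.Agent.P042
end
end
end

section

section

section

namespace Vale.Agent.P042

theorem sys3 : Sys 3 2 2 := by
  have h := Sys.of_chk (m := 3) (h := 2) [(0, 0), (1, 1)] (by norm_num) (by decide) (by (clear * -; decide +kernel))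
  exact h

theorem sys7 : Sys 7 3 3 := by
  have h := Sys.of_chk (m := 7) (h := 3) [(0, 0), (1, 1), (2, 2)] (by norm_num) (by decide) (by (clear * -; decide +kernel))
  exact h

theorem sys11 : Sys 11 4 4 := by
  have h := Sys.of_chk (m := 11) (h := 4) [(0, 0), (1, 1), (4, 2), (5, 3)] (by norm_num) (by decide) (by (clear * -; decide +kernel))
  exact h

theorem sys19 : Sys 19 5 5 := by
  have h := Sys.of_chk (m := 19) (h := 5) [(0, 0), (1, 1), (6, 2), (17, 3), (7, 4)] (by norm_num) (by decide) (by (clear * -; decide +kernel))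
  exact h

theorem sys23 : Sys 23 5 5 := by
  have h := Sys.of_chk (m := 23) (h := 5) [(0, 0), (1, 1), (2, 2), (3, 3), (4, 4)] (by norm_num) (by decide) (by (clear * -; decide +kernel))
  exact h

theorem sys31 : Sys 31 7 7 := by
  have h := Sys.of_chk (m := 31) (h := 7) [(0, 0), (1, 1), (8, 2), (5, 3), (2, 4), (9, 5), (10, 6)] (by norm_num) (by decide) (by (clear * -; decide +kernel))
  exact h

theorem sys43 : Sys 43 7 7 := by
  have h := Sys.of_chk (m := 43) (h := 7) [(0, 0), (1, 1), (10, 2), (14, 3), (11, 4), (24, 5), (25, 6)] (by norm_num) (by (clear * -; decide)) (by (clear * -; decide +kernel))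
  exact h

theorem sys59 : Sys 59 9 9 := by
  have h := Sys.of_chk (m := 59) (h := 9) [(0, 0), (1, 1), (20, 2), (29, 3), (27, 4), (21, 5), (46, 6), (49, 7), (36, 8)] (by norm_num) (by decide) (by (clear * -; decide +kernel))
  exact h

theorem sys71 : Sys 71 9 9 := by
  have h := Sys.of_chk (m := 71) (h := 9) [(0, 0), (1, 1), (37, 2), (20, 3), (6, 4), (30, 5), (9, 6), (49, 7), (38, 8)] (by norm_num) (by decide) (by (clear * -; decide +kernel))
  exact h

theorem sys103 : Sys 103 11 11 := by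
  have h := Sys.of_chk (m := 103) (h := 11) [(0, 0), (1, 1), (29, 2), (92, 3), (2, 4), (61, 5), (17, 6), (30, 7), (93, 8), (18, 9), (19, 10)] (by norm_num) (by (clear * -; decide)) (by (clear * -; decide +kernel))
  exact h

theorem sys16 : Sys (4 ^ 2) 10 6 := by
  have h := Sys.of_chk (m := 4 ^ 2) (h := 6) [(5, 0), (10, 0), (13, 0), (14, 1), (2, 2), (11, 3), (15, 4), (0, 5), (3, 5), (8, 5)] (by norm_num) (by decide) (by (clear * -; decide +kernel))
  exact h

end Vale.Agent.P042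
end
end
end

section

section

section

namespace Vale.Agent.P042

theorem fam0 : Fam ((3 ^ 2) ^ 184) ((3 * 2) ^ 184) 1 (2 ^ 184) :=
  Fam.start (by norm_num) (Sys.free (Nat.Prime.prime (by norm_num : Nat.Prime 3)).squarefree sys3) (by (clear * -; decide +kernel))

theorem fam1 : Fam ((7 ^ 2) ^ 116 * ((3 ^ 2) ^ 184)) ((7 * 3) ^ 116 * ((3 * 2) ^ 184)) 2 (2 ^ 184) :=
  fam0.add (by norm_num) (Sys.free (Nat.Prime.prime (by norm_num : Nat.Prime 7)).squarefree sys7) (by decide +kernel) (by decide +kernel)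

theorem fam2 : Fam ((11 ^ 2) ^ 92 * ((7 ^ 2) ^ 116 * ((3 ^ 2) ^ 184))) ((11 * 4) ^ 92 * ((7 * 3) ^ 116 * ((3 * 2) ^ 184))) 3 (2 ^ 184) :=
  fam1.add (by norm_num) (Sys.free (Nat.Prime.prime (by norm_num : Nat.Prime 11)).squarefree sys11) (by decide +kernel) (by decide +kernel)

theorem fam3 : Fam ((19 ^ 2) ^ 79 * ((11 ^ 2) ^ 92 * ((7 ^ 2) ^ 116 * ((3 ^ 2) ^ 184)))) ((19 * 5) ^ 79 * ((11 * 4) ^ 92 * ((7 * 3) ^ 116 * ((3 * 2) ^ 184)))) 4 (2 ^ 184) :=
  fam2.add (by norm_num) (Sys.free (Nat.Prime.prime (by norm_num : Nat.Prime 19)).squarefree sys19) (by decide +kernel) (by decide +kernel)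

theorem fam4 : Fam ((23 ^ 2) ^ 79 * ((19 ^ 2) ^ 79 * ((11 ^ 2) ^ 92 * ((7 ^ 2) ^ 116 * ((3 ^ 2) ^ 184))))) ((23 * 5) ^ 79 * ((19 * 5) ^ 79 * ((11 * 4) ^ 92 * ((7 * 3) ^ 116 * ((3 * 2) ^ 184))))) 5 (2 ^ 184) :=
  fam3.add (by norm_num) (Sys.free (Nat.Prime.prime (by norm_num : Nat.Prime 23)).squarefree sys23) (by decide +kernel) (by decide +kernel)

theorem fam5 : Fam ((31 ^ 2) ^ 65 * ((23 ^ 2) ^ 79 * ((19 ^ 2) ^ 79 * ((11 ^ 2) ^ 92 * ((7 ^ 2) ^ 116 * ((3 ^ 2) ^ 184)))))) ((31 * 7) ^ 65 * ((23 * 5) ^ 79 * ((19 * 5) ^ 79 * ((11 * 4) ^ 92 * ((7 * 3) ^ 116 * ((3 * 2) ^ 184)))))) 6 (2 ^ 184) :=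
  fam4.add (by norm_num) (Sys.free (Nat.Prime.prime (by norm_num : Nat.Prime 31)).squarefree sys31) (by decide +kernel) (by decide +kernel)

theorem fam6 : Fam ((43 ^ 2) ^ 65 * ((31 ^ 2) ^ 65 * ((23 ^ 2) ^ 79 * ((19 ^ 2) ^ 79 * ((11 ^ 2) ^ 92 * ((7 ^ 2) ^ 116 * ((3 ^ 2) ^ 184))))))) ((43 * 7) ^ 65 * ((31 * 7) ^ 65 * ((23 * 5) ^ 79 * ((19 * 5) ^ 79 * ((11 * 4) ^ 92 * ((7 * 3) ^ 116 * ((3 * 2) ^ 184))))))) 7 (2 ^ 184) :=
  fam5.add (by norm_num) (Sys.free (Nat.Prime.prime (by norm_num : Nat.Prime 43)).squarefree sys43) (by decide +kernel) (by decide +kernel)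

theorem fam7 : Fam ((59 ^ 2) ^ 58 * ((43 ^ 2) ^ 65 * ((31 ^ 2) ^ 65 * ((23 ^ 2) ^ 79 * ((19 ^ 2) ^ 79 * ((11 ^ 2) ^ 92 * ((7 ^ 2) ^ 116 * ((3 ^ 2) ^ 184)))))))) ((59 * 9) ^ 58 * ((43 * 7) ^ 65 * ((31 * 7) ^ 65 * ((23 * 5) ^ 79 * ((19 * 5) ^ 79 * ((11 * 4) ^ 92 * ((7 * 3) ^ 116 * ((3 * 2) ^ 184)))))))) 8 (2 ^ 184) :=
  fam6.add (by norm_num) (Sys.free (Nat.Prime.prime (by norm_num : Nat.Prime 59)).squarefree sys59) (by decide +kernel) (by decide +kernel)

theorem fam8 : Fam ((71 ^ 2) ^ 58 * ((59 ^ 2) ^ 58 * ((43 ^ 2) ^ 65 * ((31 ^ 2) ^ 65 * ((23 ^ 2) ^ 79 * ((19 ^ 2) ^ 79 * ((11 ^ 2) ^ 92 * ((7 ^ 2) ^ 116 * ((3 ^ 2) ^ 184))))))))) ((71 * 9) ^ 58 * ((59 * 9) ^ 58 * ((43 * 7) ^ 65 * ((31 * 7) ^ 65 * ((23 * 5) ^ 79 * ((19 * 5) ^ 79 * ((11 * 4) ^ 92 * ((7 * 3) ^ 116 * ((3 * 2) ^ 184))))))))) 9 (2 ^ 184) :=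
  fam7.add (by norm_num) (Sys.free (Nat.Prime.prime (by norm_num : Nat.Prime 71)).squarefree sys71) (by decide +kernel) (by decide +kernel)

theorem fam9 : Fam ((103 ^ 2) ^ 53 * ((71 ^ 2) ^ 58 * ((59 ^ 2) ^ 58 * ((43 ^ 2) ^ 65 * ((31 ^ 2) ^ 65 * ((23 ^ 2) ^ 79 * ((19 ^ 2) ^ 79 * ((11 ^ 2) ^ 92 * ((7 ^ 2) ^ 116 * ((3 ^ 2) ^ 184)))))))))) ((103 * 11) ^ 53 * ((71 * 9) ^ 58 * ((59 * 9) ^ 58 * ((43 * 7) ^ 65 * ((31 * 7) ^ 65 * ((23 * 5) ^ 79 * ((19 * 5) ^ 79 * ((11 * 4) ^ 92 * ((7 * 3) ^ 116 * ((3 * 2) ^ 184)))))))))) 10 (2 ^ 184) :=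
  fam8.add (by norm_num) (Sys.free (Nat.Prime.prime (by norm_num : Nat.Prime 103)).squarefree sys103) (by decide +kernel) (by decide +kernel)

theorem fam10 : Fam ((4 ^ 2) ^ 71 * ((103 ^ 2) ^ 53 * ((71 ^ 2) ^ 58 * ((59 ^ 2) ^ 58 * ((43 ^ 2) ^ 65 * ((31 ^ 2) ^ 65 * ((23 ^ 2) ^ 79 * ((19 ^ 2) ^ 79 * ((11 ^ 2) ^ 92 * ((7 ^ 2) ^ 116 * ((3 ^ 2) ^ 184))))))))))) (10 ^ 71 * ((103 * 11) ^ 53 * ((71 * 9) ^ 58 * ((59 * 9) ^ 58 * ((43 * 7) ^ 65 * ((31 * 7) ^ 65 * ((23 * 5) ^ 79 * ((19 * 5) ^ 79 * ((11 * 4) ^ 92 * ((7 * 3) ^ 116 * ((3 * 2) ^ 184))))))))))) 11 (2 ^ 184) :=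
  fam9.add (by norm_num) sys16 (by decide +kernel) (by decide +kernel)

theorem lower_main : ∃ c : ℝ, 0 < c ∧ ∀ N : ℕ, 1 ≤ N →
    c * (N : ℝ) ^ (0.7558 : ℝ) ≤ (rMax (Polynomial.X ^ 2) N : ℝ) := by
  obtain ⟨c, hc, h⟩ := fam10.bound (u := 5426) (v := 7179) (by norm_num) (by norm_num)
    (by decide +kernel) (by decide +kernel)
  refine ⟨c, hc, fun N hN => le_trans ?_ (h N hN)⟩
  refine mul_le_mul_of_nonneg_left ?_ hc.le
  refine Real.rpow_le_rpow_of_exponent_le (by exact_mod_cast hN) ?_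
  norm_num

end Vale.Agent.P042
end
end
end

section

section

section

set_option autoImplicit false

namespace Vale.Agent.P042

open Polynomial

/-- the properties of the auxiliary data of an intersective polynomial -/
structure AuxData (h : ℤ[X]) (lam : ℕ → ℕ) (r : ℕ → ℤ) (H : ℕ → ℤ[X]) (R : ℕ) : Prop where
  hR : 1 ≤ R
  hH : ∀ d : ℕ, 1 ≤ d → C (lam d : ℤ) * H d = h.comp (C (r d) + C (d : ℤ) * X)
  hmul : ∀ d q : ℕ, 1 ≤ d → 1 ≤ q → lam (d * q) = lam d * lam q
  hdvd : ∀ d : ℕ, 1 ≤ d → d ∣ lam d ∧ lam d ∣ d ^ h.natDegree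
  hr : ∀ d : ℕ, 1 ≤ d → -(d : ℤ) < r d ∧ r d ≤ 0
  hrr : ∀ d q : ℕ, 1 ≤ d → 1 ≤ q → (d : ℤ) ∣ r (d * q) - r d
  hgcd : ∀ d : ℕ, 1 ≤ d → ∀ g : ℤ, (∀ j : ℕ, 1 ≤ j → g ∣ (H d).coeff j) → g ∣ (R : ℤ)

end Vale.Agent.P042
end
end
end

section

section

section

set_option autoImplicit false

namespace Vale.Agent.P042

open Polynomial Pointwise

variable {h : ℤ[X]} {lam : ℕ → ℕ} {r : ℕ → ℤ} {H : ℕ → ℤ[X]} {R : ℕ}

theorem AuxData.lam_pos (hA : AuxData h lam r H R) (d : ℕ) (hd : 1 ≤ d) : 1 ≤ lam d := by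
  have h1 := (hA.hdvd d hd).2
  rcases Nat.eq_zero_or_pos (lam d) with h0 | h0
  · rw [h0, zero_dvd_iff] at h1
    exact absurd h1 (pow_ne_zero _ (by omega))
  · exact h0

theorem AuxData.lam_le (hA : AuxData h lam r H R) (d : ℕ) (hd : 1 ≤ d) :
    lam d ≤ d ^ h.natDegree :=
  Nat.le_of_dvd (pow_pos (by omega) _) (hA.hdvd d hd).2

lemma natDegree_lin (r : ℤ) (d : ℕ) (hd : 1 ≤ d) :
    (C r + C (d : ℤ) * X).natDegree = 1 := by
  rw [add_comm]
  exact natDegree_linear (by exact_mod_cast (by omega : d ≠ 0))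

lemma leadingCoeff_lin (r : ℤ) (d : ℕ) (hd : 1 ≤ d) :
    (C r + C (d : ℤ) * X).leadingCoeff = (d : ℤ) := by
  rw [add_comm]
  exact leadingCoeff_linear (by exact_mod_cast (by omega : d ≠ 0))

theorem AuxData.natDegree_H (hA : AuxData h lam r H R) (hk : 1 ≤ h.natDegree) (d : ℕ) (hd : 1 ≤ d) :
    (H d).natDegree = h.natDegree := by
  have h1 := hA.lam_pos d hd
  have h2 := congrArg natDegree (hA.hH d hd)
  rw [natDegree_comp, natDegree_lin _ _ hd, mul_one,
    natDegree_C_mul (by exact_mod_cast (by omega : lam d ≠ 0))] at h2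
  exact h2

theorem AuxData.lead_H (hA : AuxData h lam r H R) (hk : 1 ≤ h.natDegree) (d : ℕ) (hd : 1 ≤ d) :
    (lam d : ℤ) * (H d).leadingCoeff = h.leadingCoeff * (d : ℤ) ^ h.natDegree := by
  have h2 := congrArg leadingCoeff (hA.hH d hd)
  rw [leadingCoeff_comp (by rw [natDegree_lin _ _ hd]; exact one_ne_zero),
    leadingCoeff_lin _ _ hd, leadingCoeff_mul, leadingCoeff_C] at h2
  exact h2

theorem AuxData.lead_pos (hA : AuxData h lam r H R) (hk : 1 ≤ h.natDegree)
    (hpos : 0 < h.leadingCoeff) (d : ℕ) (hd : 1 ≤ d) :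
    0 < (H d).leadingCoeff := by
  have h1 : (0 : ℤ) < lam d := by exact_mod_cast hA.lam_pos d hd
  have h2 := hA.lead_H hk d hd
  have h3 : 0 < h.leadingCoeff * (d : ℤ) ^ h.natDegree :=
    mul_pos hpos (pow_pos (by exact_mod_cast hd) _)
  rw [← h2] at h3
  exact (mul_pos_iff_of_pos_left h1).1 h3

/-- `S` depends only on `h` -/
theorem AuxData.coeff_bound (hA : AuxData h lam r H R) (hk : 1 ≤ h.natDegree)
    (hpos : 0 < h.leadingCoeff) :
    ∃ S : ℕ, 1 ≤ S ∧ ∀ d : ℕ, 1 ≤ d →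
      (∀ j : ℕ, |(H d).coeff j| ≤ S * (H d).leadingCoeff) ∧
      (H d).leadingCoeff ≤ S * (d : ℤ) ^ h.natDegree := by
  obtain ⟨T, hT⟩ : ∃ T : ℕ, (T : ℤ) = ∑ i ∈ Finset.range (h.natDegree + 1),
      2 ^ i * |h.coeff i| :=
    ⟨(∑ i ∈ Finset.range (h.natDegree + 1), 2 ^ i * |h.coeff i|).toNat,
      Int.toNat_of_nonneg (Finset.sum_nonneg fun i _ => by (clear * -; positivity))⟩
  refine ⟨T + h.leadingCoeff.toNat + 1, by omega, fun d hd => ?_⟩
  have hd0 : (0 : ℤ) < d := by exact_mod_cast hd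
  have hd1 : (1 : ℤ) ≤ d := by exact_mod_cast hd
  have hl1 : (1 : ℤ) ≤ lam d := by exact_mod_cast hA.lam_pos d hd
  have hlead := hA.lead_H hk d hd
  have hleadpos := hA.lead_pos hk hpos d hd
  have hlc : ((h.leadingCoeff.toNat : ℕ) : ℤ) = h.leadingCoeff := Int.toNat_of_nonneg hpos.le
  have hdk : (1 : ℤ) ≤ (d : ℤ) ^ h.natDegree := one_le_pow₀ hd1
  have hr : |r d| ≤ d := by
    have := hA.hr d hd
    rw [abs_le]
    constructor <;> linarith only [this]
  constructor
  · intro j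
    have h1 : (lam d : ℤ) * (H d).coeff j = (h.comp (C (r d) + C (d : ℤ) * X)).coeff j := by
      rw [← hA.hH d hd, coeff_C_mul]
    have h2 : h.comp (C (r d) + C (d : ℤ) * X) = (taylor (r d) h).comp (C (d : ℤ) * X) := by
      rw [taylor_apply, comp_assoc]
      congr 1
      simp only [add_comp, X_comp, C_comp]
      ring
    have h3 : (h.comp (C (r d) + C (d : ℤ) * X)).coeff j =
        ∑ i ∈ Finset.range (h.natDegree + 1),
          (((i.choose j : ℕ) : ℤ) * h.coeff i * (r d) ^ (i - j)) * (d : ℤ) ^ j := by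
      rw [h2, comp_C_mul_X_coeff, taylor_coeff, hasseDeriv_apply, ← Finset.sum_mul]
      congr 1
      rw [Polynomial.sum_over_range _ (by intro n; simp only [mul_zero, monomial_zero_right]), eval_finsetSum]
      exact Finset.sum_congr rfl fun i _ => by rw [eval_monomial]
    have h4 : |(lam d : ℤ) * (H d).coeff j| ≤ T * (d : ℤ) ^ h.natDegree := by
      rw [h1, h3, hT, Finset.sum_mul]
      refine (Finset.abs_sum_le_sum_abs _ _).trans (Finset.sum_le_sum fun i hi => ?_)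
      rw [Finset.mem_range] at hi
      by_cases hij : j ≤ i
      · rw [abs_mul, abs_mul, abs_mul, abs_pow, abs_pow, Nat.abs_cast, Nat.abs_cast]
        have h5 : ((i.choose j : ℕ) : ℤ) ≤ 2 ^ i := by exact_mod_cast Nat.choose_le_two_pow i j
        have h6 : |r d| ^ (i - j) * (d : ℤ) ^ j ≤ (d : ℤ) ^ h.natDegree := by
          calc |r d| ^ (i - j) * (d : ℤ) ^ j ≤ (d : ℤ) ^ (i - j) * (d : ℤ) ^ j := by
                (clear * - hr hd; gcongr)
            _ = (d : ℤ) ^ i := by rw [← pow_add, Nat.sub_add_cancel hij]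
            _ ≤ (d : ℤ) ^ h.natDegree := pow_le_pow_right₀ hd1 (by omega)
        calc ((i.choose j : ℕ) : ℤ) * |h.coeff i| * |r d| ^ (i - j) * (d : ℤ) ^ j
            = (((i.choose j : ℕ) : ℤ) * |h.coeff i|) * (|r d| ^ (i - j) * (d : ℤ) ^ j) := by ring
          _ ≤ (2 ^ i * |h.coeff i|) * (d : ℤ) ^ h.natDegree := by
              (clear * - h5 h6 hd; gcongr)
      · rw [Nat.choose_eq_zero_of_lt (by omega)]
        simp only [Nat.cast_zero, zero_mul, abs_zero]
        (clear * - hd; positivity)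
    rw [abs_mul, Nat.abs_cast] at h4
    have h5 : (lam d : ℤ) * |(H d).coeff j| ≤
        (lam d : ℤ) * (((T + h.leadingCoeff.toNat + 1 : ℕ) : ℤ) * (H d).leadingCoeff) := by
      calc (lam d : ℤ) * |(H d).coeff j| ≤ T * (d : ℤ) ^ h.natDegree := h4
        _ ≤ T * (h.leadingCoeff * (d : ℤ) ^ h.natDegree) := by
            apply mul_le_mul_of_nonneg_left _ (by (clear * -; positivity))
            nlinarith only [hpos, hdk]
        _ = T * ((lam d : ℤ) * (H d).leadingCoeff) := by rw [hlead]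
        _ ≤ (lam d : ℤ) * (((T + h.leadingCoeff.toNat + 1 : ℕ) : ℤ) * (H d).leadingCoeff) := by
            have h6 : (0 : ℤ) ≤ (lam d : ℤ) * (H d).leadingCoeff := by (clear * - hl1 hleadpos; positivity)
            push_cast
            rw [hlc]
            nlinarith only [hpos, h6]
    exact le_of_mul_le_mul_left h5 (by linarith only [hl1])
  · push_cast
    rw [hlc]
    have h6 : (H d).leadingCoeff ≤ (lam d : ℤ) * (H d).leadingCoeff := by nlinarith only [hl1, hleadpos]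
    rw [hlead] at h6
    have h7 : (0 : ℤ) ≤ T := by (clear * -; positivity)
    nlinarith only [hdk, h6]

theorem AuxData.eval_bound (hA : AuxData h lam r H R) (hk : 1 ≤ h.natDegree)
    (hpos : 0 < h.leadingCoeff) :
    ∃ S : ℕ, 1 ≤ S ∧ ∀ d : ℕ, 1 ≤ d → ∀ n : ℕ, 1 ≤ n →
      |(H d).eval (n : ℤ)| ≤ S * (H d).leadingCoeff * (n : ℤ) ^ h.natDegree := by
  obtain ⟨S, hS1, hS⟩ := hA.coeff_bound hk hpos
  refine ⟨(h.natDegree + 1) * S, Nat.mul_pos (by omega) hS1, fun d hd n hn => ?_⟩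
  have hn1 : (1 : ℤ) ≤ n := by exact_mod_cast hn
  rw [eval_eq_sum_range, hA.natDegree_H hk d hd]
  refine (Finset.abs_sum_le_sum_abs _ _).trans ?_
  have h1 : ∀ i ∈ Finset.range (h.natDegree + 1), |(H d).coeff i * (n : ℤ) ^ i| ≤
      S * (H d).leadingCoeff * (n : ℤ) ^ h.natDegree := by
    intro i hi
    rw [Finset.mem_range] at hi
    rw [abs_mul, abs_pow, Nat.abs_cast]
    have h2 := (hS d hd).1 i
    have h3 : (n : ℤ) ^ i ≤ (n : ℤ) ^ h.natDegree := pow_le_pow_right₀ hn1 (by omega)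
    have h4 := abs_nonneg ((H d).coeff i)
    exact mul_le_mul h2 h3 (by positivity) (h4.trans h2)
  refine (Finset.sum_le_card_nsmul _ _ _ h1).trans ?_
  rw [Finset.card_range, nsmul_eq_mul]
  push_cast
  apply le_of_eq
  ring

/-- passing to a progression of difference `lam q` -/
theorem AuxData.diffFree_sub (hA : AuxData h lam r H R) (d q : ℕ) (hd : 1 ≤ d) (hq : 1 ≤ q)
    (A : Finset ℤ) (hfree : DiffFree (H d) A) (x : ℤ) (B : Finset ℤ)
    (hB : ∀ j ∈ B, x + lam q * j ∈ A) : DiffFree (H (d * q)) B := by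
  have hdq : 1 ≤ d * q := Nat.mul_pos hd hq
  have hd0 : (0 : ℤ) < d := by exact_mod_cast hd
  rintro y ⟨hy1, n, hn, hny⟩
  obtain ⟨b1, hb1, b2, hb2, rfl⟩ := Set.mem_sub.1 hy1
  obtain ⟨t, ht⟩ := hA.hrr d q hd hq
  have h1 := hA.hr (d * q) hdq
  have h2 := hA.hr d hd
  -- m = t + q n
  have hm : 1 ≤ t + q * n := by
    have h3 : (d : ℤ) * (-(q : ℤ)) < d * t := by
      rw [← ht]
      have := h1.1
      push_cast at this
      linarith
    have h4 : -(q : ℤ) < t := lt_of_mul_lt_mul_left h3 hd0.le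
    have h5 : (q : ℤ) ≤ q * n := by
      have : (1 : ℤ) ≤ n := by exact_mod_cast hn
      have hq0 : (0 : ℤ) ≤ q := by positivity
      nlinarith only [hn]
    linarith only [h4, h5]
  obtain ⟨m, hm'⟩ : ∃ m : ℕ, (m : ℤ) = t + q * n := ⟨(t + q * n).toNat, Int.toNat_of_nonneg (by linarith only [hm])⟩
  have hm1 : 1 ≤ m := by
    have : (1 : ℤ) ≤ m := by rw [hm']; exact hm
    exact_mod_cast this
  have e1 : (lam (d * q) : ℤ) * (H (d * q)).eval (n : ℤ) = h.eval (r (d * q) + (d * q : ℕ) * n) := by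
    have := congrArg (fun P : ℤ[X] => P.eval (n : ℤ)) (hA.hH (d * q) hdq)
    simpa only [Nat.cast_mul, map_natCast, eval_mul, eval_natCast, eq_intCast, Int.cast_mul, Int.cast_natCast,     eval_comp, eval_add, eval_intCast, Int.cast_eq, eval_X] using this
  have e2 : (lam d : ℤ) * (H d).eval (m : ℤ) = h.eval (r d + (d : ℤ) * m) := by
    have := congrArg (fun P : ℤ[X] => P.eval (m : ℤ)) (hA.hH d hd)
    simpa only [map_natCast, eval_mul, eval_natCast, eq_intCast, eval_comp, eval_add, eval_intCast, Int.cast_eq,     eval_X] using this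
  have e3 : r (d * q) + (d * q : ℕ) * (n : ℤ) = r d + (d : ℤ) * m := by
    rw [hm']
    push_cast
    linear_combination ht
  have e4 : (lam q : ℤ) * (H (d * q)).eval (n : ℤ) = (H d).eval (m : ℤ) := by
    have hl : (lam d : ℤ) ≠ 0 := by
      have := hA.lam_pos d hd
      exact_mod_cast (by omega : lam d ≠ 0)
    apply mul_left_cancel₀ hl
    rw [e2, ← e3, ← e1, hA.hmul d q hd hq]
    push_cast
    ring
  have hmem : (H d).eval (m : ℤ) ∈ ((A : Set ℤ) - (A : Set ℤ)) ∩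
      {y : ℤ | ∃ n : ℕ, 1 ≤ n ∧ (H d).eval (n : ℤ) = y} := by
    refine ⟨Set.mem_sub.2 ⟨x + lam q * b1, hB b1 hb1, x + lam q * b2, hB b2 hb2, ?_⟩,
      m, hm1, rfl⟩
    rw [← e4, hny]
    ring
  have h0 := hfree hmem
  rw [Set.mem_singleton_iff, ← e4, hny] at h0
  have hlq : (lam q : ℤ) ≠ 0 := by
    have := hA.lam_pos q hq
    exact_mod_cast (by omega : lam q ≠ 0)
  rw [Set.mem_singleton_iff]
  exact (mul_eq_zero.1 h0).resolve_left hlq

/-- a polynomial of degree `k ≥ 1` takes the value zero at most `k` times -/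
theorem card_zero_le (P : ℤ[X]) (hP : P ≠ 0) (M : ℕ) :
    ((Finset.Icc 1 M).filter (fun n : ℕ => P.eval (n : ℤ) = 0)).card ≤ P.natDegree := by
  classical
  calc ((Finset.Icc 1 M).filter (fun n : ℕ => P.eval (n : ℤ) = 0)).card
      ≤ P.roots.toFinset.card := by
        apply Finset.card_le_card_of_injOn (fun n : ℕ => (n : ℤ))
        · intro n hn
          rw [Finset.coe_filter] at hn
          simp only [Finset.mem_coe, Multiset.mem_toFinset]
          rw [mem_roots hP]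
          exact hn.2
        · intro a _ b _ hab
          simpa using hab
    _ ≤ P.roots.card := Multiset.toFinset_card_le _
    _ ≤ P.natDegree := card_roots' P

end Vale.Agent.P042
end
end
end

section

section

section

namespace Vale.Agent.P042

open Finset Polynomial

/-- The additive character e(x). -/
noncomputable def ee (x : ℝ) : ℂ := Complex.exp ((2 * Real.pi * x : ℝ) * Complex.I)

lemma norm_ee (x : ℝ) : ‖ee x‖ = 1 := Complex.norm_exp_ofReal_mul_I _

lemma ee_add (x y : ℝ) : ee (x + y) = ee x * ee y := by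
  unfold ee
  rw [← Complex.exp_add]
  congr 1
  push_cast
  ring

lemma ee_zero : ee 0 = 1 := by simp [ee]

lemma ee_int (n : ℤ) : ee n = 1 := by
  unfold ee
  rw [Complex.exp_eq_one_iff]
  exact ⟨n, by push_cast; ring⟩

lemma ee_add_int (x : ℝ) (n : ℤ) : ee (x + n) = ee x := by
  rw [ee_add, ee_int, mul_one]

lemma ee_sub_int (x : ℝ) (n : ℤ) : ee (x - n) = ee x := by
  have := ee_add_int x (-n)
  simpa only [sub_eq_add_neg, Int.cast_neg] using this

lemma ee_neg (x : ℝ) : ee (-x) = (starRingEnd ℂ) (ee x) := by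
  unfold ee
  rw [← Complex.exp_conj]
  congr 1
  rw [map_mul, Complex.conj_I, Complex.conj_ofReal]
  push_cast
  ring

lemma ee_sub (x y : ℝ) : ee (x - y) = ee x * (starRingEnd ℂ) (ee y) := by
  rw [sub_eq_add_neg, ee_add, ee_neg]

lemma ee_nat_mul (n : ℕ) (x : ℝ) : ee (n * x) = ee x ^ n := by
  unfold ee
  rw [← Complex.exp_nat_mul]
  congr 1
  push_cast
  ring

lemma norm_ee_sub_le (x y : ℝ) : ‖ee x - ee y‖ ≤ 2 * Real.pi * |x - y| := by
  have h1 : ee x - ee y = ee y * (ee (x - y) - 1) := by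
    have : ee x = ee y * ee (x - y) := by rw [← ee_add]; congr 1; ring
    rw [this]; ring
  rw [h1, norm_mul, norm_ee, one_mul]
  have h2 : ee (x - y) = Complex.exp (Complex.I * ((2 * Real.pi * (x - y) : ℝ) : ℂ)) := by
    unfold ee; rw [mul_comm]
  rw [h2]
  refine (Real.norm_exp_I_mul_ofReal_sub_one_le).trans ?_
  rw [Real.norm_eq_abs, abs_mul, abs_of_pos (by positivity : (0:ℝ) < 2 * Real.pi)]

/-- Distance to the nearest integer. -/
noncomputable def nz (x : ℝ) : ℝ := ‖((x : ℝ) : UnitAddCircle)‖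

lemma nz_nonneg (x : ℝ) : 0 ≤ nz x := norm_nonneg _

lemma nz_eq (x : ℝ) : nz x = |x - round x| := UnitAddCircle.norm_eq

lemma nz_le_abs_sub_int (x : ℝ) (n : ℤ) : nz x ≤ |x - n| := by
  rw [nz_eq]; exact round_le x n

lemma nz_le_half (x : ℝ) : nz x ≤ 1 / 2 := by
  rw [nz_eq]; exact abs_sub_round x

lemma nz_add_le (x y : ℝ) : nz (x + y) ≤ nz x + nz y := by
  unfold nz
  rw [AddCircle.coe_add]
  exact norm_add_le _ _

lemma nz_neg (x : ℝ) : nz (-x) = nz x := by
  unfold nz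
  rw [AddCircle.coe_neg, norm_neg]

lemma nz_sub_le (x y : ℝ) : nz (x - y) ≤ nz x + nz y := by
  rw [sub_eq_add_neg, ← nz_neg y]; exact nz_add_le _ _

lemma nz_nat_mul_le (n : ℕ) (x : ℝ) : nz (n * x) ≤ n * nz x := by
  have h := nz_le_abs_sub_int (n * x) (n * round x)
  refine h.trans (le_of_eq ?_)
  rw [nz_eq x]
  push_cast
  rw [← mul_sub, abs_mul, Nat.abs_cast]

lemma nz_int_mul_le (n : ℤ) (x : ℝ) : nz (n * x) ≤ |(n : ℝ)| * nz x := by
  have h := nz_le_abs_sub_int (n * x) (n * round x)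
  refine h.trans (le_of_eq ?_)
  rw [nz_eq x]
  push_cast
  rw [← mul_sub, abs_mul]

lemma nz_add_int (x : ℝ) (n : ℤ) : nz (x + n) = nz x := by
  unfold nz
  rw [AddCircle.coe_add]
  have : ((n : ℝ) : UnitAddCircle) = 0 := by
    rw [AddCircle.coe_eq_zero_iff]
    exact ⟨n, by simp⟩
  rw [this, add_zero]

lemma nz_sum_le {ι : Type*} (s : Finset ι) (f : ι → ℝ) : nz (∑ i ∈ s, f i) ≤ ∑ i ∈ s, nz (f i) := by
  classical
  induction s using Finset.induction_on with
  | empty => simp only [nz, sum_empty, QuotientAddGroup.mk_zero, norm_zero, Std.le_refl]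
  | insert a s ha ih =>
    rw [Finset.sum_insert ha, Finset.sum_insert ha]
    exact (nz_add_le _ _).trans (by linarith only [ih])

lemma four_nz_le (x : ℝ) : 4 * nz x ≤ ‖ee x - 1‖ := by
  -- reduce to t = x - round x
  set t : ℝ := x - round x with ht
  have hx : ee x = ee t := by rw [ht, ee_sub_int]
  have hnz : nz x = |t| := nz_eq x
  have htabs : |t| ≤ 1 / 2 := abs_sub_round x
  rw [hx, hnz]
  have h1 : ‖ee t - 1‖ = 2 * |Real.sin (Real.pi * t)| := by
    unfold ee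
    have := Complex.norm_exp_I_mul_ofReal_sub_one (2 * Real.pi * t)
    rw [mul_comm] at this
    rw [this, Real.norm_eq_abs, abs_mul, abs_two]
    congr 2
    ring_nf
  rw [h1]
  have h2 : |Real.sin (Real.pi * t)| = Real.sin (Real.pi * |t|) := by
    rcases le_or_gt 0 t with h | h
    · rw [abs_of_nonneg h, abs_of_nonneg]
      apply Real.sin_nonneg_of_nonneg_of_le_pi
      · (clear * - h; positivity)
      · rw [abs_of_nonneg h] at htabs
        nlinarith only [htabs, Real.pi_pos]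
    · rw [abs_of_neg h]
      have : Real.sin (Real.pi * t) = - Real.sin (Real.pi * (-t)) := by
        rw [← Real.sin_neg]; ring_nf
      rw [this, abs_neg, abs_of_nonneg]
      apply Real.sin_nonneg_of_nonneg_of_le_pi
      · have : 0 ≤ -t := by linarith only [h]
        (clear * - this; positivity)
      · rw [abs_of_neg h] at htabs
        nlinarith only [htabs, Real.pi_pos]
  rw [h2]
  have h3 := Real.mul_le_sin (x := Real.pi * |t|) (by (clear * -; positivity)) (by nlinarith only [htabs, Real.pi_pos])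
  have h4 : 2 / Real.pi * (Real.pi * |t|) = 2 * |t| := by
    field_simp
  linarith only [h3, h4]

/-- Exponential sum of a polynomial over an initial segment. -/
noncomputable def SS (g : ℝ[X]) (L : ℕ) : ℂ := ∑ n ∈ range L, ee (g.eval (n : ℝ))

lemma norm_SS_le (g : ℝ[X]) (L : ℕ) : ‖SS g L‖ ≤ L := by
  unfold SS
  refine (norm_sum_le _ _).trans ?_
  simp only [norm_ee, sum_const, card_range, nsmul_eq_mul, mul_one, Std.le_refl]

/-- Geometric sums. -/
lemma geom_bound (a b : ℝ) (L : ℕ) :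
    2 * nz a * ‖∑ n ∈ range L, ee (a * n + b)‖ ≤ 1 := by
  have h1 : ∑ n ∈ range L, ee (a * n + b) = ee b * ∑ n ∈ range L, (ee a) ^ n := by
    rw [Finset.mul_sum]
    refine Finset.sum_congr rfl fun n _ => ?_
    rw [ee_add, mul_comm a, ee_nat_mul, mul_comm]
  rw [h1, norm_mul, norm_ee, one_mul]
  have h2 : (∑ n ∈ range L, (ee a) ^ n) * (ee a - 1) = (ee a) ^ L - 1 := geom_sum_mul _ _
  have h3 : ‖∑ n ∈ range L, (ee a) ^ n‖ * ‖ee a - 1‖ ≤ 2 := by
    rw [← norm_mul, h2]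
    refine (norm_sub_le _ _).trans ?_
    rw [norm_pow, norm_ee]
    norm_num
  have h4 := four_nz_le a
  have h5 : 0 ≤ ‖∑ n ∈ range L, (ee a) ^ n‖ := norm_nonneg _
  nlinarith only [h3, h4, h5]

lemma sq_expand (f : ℕ → ℂ) (L : ℕ) :
    ‖∑ n ∈ range L, f n‖ ^ 2 = ∑ n ∈ range L, ‖f n‖ ^ 2 +
      2 * (∑ m ∈ range L, ∑ n ∈ range m, f m * (starRingEnd ℂ) (f n)).re := by
  induction L with
  | zero => simp only [range_zero, sum_empty, norm_zero, ne_eq, OfNat.ofNat_ne_zero, not_false_eq_true, zero_pow, Complex.zero_re, mul_zero, add_zero]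
  | succ L ih =>
    rw [Finset.sum_range_succ f, Finset.sum_range_succ (fun n => ‖f n‖ ^ 2),
      Finset.sum_range_succ (fun m => ∑ n ∈ range m, f m * (starRingEnd ℂ) (f n))]
    rw [← Finset.mul_sum, ← map_sum]
    have h : ∀ z w : ℂ, ‖z + w‖ ^ 2 = ‖z‖ ^ 2 + ‖w‖ ^ 2 + 2 * (w * (starRingEnd ℂ) z).re := by
      intro z w
      rw [← Complex.normSq_eq_norm_sq, ← Complex.normSq_eq_norm_sq, ← Complex.normSq_eq_norm_sq,
        Complex.normSq_add]
      congr 2
      simp only [Complex.mul_re, Complex.conj_re, Complex.conj_im, mul_neg, sub_neg_eq_add]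
      ring
    rw [h, ih, Complex.add_re]
    ring

lemma reindex (f : ℕ → ℂ) (L : ℕ) :
    ∑ m ∈ range L, ∑ n ∈ range m, f m * (starRingEnd ℂ) (f n) =
      ∑ h ∈ Ico 1 L, ∑ n ∈ range (L - h), f (n + h) * (starRingEnd ℂ) (f n) := by
  induction L with
  | zero => simp only [range_zero, sum_empty, zero_le, Ico_eq_empty_of_le, zero_tsub, sum_const_zero]
  | succ L ih =>
    rw [Finset.sum_range_succ, ih]
    rcases Nat.eq_zero_or_pos L with rfl | hL
    · simp only [zero_le, Ico_eq_empty_of_le, zero_tsub, range_zero, sum_empty, sum_const_zero, add_zero, zero_add, Std.le_refl]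
    rw [Finset.sum_Ico_succ_top (by omega : 1 ≤ L)]
    have h1 : ∀ h ∈ Ico 1 L, ∑ n ∈ range (L + 1 - h), f (n + h) * (starRingEnd ℂ) (f n) =
        ∑ n ∈ range (L - h), f (n + h) * (starRingEnd ℂ) (f n) +
          f L * (starRingEnd ℂ) (f (L - h)) := by
      intro h hh
      rw [Finset.mem_Ico] at hh
      have : L + 1 - h = (L - h) + 1 := by omega
      rw [this, Finset.sum_range_succ]
      congr 3
      omega
    rw [Finset.sum_congr rfl h1, Finset.sum_add_distrib]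
    have h2 : ∑ n ∈ range (L + 1 - L), f (n + L) * (starRingEnd ℂ) (f n) =
        f L * (starRingEnd ℂ) (f (L - L)) := by
      simp only [add_tsub_cancel_left, range_one, sum_singleton, zero_add, tsub_self]
    rw [h2, add_assoc]
    congr 1
    rw [← Finset.sum_Ico_succ_top (by omega : 1 ≤ L) (fun h => f L * (starRingEnd ℂ) (f (L - h)))]
    rw [← Finset.mul_sum, ← Finset.mul_sum]
    congr 1
    rw [Finset.range_eq_Ico]
    refine Finset.sum_bij' (fun n _ => L - n) (fun h _ => L - h) ?_ ?_ ?_ ?_ ?_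
    · intro n hn; rw [Finset.mem_Ico] at *; omega
    · intro n hn; rw [Finset.mem_Ico] at *; omega
    · intro n hn; rw [Finset.mem_Ico] at hn; omega
    · intro n hn; rw [Finset.mem_Ico] at hn; omega
    · intro n hn; rw [Finset.mem_Ico] at hn
      congr 2; omega

/-- Differencing inequality. -/
lemma diff_sq (f : ℕ → ℂ) (hf : ∀ n, ‖f n‖ ≤ 1) (L : ℕ) :
    ‖∑ n ∈ range L, f n‖ ^ 2 ≤
      L + 2 * ∑ h ∈ Ico 1 L, ‖∑ n ∈ range (L - h), f (n + h) * (starRingEnd ℂ) (f n)‖ := by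
  rw [sq_expand, reindex]
  have h1 : ∑ n ∈ range L, ‖f n‖ ^ 2 ≤ L := by
    calc ∑ n ∈ range L, ‖f n‖ ^ 2 ≤ ∑ n ∈ range L, (1 : ℝ) := by
          refine Finset.sum_le_sum fun n _ => ?_
          have := hf n
          have h0 := norm_nonneg (f n)
          nlinarith
      _ = L := by simp
  have h2 := (Complex.re_le_norm (∑ h ∈ Ico 1 L, ∑ n ∈ range (L - h), f (n + h) * (starRingEnd ℂ) (f n)))
  have h3 := norm_sum_le (Ico 1 L) (fun h => ∑ n ∈ range (L - h), f (n + h) * (starRingEnd ℂ) (f n))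
  linarith only [h1, h2, h3]

lemma card_le_of_diam (F : Finset ℤ) (D : ℝ) (hD : 0 ≤ D)
    (h : ∀ a ∈ F, ∀ b ∈ F, (a : ℝ) - b ≤ D) : (F.card : ℝ) ≤ D + 1 := by
  rcases F.eq_empty_or_nonempty with rfl | hne
  · simp only [card_empty, CharP.cast_eq_zero]; linarith
  have h1 : F ⊆ Finset.Icc (F.min' hne) (F.max' hne) := fun x hx =>
    Finset.mem_Icc.2 ⟨F.min'_le x hx, F.le_max' x hx⟩
  have h2 := Finset.card_le_card h1
  rw [Int.card_Icc] at h2
  have h3 := h _ (F.max'_mem hne) _ (F.min'_mem hne)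
  have h4 : F.min' hne ≤ F.max' hne := F.min'_le _ (F.max'_mem hne)
  have h5 : ((F.max' hne + 1 - F.min' hne).toNat : ℤ) = F.max' hne + 1 - F.min' hne :=
    Int.toNat_of_nonneg (by omega)
  have h6 : (F.card : ℤ) ≤ F.max' hne + 1 - F.min' hne := by omega
  have h7 : (F.card : ℝ) ≤ F.max' hne + 1 - F.min' hne := by exact_mod_cast h6
  linarith only [h3, h7]

lemma count_near_pos (β θ σ : ℝ) (T : ℕ) (A : Finset ℕ) (hA : A ⊆ range T) (hθ : 0 < θ)
    (hσ0 : 0 ≤ σ) (hσ : σ ≤ 1 / 2) (good : ∀ m ∈ A, nz (β + m * θ) ≤ σ) :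
    (A.card : ℝ) ≤ (T * θ + 2) * (2 * σ / θ + 1) := by
  classical
  set k : ℕ → ℤ := fun m => round (β + m * θ) with hk
  have hg : ∀ m ∈ A, |β + m * θ - k m| ≤ σ := fun m hm => by
    have := good m hm
    rwa [nz_eq] at this
  -- fibres
  have hfib : ∀ a ∈ A.image k, ((A.filter fun x => k x = a).card) ≤ ⌊2 * σ / θ + 1⌋₊ := by
    intro a _
    apply Nat.le_floor
    have h1 := card_le_of_diam ((A.filter fun x => k x = a).map ⟨fun n : ℕ => (n : ℤ), Nat.cast_injective⟩)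
      (2 * σ / θ) (by (clear * - hσ0 hθ; positivity)) ?_
    · rwa [Finset.card_map] at h1
    · intro x hx y hy
      rw [Finset.mem_map] at hx hy
      obtain ⟨m, hm, rfl⟩ := hx
      obtain ⟨n, hn, rfl⟩ := hy
      rw [Finset.mem_filter] at hm hn
      have e1 := abs_le.1 (hg m hm.1)
      have e2 := abs_le.1 (hg n hn.1)
      rw [hm.2] at e1
      rw [hn.2] at e2
      simp only [Function.Embedding.coeFn_mk, Int.cast_natCast]
      rw [le_div_iff₀ hθ]
      linarith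
  have h1 := Finset.card_le_mul_card_image A _ hfib
  have h2 : ((A.image k).card : ℝ) ≤ T * θ + 1 + 1 := by
    apply card_le_of_diam _ _ (by (clear * - hθ; positivity))
    intro x hx y hy
    rw [Finset.mem_image] at hx hy
    obtain ⟨m, hm, rfl⟩ := hx
    obtain ⟨n, hn, rfl⟩ := hy
    have e1 := abs_le.1 (hg m hm)
    have e2 := abs_le.1 (hg n hn)
    have e3 : (m : ℝ) ≤ T := by
      have := Finset.mem_range.1 (hA hm)
      exact_mod_cast this.le
    have e4 : (0 : ℝ) ≤ n := Nat.cast_nonneg n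
    nlinarith only [hσ, e1, e2, e3, hθ]
  have h3 : (⌊2 * σ / θ + 1⌋₊ : ℝ) ≤ 2 * σ / θ + 1 := Nat.floor_le (by (clear * - hσ0 hθ; positivity))
  calc (A.card : ℝ) ≤ ((⌊2 * σ / θ + 1⌋₊ * (A.image k).card : ℕ) : ℝ) := by exact_mod_cast h1
    _ = (⌊2 * σ / θ + 1⌋₊ : ℝ) * ((A.image k).card : ℝ) := by push_cast; ring
    _ ≤ (2 * σ / θ + 1) * (T * θ + 1 + 1) := by
        apply mul_le_mul h3 h2 (Nat.cast_nonneg _) (by (clear * - hσ0 hθ; positivity))
    _ = _ := by ring

lemma count_near (β θ σ : ℝ) (T : ℕ) (A : Finset ℕ) (hA : A ⊆ range T) (hθ : θ ≠ 0)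
    (hσ0 : 0 ≤ σ) (hσ : σ ≤ 1 / 2) (good : ∀ m ∈ A, nz (β + m * θ) ≤ σ) :
    (A.card : ℝ) ≤ (T * |θ| + 2) * (2 * σ / |θ| + 1) := by
  rcases lt_or_gt_of_ne hθ with h | h
  · rw [abs_of_neg h]
    apply count_near_pos (-β) (-θ) σ T A hA (by linarith only [h]) hσ0 hσ
    intro m hm
    have : -β + m * -θ = -(β + m * θ) := by ring
    rw [this, nz_neg]
    exact good m hm
  · rw [abs_of_pos h]
    exact count_near_pos β θ σ T A hA h hσ0 hσ good

/-- Vinogradov-type lemma. -/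
lemma vino (α σ δ : ℝ) (M : ℕ) (S : Finset ℕ) (hS : S ⊆ range M) (hσ0 : 0 ≤ σ)
    (good : ∀ h ∈ S, nz (h * α) ≤ σ) (hδ : 0 < δ) (hδ1 : δ ≤ 1) (hcard : δ * M ≤ S.card)
    (hσ : σ ≤ δ / 8) (hM : 2 < δ * M) :
    ∃ q : ℕ, 1 ≤ q ∧ δ * q ≤ 2 ∧ nz (q * α) * (δ ^ 2 * M) ≤ 48 * σ := by
  classical
  -- Step 1
  set B : ℕ := ⌈2 / δ⌉₊ with hB
  have hBpos : 0 < B := Nat.ceil_pos.2 (by positivity)
  have hB1 : 2 / δ ≤ B := Nat.le_ceil _
  have hB2 : (B : ℝ) < 2 / δ + 1 := Nat.ceil_lt_add_one (by positivity)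
  have hmaps : Set.MapsTo (fun h : ℕ => h / B) (S : Set ℕ) (range (M / B + 1) : Finset ℕ) := by
    intro h hh
    have h1 := Finset.mem_range.1 (hS hh)
    simp only [Finset.coe_range, Set.mem_Iio]
    exact Nat.lt_succ_of_le (Nat.div_le_div_right h1.le)
  have hlt : (range (M / B + 1)).card < S.card := by
    rw [Finset.card_range]
    have h1 : ((M / B : ℕ) : ℝ) ≤ M / B := Nat.cast_div_le
    have h2 : (M : ℝ) / B ≤ δ * M / 2 := by
      rw [div_le_iff₀ (by exact_mod_cast hBpos)]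
      rw [div_le_iff₀ hδ] at hB1
      have : (0 : ℝ) ≤ M := Nat.cast_nonneg M
      nlinarith only [hB1]
    have h3 : ((M / B + 1 : ℕ) : ℝ) < S.card := by
      push_cast
      linarith only [hcard, hM, h1, h2]
    exact_mod_cast h3
  obtain ⟨x, hx, y, hy, hxy, hdiv⟩ := Finset.exists_ne_map_eq_of_card_lt_of_maps_to hlt hmaps
  -- WLOG x < y
  have key : ∃ q : ℕ, 1 ≤ q ∧ q + 1 ≤ B ∧ nz (q * α) ≤ 2 * σ := by
    have aux : ∀ x ∈ S, ∀ y ∈ S, x < y → x / B = y / B →
        ∃ q : ℕ, 1 ≤ q ∧ q + 1 ≤ B ∧ nz (q * α) ≤ 2 * σ := by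
      intro x hx y hy hlt' hdiv
      refine ⟨y - x, by omega, ?_, ?_⟩
      · have e1 := Nat.div_add_mod x B
        have e2 := Nat.div_add_mod y B
        have e3 := Nat.mod_lt y hBpos
        rw [hdiv] at e1
        omega
      · rw [Nat.cast_sub hlt'.le, sub_mul]
        have := nz_sub_le (y * α) (x * α)
        have := good x hx
        have := good y hy
        (clear M hS hσ0 hδ hδ1 hcard hσ hM hB hBpos hB1 hB2 hmaps hlt hxy hlt' hdiv; linarith)
    rcases lt_or_gt_of_ne hxy with h | h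
    · exact aux x hx y hy h hdiv
    · exact aux y hy x hx h hdiv.symm
  obtain ⟨q, hq1, hqB, hq2⟩ := key
  have hqδ : δ * q ≤ 2 := by
    have h1 : ((q + 1 : ℕ) : ℝ) ≤ B := by exact_mod_cast hqB
    push_cast at h1
    have h2 : (q : ℝ) ≤ 2 / δ := by linarith only [hB2, h1]
    rw [le_div_iff₀ hδ] at h2
    linarith only [h2]
  refine ⟨q, hq1, hqδ, ?_⟩
  -- Step 2
  set θ : ℝ := q * α - round (q * α) with hθ
  have hnzθ : nz (q * α) = |θ| := nz_eq _
  rw [hnzθ]
  rcases eq_or_ne θ 0 with h0 | h0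
  · rw [h0]; simp only [abs_zero, zero_mul, Nat.ofNat_pos, mul_nonneg_iff_of_pos_left, ge_iff_le]; linarith only [hσ0]
  have hθpos : 0 < |θ| := abs_pos.2 h0
  have hθ2 : |θ| ≤ 2 * σ := by rw [← hnzθ]; exact hq2
  have hθ1 : |θ| ≤ 1 := by rw [← hnzθ]; exact (nz_le_half _).trans (by norm_num)
  have hσhalf : σ ≤ 1 / 2 := by linarith only [hδ1, hσ]
  set T : ℕ := M / q + 1 with hT
  have hTreal : (T : ℝ) ≤ M / q + 1 := by
    rw [hT]; push_cast
    have : ((M / q : ℕ) : ℝ) ≤ M / q := Nat.cast_div_le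
    linarith only [this]
  have hcls : ∀ r ∈ range q, ((S.filter fun n => n % q = r).card : ℝ) ≤
      (T * |θ| + 2) * (2 * σ / |θ| + 1) := by
    intro r _
    have hinj : Set.InjOn (fun n : ℕ => n / q) ((S.filter fun n => n % q = r : Finset ℕ) : Set ℕ) := by
      intro a ha b hb hab
      rw [Finset.mem_coe, Finset.mem_filter] at ha hb
      have e1 := Nat.div_add_mod a q
      have e2 := Nat.div_add_mod b q
      rw [ha.2] at e1
      rw [hb.2] at e2
      have hab' : a / q = b / q := hab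
      rw [hab'] at e1
      omega
    rw [← Finset.card_image_of_injOn hinj]
    apply count_near (r * α) θ σ T _ _ h0 hσ0 hσhalf
    · intro m hm
      rw [Finset.mem_image] at hm
      obtain ⟨n, hn, rfl⟩ := hm
      rw [Finset.mem_filter] at hn
      obtain ⟨hn1, hn2⟩ := hn
      have e1 := Nat.div_add_mod n q
      rw [hn2] at e1
      generalize n / q = j at e1 ⊢
      have e2 : (r : ℝ) * α + (j : ℝ) * θ = n * α + ((-(j * round (q * α)) : ℤ) : ℝ) := by
        rw [hθ]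
        push_cast
        have e3 : (n : ℝ) = q * (j : ℝ) + r := by exact_mod_cast e1.symm
        rw [e3]
        ring
      rw [e2, nz_add_int]
      exact good n hn1
    · intro m hm
      rw [Finset.mem_image] at hm
      obtain ⟨n, hn, rfl⟩ := hm
      rw [Finset.mem_filter] at hn
      have h1 := Finset.mem_range.1 (hS hn.1)
      rw [Finset.mem_range, hT]
      exact Nat.lt_succ_of_le (Nat.div_le_div_right h1.le)
  have hsum : (S.card : ℝ) ≤ q * ((T * |θ| + 2) * (2 * σ / |θ| + 1)) := by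
    have h1 : S.card = ∑ r ∈ range q, (S.filter fun n => n % q = r).card := by
      apply Finset.card_eq_sum_card_fiberwise
      intro n _
      simp only [Finset.coe_range, Set.mem_Iio]
      exact Nat.mod_lt _ (by omega)
    rw [h1]
    push_cast
    calc ∑ r ∈ range q, ((S.filter fun n => n % q = r).card : ℝ)
        ≤ ∑ r ∈ range q, (T * |θ| + 2) * (2 * σ / |θ| + 1) := Finset.sum_le_sum hcls
      _ = _ := by rw [Finset.sum_const, Finset.card_range, nsmul_eq_mul]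
  have hqpos : (0 : ℝ) < q := by exact_mod_cast hq1
  have h4 : 2 * σ / |θ| + 1 ≤ 4 * σ / |θ| := by
    rw [div_add_one hθpos.ne', div_le_div_iff_of_pos_right hθpos]
    linarith only [hq2, hnzθ]
  have h5 : q * (T * |θ| + 2) ≤ M * |θ| + 3 * q := by
    have : q * (T * |θ|) ≤ q * ((M / q + 1) * |θ|) := by
      apply mul_le_mul_of_nonneg_left _ hqpos.le
      exact mul_le_mul_of_nonneg_right hTreal hθpos.le
    have e : (q : ℝ) * ((M / q + 1) * |θ|) = M * |θ| + q * |θ| := by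
      (clear * - hq1 h0; field_simp)
    nlinarith only [this, e, hδ1, hσ, hq2, hnzθ]
  have h6 : (S.card : ℝ) ≤ (M * |θ| + 3 * q) * (4 * σ / |θ|) := by
    calc (S.card : ℝ) ≤ q * (T * |θ| + 2) * (2 * σ / |θ| + 1) := by linarith only [hsum]
      _ ≤ (M * |θ| + 3 * q) * (4 * σ / |θ|) := by
        apply mul_le_mul h5 h4 (by (clear * - hσ0 h0; positivity)) (by (clear * - h0 hq1; positivity))
  have h7 : (M * |θ| + 3 * q) * (4 * σ / |θ|) * |θ| = 4 * σ * (M * |θ| + 3 * q) := by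
    (clear * - h0 hq1; field_simp)
  have h8 : δ * M * |θ| ≤ 4 * σ * (M * |θ| + 3 * q) := by
    rw [← h7]
    exact mul_le_mul_of_nonneg_right (hcard.trans h6) hθpos.le
  have hMnn : (0 : ℝ) ≤ M := Nat.cast_nonneg M
  have h9 : 4 * σ * (M * |θ|) ≤ δ / 2 * (M * |θ|) := by
    apply mul_le_mul_of_nonneg_right _ (by (clear * - h0; positivity))
    linarith only [hσ]
  have h10 : δ * M * |θ| ≤ 24 * σ * q := by nlinarith only [h8, h9]
  calc |θ| * (δ ^ 2 * M) = δ * (δ * M * |θ|) := by ring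
    _ ≤ δ * (24 * σ * q) := mul_le_mul_of_nonneg_left h10 hδ.le
    _ = 24 * σ * (δ * q) := by ring
    _ ≤ 24 * σ * 2 := by
        apply mul_le_mul_of_nonneg_left hqδ (by (clear * - hσ0; positivity))
    _ = 48 * σ := by ring

lemma taylor_coeff_sum (r : ℝ) (f : ℝ[X]) (N n : ℕ) (hf : f.natDegree ≤ N) :
    (taylor r f).coeff n =
      ∑ j ∈ Finset.range (N + 1), (j.choose n : ℝ) * r ^ (j - n) * f.coeff j := by
  rw [taylor_coeff, hasseDeriv_apply, Polynomial.sum_over_range' f _ (N+1) (by omega),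
    eval_finsetSum]
  · refine Finset.sum_congr rfl fun j _ => ?_
    simp only [eval_monomial]
    ring
  · intro j; simp only [mul_zero, monomial_zero_right]

/-- Discrete derivative. -/
noncomputable def dd (h : ℝ) (g : ℝ[X]) : ℝ[X] := taylor h g - g

lemma dd_eval (h : ℝ) (g : ℝ[X]) (x : ℝ) : (dd h g).eval x = g.eval (x + h) - g.eval x := by
  unfold dd
  rw [eval_sub, taylor_eval]

lemma dd_coeff_top (h : ℝ) (g : ℝ[X]) (k : ℕ) (hg : g.natDegree ≤ k + 1) :
    (dd h g).coeff k = (k + 1) * h * g.coeff (k + 1) := by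
  unfold dd
  rw [coeff_sub, taylor_coeff_sum h g (k + 1) k hg, Finset.sum_range_succ, Finset.sum_range_succ]
  have h0 : ∑ x ∈ range k, (x.choose k : ℝ) * h ^ (x - k) * g.coeff x = 0 := by
    apply Finset.sum_eq_zero
    intro x hx
    rw [Finset.mem_range] at hx
    rw [Nat.choose_eq_zero_of_lt hx]
    simp only [CharP.cast_eq_zero, zero_mul]
  rw [h0]
  simp

lemma dd_natDegree (h : ℝ) (g : ℝ[X]) (k : ℕ) (hg : g.natDegree ≤ k + 1) :
    (dd h g).natDegree ≤ k := by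
  rw [natDegree_le_iff_coeff_eq_zero]
  intro N hN
  unfold dd
  rw [coeff_sub, taylor_coeff_sum h g (k + 1) N hg, Finset.sum_range_succ]
  have h0 : ∑ x ∈ range (k + 1), (x.choose N : ℝ) * h ^ (x - N) * g.coeff x = 0 := by
    apply Finset.sum_eq_zero
    intro x hx
    rw [Finset.mem_range] at hx
    rw [Nat.choose_eq_zero_of_lt (by omega)]
    simp only [CharP.cast_eq_zero, zero_mul]
  rw [h0]
  rcases Nat.lt_or_ge (k + 1) N with h1 | h1
  · rw [Nat.choose_eq_zero_of_lt h1, coeff_eq_zero_of_natDegree_lt (lt_of_le_of_lt hg h1)]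
    simp only [CharP.cast_eq_zero, zero_mul, add_zero, sub_self]
  · have : N = k + 1 := by omega
    subst this
    simp

/-- Weyl: leading coefficient. -/
theorem weylA (k : ℕ) : ∃ C : ℕ, ∀ (g : ℝ[X]), g.natDegree ≤ k + 1 → ∀ (Q : ℝ), 2 ≤ Q →
    ∀ (M L : ℕ), L ≤ M → 1 ≤ M → (M : ℝ) ≤ Q * ‖SS g L‖ →
    ∃ s : ℕ, 1 ≤ s ∧ (s : ℝ) ≤ Q ^ C ∧ nz (s * g.coeff (k + 1)) * M ^ (k + 1) ≤ Q ^ C := by
  classical
  induction k with
  | zero =>
    refine ⟨1, fun g hg Q hQ M L hL hM h => ⟨1, le_refl _, by simp only [Nat.cast_one, pow_one]; linarith only [hQ], ?_⟩⟩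
    have h1 : ∀ x : ℝ, g.eval x = g.coeff 1 * x + g.coeff 0 := by
      intro x
      rw [eval_eq_sum_range' (lt_of_le_of_lt hg (by norm_num : 0 + 1 < 2))]
      simp only [sum_range_succ, range_one, sum_singleton, pow_zero, mul_one, pow_one]
      ring
    have h2 := geom_bound (g.coeff 1) (g.coeff 0) L
    have h3 : ‖SS g L‖ = ‖∑ n ∈ range L, ee (g.coeff 1 * n + g.coeff 0)‖ := by
      unfold SS
      congr 1
      exact Finset.sum_congr rfl fun n _ => by rw [h1]
    rw [← h3] at h2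
    have h4 := nz_nonneg (g.coeff 1)
    have h5 : nz (g.coeff 1) * M ≤ nz (g.coeff 1) * (Q * ‖SS g L‖) :=
      mul_le_mul_of_nonneg_left h h4
    simp only [zero_add, Nat.cast_one, one_mul, pow_one]
    nlinarith only [hQ, h2, h5]
  | succ k ih =>
    obtain ⟨C, hC⟩ := ih
    set a : ℕ := 10 * C + 8 with ha
    set C' : ℕ := a * (k + 2) + 16 + 15 * C + k with hC'
    refine ⟨C', fun g hg Q hQ M L hL hM hS => ?_⟩
    have hQ0 : (0 : ℝ) < Q := by linarith only [hQ]
    have hQ1 : (1 : ℝ) ≤ Q := by linarith only [hQ]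
    have hM0 : (0 : ℝ) < M := by exact_mod_cast hM
    have powle : ∀ {x y : ℕ}, x ≤ y → Q ^ x ≤ Q ^ y := fun h => pow_le_pow_right₀ hQ1 h
    rcases lt_or_ge (M : ℝ) (Q ^ a) with hsmall | hlarge
    · -- trivial case
      refine ⟨1, le_refl _, ?_, ?_⟩
      · simp only [Nat.cast_one]
        exact one_le_pow₀ hQ1
      · calc nz ((1 : ℕ) * g.coeff (k + 1 + 1)) * (M : ℝ) ^ (k + 1 + 1)
            ≤ 1 * (M : ℝ) ^ (k + 1 + 1) := by
              apply mul_le_mul_of_nonneg_right _ (by positivity)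
              exact (nz_le_half _).trans (by norm_num)
          _ ≤ 1 * (Q ^ a) ^ (k + 1 + 1) := by
              apply mul_le_mul_of_nonneg_left _ (by norm_num)
              exact pow_le_pow_left₀ hM0.le hsmall.le _
          _ = Q ^ (a * (k + 2)) := by rw [one_mul, ← pow_mul]
          _ ≤ Q ^ C' := powle (by (clear * -; omega))
    -- main case
    set w : ℕ → ℝ := fun h => ‖SS (dd h g) (L - h)‖ with hw
    have hw0 : ∀ h, 0 ≤ w h := fun h => norm_nonneg _
    have hwM : ∀ h, w h ≤ M := fun h => by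
      refine (norm_SS_le _ _).trans ?_
      exact_mod_cast (by omega : L - h ≤ M)
    have hdiff : ‖SS g L‖ ^ 2 ≤ L + 2 * ∑ h ∈ Ico 1 L, w h := by
      have := diff_sq (fun n => ee (g.eval (n : ℝ))) (fun n => (norm_ee _).le) L
      refine this.trans (le_of_eq ?_)
      congr 2
      refine Finset.sum_congr rfl fun h _ => ?_
      rw [hw]
      simp only
      congr 1
      unfold SS
      refine Finset.sum_congr rfl fun n _ => ?_
      rw [dd_eval, ee_sub]
      push_cast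
      rfl
    have hML : (L : ℝ) ≤ M := by exact_mod_cast hL
    have hQa2 : 2 * Q ^ 2 ≤ Q ^ a := by
      calc 2 * Q ^ 2 ≤ Q * Q ^ 2 := mul_le_mul_of_nonneg_right hQ (by positivity)
        _ = Q ^ 3 := by ring
        _ ≤ Q ^ a := powle (by omega)
    have hsq : (M : ℝ) ^ 2 ≤ Q ^ 2 * ‖SS g L‖ ^ 2 := by
      rw [← mul_pow]
      exact pow_le_pow_left₀ hM0.le hS 2
    have hmain : (M : ℝ) ^ 2 ≤ 4 * Q ^ 2 * ∑ h ∈ Ico 1 L, w h := by
      have h1 : Q ^ 2 * ‖SS g L‖ ^ 2 ≤ Q ^ 2 * (M + 2 * ∑ h ∈ Ico 1 L, w h) := by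
        apply mul_le_mul_of_nonneg_left _ (by positivity)
        linarith only [hdiff, hML]
      have h2 : Q ^ 2 * (M : ℝ) ≤ M ^ 2 / 2 := by
        have : 2 * Q ^ 2 ≤ (M : ℝ) := hQa2.trans hlarge
        nlinarith only [hlarge, hQa2]
      nlinarith only [hsq, h1, h2]
    set S0 : Finset ℕ := (Ico 1 L).filter (fun h => (M : ℝ) ≤ 8 * Q ^ 2 * w h) with hS0
    have hS0card : (M : ℝ) ≤ 8 * Q ^ 2 * S0.card := by
      have h1 : ∑ h ∈ Ico 1 L, w h ≤ ∑ h ∈ Ico 1 L, (M / (8 * Q ^ 2) +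
          if (M : ℝ) ≤ 8 * Q ^ 2 * w h then (M : ℝ) else 0) := by
        refine Finset.sum_le_sum fun h _ => ?_
        split_ifs with hh
        · have := hwM h
          have : 0 ≤ (M : ℝ) / (8 * Q ^ 2) := by positivity
          (clear hC a ha C' hC' hg hS hQ0 hQ1 hM0 powle hlarge hw hw0 hdiff hML hQa2 hsq hmain S0 hS0 hh; linarith)
        · rw [not_le] at hh
          rw [add_zero, le_div_iff₀ (by positivity)]
          linarith only [hh]
      rw [Finset.sum_add_distrib, ← Finset.sum_filter, Finset.sum_const, Finset.sum_const,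
        nsmul_eq_mul, nsmul_eq_mul, ← hS0, Nat.card_Ico] at h1
      have h2 : ((L - 1 : ℕ) : ℝ) * (M / (8 * Q ^ 2)) ≤ M * (M / (8 * Q ^ 2)) := by
        apply mul_le_mul_of_nonneg_right _ (by positivity)
        exact_mod_cast (by omega : L - 1 ≤ M)
      have h3 : (M : ℝ) ^ 2 ≤ 4 * Q ^ 2 * (M * (M / (8 * Q ^ 2)) + S0.card * M) :=
        hmain.trans (mul_le_mul_of_nonneg_left (by linarith only [h1, h2]) (by positivity))
      have h4 : 4 * Q ^ 2 * (M * (M / (8 * Q ^ 2)) + S0.card * M) =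
          M ^ 2 / 2 + 4 * Q ^ 2 * S0.card * M := by
        field_simp
        ring
      rw [h4] at h3
      have h5 : (M : ℝ) * M ≤ (8 * Q ^ 2 * S0.card) * M := by nlinarith only [h3]
      exact le_of_mul_le_mul_right h5 hM0
    have h8Q : 8 * Q ^ 2 ≤ Q ^ 5 := by
      have : (8 : ℝ) ≤ Q ^ 3 := by
        calc (8 : ℝ) = 2 ^ 3 := by norm_num
          _ ≤ Q ^ 3 := pow_le_pow_left₀ (by norm_num) hQ 3
      calc 8 * Q ^ 2 ≤ Q ^ 3 * Q ^ 2 := mul_le_mul_of_nonneg_right this (by positivity)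
        _ = Q ^ 5 := by ring
    -- apply the induction hypothesis
    have hIH : ∀ h ∈ S0, ∃ s : ℕ, 1 ≤ s ∧ (s : ℝ) ≤ Q ^ (5 * C) ∧
        nz (h * (s * ((k + 2) * g.coeff (k + 2)))) * M ^ (k + 1) ≤ Q ^ (5 * C) := by
      intro h hh
      rw [hS0, Finset.mem_filter, Finset.mem_Ico] at hh
      obtain ⟨s, hs1, hs2, hs3⟩ := hC (dd h g) (dd_natDegree _ _ _ hg) (Q ^ 5)
        (hQ.trans (by simpa only [pow_one] using powle (show 1 ≤ 5 by norm_num))) M (L - h) (by (clear * - hL hh; omega)) hM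
        (hh.2.trans (mul_le_mul_of_nonneg_right h8Q (hw0 h)))
      rw [← pow_mul] at hs2 hs3
      refine ⟨s, hs1, hs2, ?_⟩
      rw [dd_coeff_top _ _ _ hg] at hs3
      convert hs3 using 3
      push_cast
      ring
    choose! sf hsf using hIH
    set K : ℕ := ⌊Q ^ (5 * C)⌋₊ with hK
    have hKle : (K : ℝ) ≤ Q ^ (5 * C) := Nat.floor_le (by positivity)
    have hK1 : 1 ≤ K := by
      rw [hK]
      apply Nat.le_floor
      simpa only [Nat.cast_one] using one_le_pow₀ (n := 5 * C) hQ1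
    have hmaps : ∀ h ∈ S0, sf h ∈ Icc 1 K := by
      intro h hh
      rw [Finset.mem_Icc]
      exact ⟨(hsf h hh).1, Nat.le_floor (hsf h hh).2.1⟩
    obtain ⟨s, hsK, hscard⟩ := Finset.exists_le_card_fiber_of_nsmul_le_card_of_maps_to
      (b := (S0.card : ℝ) / K) hmaps ⟨1, Finset.mem_Icc.2 ⟨le_refl _, hK1⟩⟩ (by
        rw [Nat.card_Icc, nsmul_eq_mul]
        simp only [Nat.add_sub_cancel]
        rw [mul_div_cancel₀]
        exact_mod_cast (by omega : K ≠ 0))
    rw [Finset.mem_Icc] at hsK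
    set S1 : Finset ℕ := S0.filter (fun h => sf h = s) with hS1
    set δ : ℝ := (Q ^ (5 + 5 * C))⁻¹ with hδ
    have hδ0 : 0 < δ := by positivity
    have hδ1 : δ ≤ 1 := inv_le_one_of_one_le₀ (one_le_pow₀ hQ1)
    have hK0 : (0 : ℝ) < K := by exact_mod_cast hK1
    have hS1card : δ * M ≤ S1.card := by
      refine le_trans ?_ hscard
      rw [hδ, inv_mul_le_iff₀ (by positivity), mul_div_assoc', le_div_iff₀ hK0]
      calc (M : ℝ) * K ≤ (8 * Q ^ 2 * S0.card) * K := mul_le_mul_of_nonneg_right hS0card hK0.le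
        _ ≤ (Q ^ 5 * S0.card) * Q ^ (5 * C) := by
            apply mul_le_mul _ hKle hK0.le (by (clear * - hQ; positivity))
            exact mul_le_mul_of_nonneg_right h8Q (Nat.cast_nonneg _)
        _ = _ := by rw [pow_add]; ring
    set α : ℝ := s * ((k + 2) * g.coeff (k + 2)) with hα
    set σ : ℝ := Q ^ (5 * C) / M ^ (k + 1) with hσ
    have hσ0 : 0 ≤ σ := by positivity
    have hgood : ∀ h ∈ S1, nz (h * α) ≤ σ := by
      intro h hh
      rw [hS1, Finset.mem_filter] at hh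
      have := (hsf h hh.1).2.2
      rw [hh.2] at this
      rw [hσ, le_div_iff₀ (by positivity)]
      exact this
    have hMk : (M : ℝ) ≤ M ^ (k + 1) := by
      calc (M : ℝ) = M ^ 1 := (pow_one _).symm
        _ ≤ M ^ (k + 1) := pow_le_pow_right₀ (by exact_mod_cast hM) (by omega)
    have hσδ : σ ≤ δ / 8 := by
      rw [hσ, hδ, div_le_iff₀ (by positivity)]
      have h1 : Q ^ (5 * C) * (8 * Q ^ (5 + 5 * C)) ≤ M ^ (k + 1) := by
        refine le_trans ?_ (hlarge.trans hMk)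
        calc Q ^ (5 * C) * (8 * Q ^ (5 + 5 * C)) = (8 * Q ^ 2) * Q ^ (3 + 10 * C) := by ring
          _ ≤ Q ^ 5 * Q ^ (3 + 10 * C) := mul_le_mul_of_nonneg_right h8Q (by positivity)
          _ = Q ^ a := by rw [← pow_add, ha]; congr 1; ring
      rw [div_mul_eq_mul_div, le_div_iff₀ (by norm_num), inv_mul_eq_div, le_div_iff₀ (by positivity)]
      linarith only [h1]
    have hδM : 2 < δ * M := by
      rw [hδ, inv_mul_eq_div, lt_div_iff₀ (by positivity)]
      calc 2 * Q ^ (5 + 5 * C) < 4 * Q ^ (5 + 5 * C) := by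
            have : 0 < Q ^ (5 + 5 * C) := by positivity
            linarith only [this]
        _ ≤ Q ^ 2 * Q ^ (5 + 5 * C) := by
            apply mul_le_mul_of_nonneg_right _ (by positivity)
            nlinarith only [hQ]
        _ = Q ^ (7 + 5 * C) := by rw [← pow_add]; congr 1; ring
        _ ≤ Q ^ a := powle (by (clear * -; omega))
        _ ≤ M := hlarge
    have hS1sub : S1 ⊆ range M := by
      intro h hh
      rw [hS1, Finset.mem_filter, hS0, Finset.mem_filter, Finset.mem_Ico] at hh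
      rw [Finset.mem_range]
      omega
    obtain ⟨q, hq1, hq2, hq3⟩ := vino α σ δ M S1 hS1sub hσ0 hgood hδ0 hδ1 hS1card hσδ hδM
    refine ⟨q * s * (k + 2), ?_, ?_, ?_⟩
    · have := Nat.mul_pos (Nat.mul_pos hq1 hsK.1) (show 0 < k + 2 by omega)
      exact this
    · have hqle : (q : ℝ) ≤ Q ^ (6 + 5 * C) := by
        rw [hδ, inv_mul_le_iff₀ (by positivity)] at hq2
        calc (q : ℝ) ≤ Q ^ (5 + 5 * C) * 2 := hq2
          _ ≤ Q ^ (5 + 5 * C) * Q := mul_le_mul_of_nonneg_left hQ (by positivity)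
          _ = _ := by ring
      have hsle : (s : ℝ) ≤ Q ^ (5 * C) := le_trans (by exact_mod_cast hsK.2) hKle
      have hkle : ((k : ℝ) + 2) ≤ Q ^ (k + 2) := by
        have h1 : k + 2 ≤ 2 ^ (k + 2) := Nat.lt_two_pow_self.le
        calc ((k : ℝ) + 2) ≤ 2 ^ (k + 2) := by exact_mod_cast h1
          _ ≤ Q ^ (k + 2) := pow_le_pow_left₀ (by norm_num) hQ _
      push_cast
      calc (q : ℝ) * s * (k + 2) ≤ Q ^ (6 + 5 * C) * Q ^ (5 * C) * Q ^ (k + 2) := by
            apply mul_le_mul _ hkle (by (clear * -; positivity)) (by positivity)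
            apply mul_le_mul hqle hsle (by (clear * -; positivity)) (by positivity)
        _ = Q ^ (6 + 10 * C + (k + 2)) := by rw [← pow_add, ← pow_add]; congr 1; ring
        _ ≤ Q ^ C' := powle (by
            rw [hC', ha]
            nlinarith only [])
    · have h48 : (48 : ℝ) ≤ Q ^ 6 := by
        calc (48 : ℝ) ≤ 2 ^ 6 := by norm_num
          _ ≤ Q ^ 6 := pow_le_pow_left₀ (by norm_num) hQ 6
      have h1 : ((q * s * (k + 2) : ℕ) : ℝ) * g.coeff (k + 1 + 1) = q * α := by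
        rw [hα]; push_cast; ring
      rw [h1]
      have h2 : nz (q * α) * (M : ℝ) ^ (k + 1 + 1) =
          (nz (q * α) * (δ ^ 2 * M)) * (Q ^ (10 + 10 * C) * M ^ (k + 1)) := by
        have e : δ ^ 2 * Q ^ (10 + 10 * C) = 1 := by
          rw [hδ, inv_pow, ← pow_mul]
          have : (5 + 5 * C) * 2 = 10 + 10 * C := by ring
          rw [this, inv_mul_cancel₀ (by positivity)]
        calc nz (q * α) * (M : ℝ) ^ (k + 1 + 1) = nz (q * α) * (M : ℝ) ^ (k + 1 + 1) * 1 := by ring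
          _ = nz (q * α) * (M : ℝ) ^ (k + 1 + 1) * (δ ^ 2 * Q ^ (10 + 10 * C)) := by rw [e]
          _ = _ := by ring
      rw [h2]
      calc (nz (q * α) * (δ ^ 2 * M)) * (Q ^ (10 + 10 * C) * M ^ (k + 1))
          ≤ (48 * σ) * (Q ^ (10 + 10 * C) * M ^ (k + 1)) :=
            mul_le_mul_of_nonneg_right hq3 (by positivity)
        _ = 48 * Q ^ (10 + 15 * C) := by
            rw [hσ, div_eq_mul_inv]
            have e1 : ((M : ℝ) ^ (k + 1))⁻¹ * M ^ (k + 1) = 1 := inv_mul_cancel₀ (by positivity)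
            calc 48 * (Q ^ (5 * C) * ((M : ℝ) ^ (k + 1))⁻¹) * (Q ^ (10 + 10 * C) * M ^ (k + 1))
                = 48 * (Q ^ (5 * C) * Q ^ (10 + 10 * C)) * (((M : ℝ) ^ (k + 1))⁻¹ * M ^ (k + 1)) := by
                  ring
              _ = 48 * Q ^ (10 + 15 * C) := by
                  rw [e1, mul_one, ← pow_add]; congr 2; ring
        _ ≤ Q ^ 6 * Q ^ (10 + 15 * C) := mul_le_mul_of_nonneg_right h48 (by positivity)
        _ = Q ^ (16 + 15 * C) := by rw [← pow_add]; congr 1; ring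
        _ ≤ Q ^ C' := powle (by (clear * -; omega))

end Vale.Agent.P042
end
end
end

section

section

section

set_option autoImplicit false

namespace Vale.Agent.P042

open Polynomial

/-- abstract iteration of a density increment by the factor `(a+1)/a` -/
theorem iterate2_step (H : ℕ → ℤ[X]) (a L T G g e0 : ℕ) (hG : 1 ≤ G) (hT : 1 ≤ T) (hg : g ≤ G)
    (hstep : ∀ (N d : ℕ) (A : Finset ℤ), 1 ≤ d → T * d ^ e0 ≤ N → A ⊆ Finset.Icc (1 : ℤ) N →
      DiffFree (H d) A → N ≤ 2 ^ L * A.card →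
      ∃ (d' N' : ℕ) (A' : Finset ℤ), 1 ≤ d' ∧ d' ≤ d * g ∧
      N ≤ N' * G ∧ A' ⊆ Finset.Icc (1 : ℤ) N' ∧
      DiffFree (H d') A' ∧ (a + 1) * (A.card * N') ≤ a * (A'.card * N)) (j : ℕ) :
    ∀ (N d : ℕ) (A : Finset ℤ), 1 ≤ d → T * G ^ ((e0 + 1) * j) * d ^ e0 ≤ N →
      A ⊆ Finset.Icc (1 : ℤ) N → DiffFree (H d) A → N ≤ 2 ^ L * A.card →
      ∃ (N' : ℕ) (A' : Finset ℤ), 1 ≤ N' ∧ A' ⊆ Finset.Icc (1 : ℤ) N' ∧
        (a + 1) ^ j * (A.card * N') ≤ a ^ j * (A'.card * N) := by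
  induction j with
  | zero =>
    intro N d A hd hN hA hfree hAL
    refine ⟨N, A, ?_, hA, ?_⟩
    · refine le_trans ?_ hN
      apply Nat.one_le_iff_ne_zero.mpr
      positivity
    · simp
  | succ j ih =>
    intro N d A hd hN hA hfree hAL
    have hN' : T * d ^ e0 ≤ N := by
      refine le_trans ?_ hN
      apply Nat.mul_le_mul_right
      apply Nat.le_mul_of_pos_right
      positivity
    have hNpos : 0 < N := by
      refine lt_of_lt_of_le ?_ hN'
      positivity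
    have hApos : 0 < A.card := by
      rcases Nat.eq_zero_or_pos A.card with h | h
      · rw [h] at hAL; omega
      · exact h
    obtain ⟨d', N', A', hd', hd'2, hNN', hA', hfree', hdens⟩ := hstep N d A hd hN' hA hfree hAL
    have hN'pos : 0 < N' := by
      rcases Nat.eq_zero_or_pos N' with h | h
      · rw [h] at hNN'; omega
      · exact h
    have hAL' : N' ≤ 2 ^ L * A'.card := by
      have h1 : (a + 1) * (A.card * N') ≤ a * (A'.card * (2 ^ L * A.card)) :=
        hdens.trans (Nat.mul_le_mul_left _ (Nat.mul_le_mul_left _ hAL))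
      have h2 : A.card * ((a + 1) * N') ≤ A.card * (a * (2 ^ L * A'.card)) := by
        calc A.card * ((a + 1) * N') = (a + 1) * (A.card * N') := by ring
          _ ≤ _ := h1
          _ = _ := by ring
      have h3 := Nat.le_of_mul_le_mul_left h2 hApos
      have h4 : (a + 1) * N' ≤ (a + 1) * (2 ^ L * A'.card) :=
        h3.trans (Nat.mul_le_mul_right _ (by omega))
      exact Nat.le_of_mul_le_mul_left h4 (by omega)
    have hA'pos : 0 < A'.card := by
      rcases Nat.eq_zero_or_pos A'.card with h | h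
      · rw [h] at hAL'; omega
      · exact h
    have hnext : T * G ^ ((e0 + 1) * j) * d' ^ e0 ≤ N' := by
      have h1 : d' ^ e0 ≤ (d * G) ^ e0 :=
        Nat.pow_le_pow_left (hd'2.trans (Nat.mul_le_mul_left _ hg)) _
      have h2 : G * (T * G ^ ((e0 + 1) * j) * (d * G) ^ e0) ≤ G * N' := by
        calc G * (T * G ^ ((e0 + 1) * j) * (d * G) ^ e0) = T * G ^ ((e0 + 1) * (j + 1)) * d ^ e0 := by
              rw [mul_pow, mul_add, mul_one, pow_add, pow_add, pow_one]
              ring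
          _ ≤ N := hN
          _ ≤ N' * G := hNN'
          _ = G * N' := by ring
      have h3 := Nat.le_of_mul_le_mul_left h2 hG
      exact (Nat.mul_le_mul_left _ h1).trans h3
    obtain ⟨N'', A'', hN'', hA'', hdens'⟩ := ih N' d' A' hd' hnext hA' hfree' hAL'
    refine ⟨N'', A'', hN'', hA'', ?_⟩
    have h1 := Nat.mul_le_mul hdens hdens'
    have h2 : (A'.card * N') * ((a + 1) ^ (j + 1) * (A.card * N'')) ≤
        (A'.card * N') * (a ^ (j + 1) * (A''.card * N)) := by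
      calc (A'.card * N') * ((a + 1) ^ (j + 1) * (A.card * N'')) =
          (a + 1) * (A.card * N') * ((a + 1) ^ j * (A'.card * N'')) := by ring
        _ ≤ _ := h1
        _ = _ := by ring
    exact Nat.le_of_mul_le_mul_left h2 (by (clear * - hA'pos hN'pos; positivity))

lemma two_mul_pow_lt (a : ℕ) (ha : 1 ≤ a) : a ^ (a + 1) * 2 < (a + 1) ^ (a + 1) := by
  have ha' : (0 : ℝ) < a := by exact_mod_cast ha
  have h1 : (1 : ℝ) + ((a + 1 : ℕ) : ℝ) * (1 / a) ≤ (1 + 1 / a) ^ (a + 1) :=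
    one_add_mul_le_pow (by have : (0:ℝ) ≤ 1 / a := by positivity
                           linarith only [this]) (a + 1)
  have h2 : (2 : ℝ) < (1 + 1 / a) ^ (a + 1) := by
    refine lt_of_lt_of_le ?_ h1
    push_cast
    have : ((a : ℝ) + 1) * (1 / a) = 1 + 1 / a := by field_simp
    rw [this]
    have : (0:ℝ) < 1 / a := by positivity
    linarith only [this]
  have h3 : (a : ℝ) ^ (a + 1) * 2 < (a : ℝ) ^ (a + 1) * (1 + 1 / a) ^ (a + 1) :=
    mul_lt_mul_of_pos_left h2 (by positivity)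
  rw [← mul_pow] at h3
  have h4 : (a : ℝ) * (1 + 1 / a) = a + 1 := by field_simp
  rw [h4] at h3
  exact_mod_cast h3

lemma iterate2_contra (H : ℕ → ℤ[X]) (a L T G g e0 : ℕ) (ha : 1 ≤ a) (hL : 1 ≤ L) (hG : 1 ≤ G)
    (hT : 1 ≤ T) (hg : g ≤ G)
    (hstep : ∀ (N d : ℕ) (A : Finset ℤ), 1 ≤ d → T * d ^ e0 ≤ N → A ⊆ Finset.Icc (1 : ℤ) N →
      DiffFree (H d) A → N ≤ 2 ^ L * A.card →
      ∃ (d' N' : ℕ) (A' : Finset ℤ), 1 ≤ d' ∧ d' ≤ d * g ∧
      N ≤ N' * G ∧ A' ⊆ Finset.Icc (1 : ℤ) N' ∧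
      DiffFree (H d') A' ∧ (a + 1) * (A.card * N') ≤ a * (A'.card * N))
    (N : ℕ) (A : Finset ℤ) (hN : T * G ^ ((e0 + 1) * ((a + 1) * L)) ≤ N)
    (hA : A ⊆ Finset.Icc (1 : ℤ) N) (hfree : DiffFree (H 1) A) : 2 ^ L * A.card < N := by
  by_contra hcon
  push Not at hcon
  obtain ⟨N', A', hN', hA', hdens⟩ := iterate2_step H a L T G g e0 hG hT hg hstep ((a + 1) * L) N 1 A
    (le_refl _) (by simpa only [one_pow, mul_one] using hN) hA hfree hcon
  have hNpos : 0 < N := by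
    refine lt_of_lt_of_le ?_ hN
    positivity
  have hApos : 0 < A.card := by
    rcases Nat.eq_zero_or_pos A.card with h | h
    · rw [h] at hcon; omega
    · exact h
  have hcard : A'.card ≤ N' := by
    have := Finset.card_le_card hA'
    rw [Int.card_Icc] at this
    omega
  have h1 : (a + 1) ^ ((a + 1) * L) * (A.card * N') ≤
      a ^ ((a + 1) * L) * (N' * (2 ^ L * A.card)) :=
    hdens.trans (Nat.mul_le_mul_left _ (Nat.mul_le_mul hcard hcon))
  have h2 : (A.card * N') * (a + 1) ^ ((a + 1) * L) ≤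
      (A.card * N') * (a ^ ((a + 1) * L) * 2 ^ L) := by
    calc _ = (a + 1) ^ ((a + 1) * L) * (A.card * N') := by ring
      _ ≤ _ := h1
      _ = _ := by ring
  have h3 := Nat.le_of_mul_le_mul_left h2 (by (clear * - hApos hN'; positivity))
  have h4 : ((a + 1) ^ (a + 1)) ^ L ≤ (a ^ (a + 1) * 2) ^ L := by
    rw [mul_pow, ← pow_mul, ← pow_mul]
    exact h3
  have h5 : (a ^ (a + 1) * 2) ^ L < ((a + 1) ^ (a + 1)) ^ L :=
    Nat.pow_lt_pow_left (two_mul_pow_lt a ha) (by omega)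
  omega

/-- from powers of two to the final shape, exponent `1/2` -/
theorem sqrt_bound (h : ℤ[X]) (c0 L0 : ℕ)
    (hmain : ∀ (L N : ℕ) (A : Finset ℤ), L0 ≤ L → 2 ^ (c0 * L ^ 2) ≤ N →
      A ⊆ Finset.Icc (1 : ℤ) N → DiffFree h A → 2 ^ L * A.card < N) (N : ℕ) (hN : 1 ≤ N) :
    (rMax h N : ℝ) ≤ 2 ^ (L0 + 1) * N *
      Real.exp (-(Real.log 2 / Real.sqrt ((c0 + 1 : ℕ) * Real.log 2) * Real.sqrt (Real.log N))) := by
  classical
  obtain ⟨c1, hc1⟩ : ∃ c1 : ℕ, c1 = c0 + 1 := ⟨_, rfl⟩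
  rw [← hc1]
  have hc1pos : (0 : ℝ) < c1 := by rw [hc1]; positivity
  have hlog2 : 0 < Real.log 2 := Real.log_pos (by norm_num)
  set B : ℝ := c1 * Real.log 2 with hB
  have hBpos : 0 < B := by positivity
  have hNpos : (0 : ℝ) < N := by exact_mod_cast hN
  have hlogN : 0 ≤ Real.log N := Real.log_nonneg (by exact_mod_cast hN)
  set x : ℝ := Real.sqrt (Real.log N / B) with hx
  have hx0 : 0 ≤ x := Real.sqrt_nonneg _
  have hcx : Real.log 2 / Real.sqrt B * Real.sqrt (Real.log N) = Real.log 2 * x := by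
    rw [hx, Real.sqrt_div hlogN]
    ring
  have hexp : Real.exp (-(Real.log 2 / Real.sqrt B * Real.sqrt (Real.log N))) = (2 : ℝ) ^ (-x) := by
    rw [hcx, Real.rpow_def_of_pos (by norm_num)]
    congr 1
    ring
  rw [hexp]
  set L : ℕ := ⌊x⌋₊ with hLdef
  have hLx : (L : ℝ) ≤ x := Nat.floor_le hx0
  have hxL : x < L + 1 := Nat.lt_floor_add_one x
  have hrN : (rMax h N : ℝ) ≤ N := by
    have : rMax h N ≤ N := by
      unfold rMax
      apply Finset.sup_le
      intro A hA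
      rw [Finset.mem_filter, Finset.mem_powerset] at hA
      have := Finset.card_le_card hA.1
      rw [Int.card_Icc] at this
      omega
    exact_mod_cast this
  rcases Nat.lt_or_ge L L0 with hL | hL
  · -- trivial bound
    have hL' : x ≤ ((L0 + 1 : ℕ) : ℝ) := by
      have : (L : ℝ) + 1 ≤ (L0 : ℝ) := by exact_mod_cast hL
      push_cast
      linarith only [hxL, this]
    have h1 : (1 : ℝ) ≤ 2 ^ (L0 + 1) * (2 : ℝ) ^ (-x) := by
      rw [← Real.rpow_natCast 2 (L0 + 1), ← Real.rpow_add (by norm_num)]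
      apply Real.one_le_rpow (by norm_num)
      linarith only [hL']
    calc (rMax h N : ℝ) ≤ N := hrN
      _ = N * 1 := by ring
      _ ≤ N * (2 ^ (L0 + 1) * (2 : ℝ) ^ (-x)) := mul_le_mul_of_nonneg_left h1 hNpos.le
      _ = _ := by ring
  · -- main case
    have hpow : 2 ^ (c0 * L ^ 2) ≤ N := by
      have h1 : (L : ℝ) ^ 2 ≤ Real.log N / B := by
        calc (L : ℝ) ^ 2 ≤ x ^ 2 := pow_le_pow_left₀ (by (clear * -; positivity)) hLx 2
          _ = Real.log N / B := by rw [hx, Real.sq_sqrt (by (clear * - hc1pos; positivity))]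
      have h2 : (c0 : ℝ) * (L : ℝ) ^ 2 * Real.log 2 ≤ Real.log N := by
        rw [le_div_iff₀ hBpos] at h1
        have h3 : (c0 : ℝ) ≤ c1 := by rw [hc1]; push_cast; linarith only []
        calc (c0 : ℝ) * (L : ℝ) ^ 2 * Real.log 2 ≤ (c1 : ℝ) * (L : ℝ) ^ 2 * Real.log 2 := by
              apply mul_le_mul_of_nonneg_right _ hlog2.le
              exact mul_le_mul_of_nonneg_right h3 (by (clear * -; positivity))
          _ = (L : ℝ) ^ 2 * B := by rw [hB]; ring
          _ ≤ _ := h1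
      have h3 : Real.log ((2 : ℝ) ^ (c0 * L ^ 2)) ≤ Real.log N := by
        rw [Real.log_pow]
        push_cast
        exact h2
      have h4 : (2 : ℝ) ^ (c0 * L ^ 2) ≤ N := (Real.log_le_log_iff (by positivity) hNpos).mp h3
      exact_mod_cast h4
    have hr : 2 ^ L * rMax h N ≤ N := by
      have h1 : ∀ A ∈ ((Finset.Icc (1 : ℤ) N).powerset.filter (fun A => DiffFree h A)),
          A.card ≤ N / 2 ^ L := by
        intro A hA
        rw [Finset.mem_filter, Finset.mem_powerset] at hA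
        have h2 := hmain L N A hL hpow hA.1 hA.2
        rw [Nat.le_div_iff_mul_le (by positivity)]
        rw [mul_comm]
        exact h2.le
      have h2 : rMax h N ≤ N / 2 ^ L := by
        unfold rMax
        apply Finset.sup_le
        intro A hA
        apply h1
        rw [Finset.mem_filter] at hA ⊢
        exact hA
      calc 2 ^ L * rMax h N ≤ 2 ^ L * (N / 2 ^ L) := Nat.mul_le_mul_left _ h2
        _ ≤ N := Nat.mul_div_le _ _
    have hr' : (rMax h N : ℝ) ≤ N * (2 : ℝ) ^ (-(L : ℝ)) := by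
      have h1 : (2 : ℝ) ^ L * (rMax h N : ℝ) ≤ N := by exact_mod_cast hr
      rw [Real.rpow_neg (by norm_num), Real.rpow_natCast, ← div_eq_mul_inv, le_div_iff₀ (by positivity)]
      linarith only [h1]
    have h5 : (2 : ℝ) ^ (-(L : ℝ)) ≤ 2 * (2 : ℝ) ^ (-x) := by
      have h6 : (2 : ℝ) ^ (-(L : ℝ)) ≤ (2 : ℝ) ^ (1 + -x) := by
        apply Real.rpow_le_rpow_of_exponent_le (by norm_num)
        linarith only [hxL]
      rw [Real.rpow_add (by norm_num), Real.rpow_one] at h6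
      exact h6
    calc (rMax h N : ℝ) ≤ N * (2 : ℝ) ^ (-(L : ℝ)) := hr'
      _ ≤ N * (2 * (2 : ℝ) ^ (-x)) := mul_le_mul_of_nonneg_left h5 hNpos.le
      _ = 1 * (2 * N * (2 : ℝ) ^ (-x)) := by ring
      _ ≤ 2 ^ L0 * (2 * N * (2 : ℝ) ^ (-x)) := by
          apply mul_le_mul_of_nonneg_right _ (by positivity)
          exact one_le_pow₀ (by norm_num)
      _ = _ := by rw [pow_succ]; ring

/-- functions eventually bounded by `2 ^ (c L ^ m)`, with explicit `c` -/
def PBE (c m : ℕ) (f : ℕ → ℕ) : Prop := ∃ L0 : ℕ, ∀ L : ℕ, L0 ≤ L → f L ≤ 2 ^ (c * L ^ m)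

lemma PBE.const (m a : ℕ) (hm : 1 ≤ m) : PBE 1 m (fun _ => a) := by
  refine ⟨a, ?_⟩
  intro L hL
  calc a ≤ 2 ^ a := Nat.lt_two_pow_self.le
    _ ≤ 2 ^ L := Nat.pow_le_pow_right (by norm_num) hL
    _ ≤ 2 ^ (1 * L ^ m) := by
        apply Nat.pow_le_pow_right (by norm_num)
        rw [one_mul]
        exact Nat.le_self_pow (by omega) L

lemma PBE.mul {a b m : ℕ} {f g : ℕ → ℕ} (hf : PBE a m f) (hg : PBE b m g) :
    PBE (a + b) m (fun L => f L * g L) := by
  obtain ⟨l1, h1⟩ := hf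
  obtain ⟨l2, h2⟩ := hg
  refine ⟨max l1 l2, ?_⟩
  intro L hL
  calc f L * g L ≤ 2 ^ (a * L ^ m) * 2 ^ (b * L ^ m) :=
        Nat.mul_le_mul (h1 L ((le_max_left _ _).trans hL)) (h2 L ((le_max_right _ _).trans hL))
    _ = 2 ^ ((a + b) * L ^ m) := by rw [← pow_add]; ring_nf

lemma PBE.add {a b m : ℕ} {f g : ℕ → ℕ} (hf : PBE a m f) (hg : PBE b m g) :
    PBE (a + b + 1) m (fun L => f L + g L) := by
  obtain ⟨l1, h1⟩ := hf
  obtain ⟨l2, h2⟩ := hg
  refine ⟨max (max l1 l2) 1, ?_⟩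
  intro L hL
  have hL1 : l1 ≤ L := ((le_max_left _ _).trans (le_max_left _ _)).trans hL
  have hL2 : l2 ≤ L := ((le_max_right _ _).trans (le_max_left _ _)).trans hL
  have hL3 : 1 ≤ L := (le_max_right _ _).trans hL
  have h3 : 1 ≤ L ^ m := Nat.one_le_pow _ _ hL3
  calc f L + g L ≤ 2 ^ (a * L ^ m) + 2 ^ (b * L ^ m) := Nat.add_le_add (h1 L hL1) (h2 L hL2)
    _ ≤ 2 ^ ((a + b) * L ^ m) + 2 ^ ((a + b) * L ^ m) := by
        apply Nat.add_le_add
        · exact Nat.pow_le_pow_right (by norm_num) (Nat.mul_le_mul_right _ (by omega))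
        · exact Nat.pow_le_pow_right (by norm_num) (Nat.mul_le_mul_right _ (by omega))
    _ = 2 ^ ((a + b) * L ^ m + 1) := by rw [pow_succ]; ring
    _ ≤ 2 ^ ((a + b + 1) * L ^ m) := by
        apply Nat.pow_le_pow_right (by norm_num)
        rw [add_mul (a + b) 1, one_mul]
        omega

lemma PBE.pow {a m : ℕ} {f : ℕ → ℕ} (hf : PBE a m f) (n : ℕ) : PBE (a * n) m (fun L => f L ^ n) := by
  obtain ⟨l, h⟩ := hf
  refine ⟨l, ?_⟩
  intro L hL
  calc f L ^ n ≤ (2 ^ (a * L ^ m)) ^ n := Nat.pow_le_pow_left (h L hL) n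
    _ = 2 ^ (a * n * L ^ m) := by rw [← pow_mul]; ring_nf

lemma PBE.powlin {a m n : ℕ} {f g : ℕ → ℕ} (hf : PBE a m f) (b : ℕ)
    (hg : ∀ L, 1 ≤ L → g L ≤ b * L ^ n) : PBE (a * b) (m + n) (fun L => f L ^ g L) := by
  obtain ⟨l, h⟩ := hf
  refine ⟨max l 1, ?_⟩
  intro L hL
  calc f L ^ g L ≤ (2 ^ (a * L ^ m)) ^ g L := Nat.pow_le_pow_left (h L ((le_max_left _ _).trans hL)) _
    _ = 2 ^ (a * L ^ m * g L) := by rw [← pow_mul]
    _ ≤ 2 ^ (a * L ^ m * (b * L ^ n)) := by
        apply Nat.pow_le_pow_right (by norm_num)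
        exact Nat.mul_le_mul_left _ (hg L ((le_max_right _ _).trans hL))
    _ = 2 ^ (a * b * L ^ (m + n)) := by rw [pow_add]; ring_nf

lemma PBE.mono {a m n : ℕ} {f : ℕ → ℕ} (hf : PBE a m f) (h : m ≤ n) : PBE a n f := by
  obtain ⟨l, h1⟩ := hf
  refine ⟨max l 1, ?_⟩
  intro L hL
  refine (h1 L ((le_max_left _ _).trans hL)).trans ?_
  apply Nat.pow_le_pow_right (by norm_num)
  apply Nat.mul_le_mul_left
  exact Nat.pow_le_pow_right ((le_max_right _ _).trans hL) h

lemma PBE.two_pow : PBE 1 1 (fun L => 2 ^ L) := ⟨0, fun L _ => by simp⟩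

end Vale.Agent.P042
end
end
end

section

section

section

set_option autoImplicit false

namespace Vale.Agent.P042

open Polynomial Finset

section PowerSums

variable {F : Type*} [Field F]

/-- Generating series of the power sums of the roots of `f`. -/
noncomputable def psu (f : F[X]) : PowerSeries F :=
  PowerSeries.C (f.natDegree : F) -
    PowerSeries.X * PowerSeries.derivative F (f.reverse : PowerSeries F) *
      (f.reverse : PowerSeries F)⁻¹

lemma cc_reverse (f : F[X]) :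
    PowerSeries.constantCoeff (f.reverse : PowerSeries F) = f.leadingCoeff := by
  rw [← PowerSeries.coeff_zero_eq_constantCoeff_apply, Polynomial.coeff_coe, coeff_zero_reverse]

lemma cc_reverse_ne {f : F[X]} (hf : f ≠ 0) :
    PowerSeries.constantCoeff (f.reverse : PowerSeries F) ≠ 0 := by
  rw [cc_reverse]; exact leadingCoeff_ne_zero.2 hf

lemma psu_mul {f g : F[X]} (hf : f ≠ 0) (hg : g ≠ 0) : psu (f * g) = psu f + psu g := by
  unfold psu
  rw [reverse_mul_of_domain, natDegree_mul hf hg, Polynomial.coe_mul, Derivation.leibniz,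
    PowerSeries.mul_inv_rev]
  have h1 := PowerSeries.mul_inv_cancel _ (cc_reverse_ne hf)
  have h2 := PowerSeries.mul_inv_cancel _ (cc_reverse_ne hg)
  set u : PowerSeries F := (f.reverse : PowerSeries F)
  set v : PowerSeries F := (g.reverse : PowerSeries F)
  simp only [smul_eq_mul, Nat.cast_add, map_add]
  linear_combination (-(PowerSeries.X * PowerSeries.derivative F v * v⁻¹)) * h1 +
    (-(PowerSeries.X * PowerSeries.derivative F u * u⁻¹)) * h2

/-- The additive function `∑ g(α)` over the roots of `f`. -/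
noncomputable def lam (g f : F[X]) : F :=
  ∑ i ∈ range (g.natDegree + 1), g.coeff i * PowerSeries.coeff i (psu f)

lemma lam_mul (g : F[X]) {f1 f2 : F[X]} (h1 : f1 ≠ 0) (h2 : f2 ≠ 0) :
    lam g (f1 * f2) = lam g f1 + lam g f2 := by
  unfold lam
  rw [psu_mul h1 h2, ← Finset.sum_add_distrib]
  refine Finset.sum_congr rfl fun i _ => ?_
  rw [map_add, mul_add]

lemma psu_one : psu (1 : F[X]) = 0 := by
  unfold psu
  have : (1 : F[X]).reverse = 1 := by
    have := reverse_C (1 : F)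
    simpa only [map_one] using this
  rw [this]
  simp only [natDegree_one, Nat.cast_zero, map_zero, Polynomial.coe_one, Derivation.map_one_eq_zero, mul_zero, inv_one, mul_one, sub_self]

lemma lam_one (g : F[X]) : lam g 1 = 0 := by
  unfold lam
  rw [psu_one]
  simp

lemma reverse_X_sub_C (α : F) : (X - C α).reverse = 1 - C α * X := by
  ext n
  rw [coeff_reverse]
  rw [natDegree_X_sub_C]
  rcases n with _ | _ | n
  · rw [revAt_le (by norm_num)]
    simp
  · rw [revAt_le (by norm_num)]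
    simp only [zero_add, tsub_self, coeff_sub, coeff_X, one_ne_zero, ↓reduceIte, coeff_C_zero, zero_sub, coeff_one, coeff_mul_X]
  · have : revAt 1 (n + 1 + 1) = n + 1 + 1 := revAt_eq_self_of_lt (by omega)
    rw [this, coeff_sub, coeff_X_of_ne_one (by omega), coeff_C_of_ne_zero (by omega), coeff_sub,
      coeff_one, coeff_C_mul, coeff_X_of_ne_one (by omega)]
    simp

lemma geom_mk (α : F) : (1 - PowerSeries.C α * PowerSeries.X) * PowerSeries.mk (fun n => α ^ n) = 1 := by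
  ext n
  rcases n with _ | n
  · simp only [sub_mul, one_mul, mul_assoc, PowerSeries.coeff_zero_eq_constantCoeff, map_sub, PowerSeries.constantCoeff_mk, pow_zero, map_mul, PowerSeries.constantCoeff_C, PowerSeries.constantCoeff_X, mul_one, mul_zero, sub_zero, PowerSeries.coeff_one, ↓reduceIte]
  · rw [sub_mul, one_mul, map_sub, mul_assoc, PowerSeries.coeff_C_mul, PowerSeries.coeff_succ_X_mul]
    simp only [PowerSeries.coeff_mk, pow_succ, PowerSeries.coeff_one, Nat.add_eq_zero_iff, one_ne_zero, and_false, ↓reduceIte]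
    ring

lemma psu_X_sub_C (α : F) : psu (X - C α) = PowerSeries.mk (fun n => α ^ n) := by
  unfold psu
  rw [reverse_X_sub_C, natDegree_X_sub_C]
  have h0 : ((1 - C α * X : F[X]) : PowerSeries F) = 1 - PowerSeries.C α * PowerSeries.X := by
    simp
  rw [h0]
  have hc : PowerSeries.constantCoeff (1 - PowerSeries.C α * PowerSeries.X : PowerSeries F) ≠ 0 := by
    simp
  have h1 := PowerSeries.mul_inv_cancel _ hc
  have h2 := geom_mk α
  have h3 : PowerSeries.derivative F (1 - PowerSeries.C α * PowerSeries.X : PowerSeries F) = -PowerSeries.C α := by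
    rw [map_sub, Derivation.leibniz]
    simp
  rw [h3]
  set u : PowerSeries F := 1 - PowerSeries.C α * PowerSeries.X with hu
  set w := PowerSeries.mk (fun n => α ^ n) with hw
  have hinv : u⁻¹ = w := by
    rw [PowerSeries.inv_eq_iff_mul_eq_one hc, mul_comm]; exact h2
  rw [hinv]
  have : u = 1 - PowerSeries.C α * PowerSeries.X := hu
  simp only [Nat.cast_one, map_one]
  have h4 : (1 - PowerSeries.C α * PowerSeries.X) * w = 1 := h2
  linear_combination (-1 : PowerSeries F) * h4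

lemma monic_shift {f : F[X]} {n m : ℕ} (hf : f.Monic) (hn : f.natDegree = n) (hm1 : 1 ≤ m)
    (hmn : m ≤ n) (t : F) : (f + C t * X ^ (n - m)).Monic ∧ (f + C t * X ^ (n - m)).natDegree = n := by
  have hd : (C t * X ^ (n - m)).degree < f.degree := by
    rw [degree_eq_natDegree hf.ne_zero, hn]
    refine lt_of_le_of_lt (degree_C_mul_X_pow_le _ _) ?_
    exact_mod_cast (by omega : n - m < n)
  refine ⟨hf.add_of_left hd, ?_⟩
  rw [natDegree_add_eq_left_of_degree_lt hd, hn]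

lemma psu_shift {f : F[X]} {n m : ℕ} (hf : f.Monic) (hn : f.natDegree = n) (hm1 : 1 ≤ m)
    (hmn : m ≤ n) (t : F) (i : ℕ) (hi : i ≤ m) :
    PowerSeries.coeff i (psu (f + C t * X ^ (n - m))) = PowerSeries.coeff i (psu f) -
      if i = m then (m : F) * t else 0 := by
  obtain ⟨hf2, hn2⟩ := monic_shift hf hn hm1 hmn t
  set f2 := f + C t * X ^ (n - m) with hf2def
  have hrev : f2.reverse = f.reverse + C t * X ^ m := by
    ext j
    rw [coeff_reverse, hn2, coeff_add (p := f.reverse), coeff_reverse, hn, hf2def, coeff_add]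
    congr 1
    rw [coeff_C_mul_X_pow, coeff_C_mul_X_pow]
    rcases le_or_gt j n with hj | hj
    · rw [revAt_le hj]
      by_cases hjm : j = m
      · subst hjm; simp
      · rw [if_neg hjm, if_neg (by omega)]
    · rw [revAt_eq_self_of_lt hj, if_neg (by omega), if_neg (by omega)]
  have hc1 := cc_reverse_ne hf.ne_zero
  have hc2 := cc_reverse_ne hf2.ne_zero
  have h1 := PowerSeries.mul_inv_cancel _ hc1
  have h2 := PowerSeries.mul_inv_cancel _ hc2
  have hu2 : (f2.reverse : PowerSeries F) = (f.reverse : PowerSeries F) + PowerSeries.C t * PowerSeries.X ^ m := by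
    rw [hrev]; simp
  have hd2 : PowerSeries.derivative F (f2.reverse : PowerSeries F) =
      PowerSeries.derivative F (f.reverse : PowerSeries F) +
        PowerSeries.C t * ((m : PowerSeries F) * PowerSeries.X ^ (m - 1)) := by
    rw [hu2, map_add, Derivation.leibniz, PowerSeries.derivative_pow]
    simp only [PowerSeries.derivative_X, mul_one, smul_eq_mul, PowerSeries.derivative_C, mul_zero, add_zero]
  have key : psu f2 = psu f - PowerSeries.X ^ m * ((PowerSeries.C t * ((m : PowerSeries F) * (f.reverse : PowerSeries F) -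
      PowerSeries.X * PowerSeries.derivative F (f.reverse : PowerSeries F))) *
      ((f.reverse : PowerSeries F)⁻¹ * (f2.reverse : PowerSeries F)⁻¹)) := by
    unfold psu
    rw [hn, hn2, hd2]
    set u := (f.reverse : PowerSeries F)
    set v := (f2.reverse : PowerSeries F)
    have hX : PowerSeries.X * (PowerSeries.X : PowerSeries F) ^ (m - 1) = PowerSeries.X ^ m := by
      rw [← pow_succ']; congr 1; omega
    have e1 : PowerSeries.X * (PowerSeries.derivative F u + PowerSeries.C t * ((m : PowerSeries F) * PowerSeries.X ^ (m - 1))) * v⁻¹ =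
        (PowerSeries.X * PowerSeries.derivative F u + PowerSeries.C t * (m : PowerSeries F) * PowerSeries.X ^ m) * v⁻¹ := by
      rw [← hX]; ring
    rw [e1]
    have e2 : v = u + PowerSeries.C t * PowerSeries.X ^ m := hu2
    -- multiply everything by u and v
    have h3 : PowerSeries.X * PowerSeries.derivative F u * u⁻¹ =
        PowerSeries.X * PowerSeries.derivative F u * u⁻¹ * (v * v⁻¹) := by rw [h2, mul_one]
    have h4 : (PowerSeries.X * PowerSeries.derivative F u + PowerSeries.C t * (m : PowerSeries F) * PowerSeries.X ^ m) * v⁻¹ =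
        (PowerSeries.X * PowerSeries.derivative F u + PowerSeries.C t * (m : PowerSeries F) * PowerSeries.X ^ m) * v⁻¹ * (u * u⁻¹) := by
      rw [h1, mul_one]
    rw [h3, h4]
    have h5 : u⁻¹ * (v * v⁻¹) = u⁻¹ * ((u + PowerSeries.C t * PowerSeries.X ^ m) * v⁻¹) := by rw [← e2]
    rw [mul_assoc (PowerSeries.X * PowerSeries.derivative F u), h5]
    ring
  rw [key, map_sub]
  congr 1
  rw [PowerSeries.coeff_X_pow_mul']
  by_cases him : i = m
  · subst him
    rw [if_pos le_rfl, if_pos rfl, Nat.sub_self, PowerSeries.coeff_zero_eq_constantCoeff_apply]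
    simp only [map_mul, map_sub, PowerSeries.constantCoeff_X, zero_mul, sub_zero,
      PowerSeries.constantCoeff_C, map_natCast, PowerSeries.constantCoeff_inv]
    rw [cc_reverse, cc_reverse, hf.leadingCoeff, hf2.leadingCoeff]
    simp only [mul_one, inv_one]
    ring
  · rw [if_neg (by omega), if_neg him]

lemma psu_eq {f : F[X]} (hf : f ≠ 0) (w : PowerSeries F)
    (h : w * (f.reverse : PowerSeries F) = PowerSeries.C (f.natDegree : F) * (f.reverse : PowerSeries F) -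
      PowerSeries.X * PowerSeries.derivative F (f.reverse : PowerSeries F)) : psu f = w := by
  unfold psu
  have h1 := PowerSeries.mul_inv_cancel _ (cc_reverse_ne hf)
  set u := (f.reverse : PowerSeries F)
  linear_combination (-u⁻¹) * h + (w - PowerSeries.C (f.natDegree : F)) * h1

lemma psu_spec {f : F[X]} (hf : f ≠ 0) : psu f * (f.reverse : PowerSeries F) =
    PowerSeries.C (f.natDegree : F) * (f.reverse : PowerSeries F) -
      PowerSeries.X * PowerSeries.derivative F (f.reverse : PowerSeries F) := by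
  unfold psu
  have h1 := PowerSeries.mul_inv_cancel _ (cc_reverse_ne hf)
  set u := (f.reverse : PowerSeries F)
  linear_combination (-(PowerSeries.X * PowerSeries.derivative F u)) * h1

lemma reverse_map_field {K : Type*} [Field K] (φ : F →+* K) (f : F[X]) :
    (f.map φ).reverse = f.reverse.map φ := by
  ext n
  rw [coeff_reverse, natDegree_map, coeff_map, coeff_map, coeff_reverse]

lemma psu_map {K : Type*} [Field K] (φ : F →+* K) {f : F[X]} (hf : f ≠ 0) :
    psu (f.map φ) = PowerSeries.map φ (psu f) := by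
  apply psu_eq ((Polynomial.map_ne_zero_iff φ.injective).2 hf)
  have h1 : ((f.map φ).reverse : PowerSeries K) = PowerSeries.map φ (f.reverse : PowerSeries F) := by
    rw [reverse_map_field]
    ext n
    simp
  have h2 : PowerSeries.derivative K (PowerSeries.map φ (f.reverse : PowerSeries F)) =
      PowerSeries.map φ (PowerSeries.derivative F (f.reverse : PowerSeries F)) := by
    ext n
    rw [PowerSeries.coeff_derivative, PowerSeries.coeff_map, PowerSeries.coeff_map,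
      PowerSeries.coeff_derivative]
    simp
  rw [h1, h2, ← map_mul, psu_spec hf, natDegree_map, map_sub, map_mul, map_mul]
  simp only [map_natCast, PowerSeries.map_X]

lemma psu_prod (s : Multiset F) : psu (s.map (fun a => X - C a)).prod =
    PowerSeries.mk (fun n => (s.map (fun a => a ^ n)).sum) := by
  induction s using Multiset.induction_on with
  | empty =>
    simp only [Multiset.map_zero, Multiset.prod_zero, Multiset.sum_zero]
    rw [psu_one]
    ext n; simp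
  | cons a s ih =>
    rw [Multiset.map_cons, Multiset.prod_cons, psu_mul (X_sub_C_ne_zero a), ih, psu_X_sub_C]
    · ext n
      simp only [map_add, PowerSeries.coeff_mk, Multiset.map_cons, Multiset.sum_cons]
    · exact (monic_multiset_prod_of_monic s (fun a => X - C a) fun a _ => monic_X_sub_C a).ne_zero

lemma lam_roots {K : Type*} [Field K] [Algebra F K] (g : F[X]) {P : F[X]} (hP : P.Monic)
    (hs : (P.map (algebraMap F K)).Splits) :
    algebraMap F K (lam g P) = ((P.aroots K).map (fun a => aeval a g)).sum := by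
  unfold lam
  rw [map_sum]
  have h1 : ∀ i, algebraMap F K (g.coeff i * PowerSeries.coeff i (psu P)) =
      algebraMap F K (g.coeff i) * ((P.aroots K).map (fun a => a ^ i)).sum := by
    intro i
    rw [map_mul, ← PowerSeries.coeff_map, ← psu_map _ hP.ne_zero]
    have h2 : P.map (algebraMap F K) = ((P.aroots K).map (fun a => X - C a)).prod := by
      rw [aroots_def]
      exact hs.eq_prod_roots_of_monic (hP.map _)
    rw [h2, psu_prod, PowerSeries.coeff_mk]
  rw [Finset.sum_congr rfl fun i _ => h1 i]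
  have h3 : ∀ a : K, aeval a g = ∑ i ∈ range (g.natDegree + 1), algebraMap F K (g.coeff i) * a ^ i := by
    intro a
    rw [aeval_eq_sum_range]
    simp only [Algebra.smul_def]
  simp_rw [h3]
  rw [Multiset.sum_map_sum]
  refine Finset.sum_congr rfl fun i _ => ?_
  rw [Multiset.sum_map_mul_left]

end PowerSums

open IntermediateField in
lemma trace_lam_adjoin {F K : Type*} [Field F] [Finite F] [Field K] [Finite K] [Algebra F K]
    (g : F[X]) (x : K) :
    Algebra.trace F F⟮x⟯ (aeval (AdjoinSimple.gen F x) g) = lam g (minpoly F x) := by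
  classical
  have hint : IsIntegral F x := Algebra.IsIntegral.isIntegral x
  let E := AlgebraicClosure F
  apply (algebraMap F E).injective
  rw [lam_roots (K := E) g (minpoly.monic hint) (IsAlgClosed.splits _),
    trace_eq_sum_embeddings E]
  have hsep : IsSeparable F x := Algebra.IsSeparable.isSeparable F x
  have hnodup : ((minpoly F x).aroots E).Nodup := nodup_roots ((separable_map _).mpr hsep)
  have h1 := Fintype.sum_equiv (algHomAdjoinIntegralEquiv F (K := E) hint).symm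
    (fun r => aeval (r : E) g) (fun σ => σ (aeval (AdjoinSimple.gen F x) g)) (by
      intro r
      have h2 := algHomAdjoinIntegralEquiv_symm_apply_gen F (K := E) hint r
      rw [← Polynomial.aeval_algHom_apply, h2])
  rw [← h1]
  rw [Finset.sum_mem_multiset ((minpoly F x).aroots E) (fun r => aeval (r : E) g)
    (fun r => aeval r g) (fun r => rfl)]
  rw [Finset.sum_eq_multiset_sum, Multiset.toFinset_val, Multiset.dedup_eq_self.mpr hnodup]

open IntermediateField in
lemma trace_lam {F K : Type*} [Field F] [Finite F] [Field K] [Finite K] [Algebra F K]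
    (g : F[X]) (x : K) :
    Algebra.trace F K (aeval x g) =
      ((Module.finrank F K / (minpoly F x).natDegree : ℕ) : F) * lam g (minpoly F x) := by
  have hint : IsIntegral F x := Algebra.IsIntegral.isIntegral x
  have h1 : aeval x g = algebraMap F⟮x⟯ K (aeval (AdjoinSimple.gen F x) g) := by
    rw [← Polynomial.aeval_algebraMap_apply]
    simp
  rw [h1, ← Algebra.trace_trace (S := F⟮x⟯), Algebra.trace_algebraMap, map_nsmul, trace_lam_adjoin,
    nsmul_eq_mul]
  congr 2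
  have h2 := Module.finrank_mul_finrank F F⟮x⟯ K
  rw [adjoin.finrank hint] at h2
  rw [← h2, Nat.mul_div_cancel_left]
  exact minpoly.natDegree_pos hint

section MonIrr

variable {F : Type*} [Field F] [Finite F]

lemma finite_mon (F : Type*) [Field F] [Finite F] (n : ℕ) : {f : F[X] | f.Monic ∧ f.natDegree = n}.Finite := by
  have h1 : Finite (degreeLT F n) := Finite.of_equiv _ (degreeLTEquiv F n).symm.toEquiv
  have h2 : Finite {f : F[X] // f.Monic ∧ f.natDegree = n} := Finite.of_equiv _ (monicEquivDegreeLT n).symm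
  exact h2

noncomputable def Mon (F : Type*) [Field F] [Finite F] (n : ℕ) : Finset F[X] := (finite_mon F n).toFinset

lemma mem_Mon {n : ℕ} {f : F[X]} : f ∈ Mon F n ↔ f.Monic ∧ f.natDegree = n := by
  unfold Mon; simp only [Set.Finite.mem_toFinset, Set.mem_ofPred_eq]

lemma Mon_zero : Mon F 0 = {1} := by
  ext f
  rw [mem_Mon, Finset.mem_singleton]
  constructor
  · rintro ⟨h1, h2⟩
    exact eq_one_of_monic_natDegree_zero h1 h2
  · rintro rfl
    exact ⟨monic_one, natDegree_one⟩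

open Classical in
noncomputable def Irr (F : Type*) [Field F] [Finite F] (n : ℕ) : Finset F[X] :=
  ((range (n+1)).biUnion (Mon F)).filter Irreducible

lemma mem_Irr {n : ℕ} {f : F[X]} : f ∈ Irr F n ↔ f.Monic ∧ f.natDegree ≤ n ∧ Irreducible f := by
  unfold Irr
  classical
  simp only [Finset.mem_filter, Finset.mem_biUnion, Finset.mem_range, mem_Mon]
  constructor
  · rintro ⟨⟨a, ha, h1, h2⟩, h3⟩
    exact ⟨h1, by omega, h3⟩
  · rintro ⟨h1, h2, h3⟩
    exact ⟨⟨f.natDegree, by omega, h1, rfl⟩, h3⟩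

open UniqueFactorizationMonoid Classical in
lemma deg_count {n : ℕ} {f : F[X]} (hf : f ∈ Mon F n) :
    n = ∑ P ∈ Irr F n, P.natDegree * ((Finset.Icc 1 n).filter (fun r => P ^ r ∣ f)).card := by
  obtain ⟨hm, hn⟩ := mem_Mon.1 hf
  have hf0 := hm.ne_zero
  have hprod : (normalizedFactors f).prod = f := by
    rw [prod_normalizedFactors_eq hf0]
    exact hm.normalize_eq_self
  have hirr : ∀ P ∈ normalizedFactors f, Irreducible P ∧ P.Monic ∧ P ∣ f := fun P hP =>
    ⟨irreducible_of_normalized_factor P hP, by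
      have h1 := normalize_normalized_factor P hP
      have h2 := Polynomial.monic_normalize (irreducible_of_normalized_factor P hP).ne_zero
      rwa [h1] at h2, dvd_of_mem_normalizedFactors hP⟩
  have hdeg : n = ((normalizedFactors f).map natDegree).sum := by
    rw [← hn]
    conv_lhs => rw [← hprod]
    exact natDegree_multiset_prod_of_monic _ fun P hP => (hirr P hP).2.1
  have hcount : ∀ P ∈ Irr F n, ((Finset.Icc 1 n).filter (fun r => P ^ r ∣ f)).card =
      (normalizedFactors f).count P := by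
    intro P hP
    obtain ⟨hPm, hPd, hPi⟩ := mem_Irr.1 hP
    have key : ∀ r : ℕ, P ^ r ∣ f ↔ r ≤ (normalizedFactors f).count P := by
      intro r
      rw [pow_dvd_iff_le_emultiplicity, emultiplicity_eq_count_normalizedFactors hPi hf0,
        hPm.normalize_eq_self]
      exact_mod_cast Iff.rfl
    have hle : (normalizedFactors f).count P ≤ n := by
      have h1 : P ^ ((normalizedFactors f).count P) ∣ f := (key _).2 le_rfl
      have h2 := natDegree_le_of_dvd h1 hf0
      rw [natDegree_pow, hn] at h2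
      have h3 := hPi.natDegree_pos
      nlinarith only [h2, h3]
    have : (Finset.Icc 1 n).filter (fun r => P ^ r ∣ f) = Finset.Icc 1 ((normalizedFactors f).count P) := by
      ext r
      rw [Finset.mem_filter, Finset.mem_Icc, Finset.mem_Icc, key r]
      omega
    rw [this]; simp only [Nat.card_Icc, add_tsub_cancel_right]
  have hgoal : ∑ P ∈ Irr F n, P.natDegree * ((Finset.Icc 1 n).filter (fun r => P ^ r ∣ f)).card =
      ∑ P ∈ Irr F n, P.natDegree * (normalizedFactors f).count P :=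
    Finset.sum_congr rfl fun P hP => by rw [hcount P hP]
  rw [hgoal]
  rw [Finset.sum_multiset_map_count] at hdeg
  have hsub : (normalizedFactors f).toFinset ⊆ Irr F n := by
    intro P hP
    rw [Multiset.mem_toFinset] at hP
    obtain ⟨h1, h2, h3⟩ := hirr P hP
    exact mem_Irr.2 ⟨h2, by rw [← hn]; exact natDegree_le_of_dvd h3 hf0, h1⟩
  refine hdeg.trans ?_
  rw [Finset.sum_subset hsub]
  · refine Finset.sum_congr rfl fun P _ => ?_
    rw [smul_eq_mul, mul_comm]
  · intro P _ hP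
    rw [Multiset.mem_toFinset] at hP
    rw [Multiset.count_eq_zero_of_notMem hP, zero_smul]
end MonIrr

section Newton
variable {F : Type*} [Field F]

/-- `χ` is completely multiplicative on monic polynomials. -/
structure CM (χ : F[X] → ℂ) : Prop where
  one : χ 1 = 1
  mul : ∀ f g : F[X], f.Monic → g.Monic → χ (f * g) = χ f * χ g

lemma CM.pow {χ : F[X] → ℂ} (h : CM χ) {f : F[X]} (hf : f.Monic) (r : ℕ) : χ (f ^ r) = χ f ^ r := by
  induction r with
  | zero => simp [h.one]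
  | succ r ih => rw [pow_succ, pow_succ, h.mul _ _ (hf.pow r) hf, ih]

variable [Finite F]

noncomputable def cM (χ : F[X] → ℂ) (n : ℕ) : ℂ := ∑ f ∈ Mon F n, χ f

noncomputable def sM (χ : F[X] → ℂ) (j : ℕ) : ℂ :=
  ∑ P ∈ (Irr F j).filter (fun P => P.natDegree ∣ j), (P.natDegree : ℂ) * χ P ^ (j / P.natDegree)

open Classical in
lemma sum_dvd {χ : F[X] → ℂ} (h : CM χ) (n : ℕ) (P : F[X]) (hP : P.Monic) (r : ℕ) :
    ∑ f ∈ (Mon F n).filter (fun f => P ^ r ∣ f), χ f =
      if r * P.natDegree ≤ n then χ P ^ r * cM χ (n - r * P.natDegree) else 0 := by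
  have hPr : (P ^ r).Monic := hP.pow r
  have hdeg : (P ^ r).natDegree = r * P.natDegree := by rw [hP.natDegree_pow]
  split_ifs with hle
  · unfold cM
    rw [Finset.mul_sum]
    symm
    refine Finset.sum_bij (fun f _ => P ^ r * f) ?_ ?_ ?_ ?_
    · intro f hf
      rw [mem_Mon] at hf
      rw [Finset.mem_filter, mem_Mon]
      refine ⟨⟨hPr.mul hf.1, ?_⟩, dvd_mul_right _ _⟩
      rw [hPr.natDegree_mul hf.1, hdeg, hf.2]
      omega
    · intro f _ g _ hfg
      exact mul_left_cancel₀ hPr.ne_zero hfg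
    · intro f hf
      rw [Finset.mem_filter, mem_Mon] at hf
      obtain ⟨⟨hf1, hf2⟩, q, rfl⟩ := hf
      have hq : q.Monic := hPr.of_mul_monic_left hf1
      refine ⟨q, ?_, rfl⟩
      rw [mem_Mon]
      refine ⟨hq, ?_⟩
      rw [hPr.natDegree_mul hq, hdeg] at hf2
      omega
    · intro f hf
      rw [mem_Mon] at hf
      rw [h.mul _ _ hPr hf.1, h.pow hP]
  · apply Finset.sum_eq_zero
    intro f hf
    exfalso
    rw [Finset.mem_filter, mem_Mon] at hf
    have h1 := natDegree_le_of_dvd hf.2 hf.1.1.ne_zero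
    rw [hdeg, hf.1.2] at h1
    exact hle h1

open Classical in
lemma reindex_r (n d : ℕ) (hd : 1 ≤ d) (G : ℕ → ℕ → ℂ) :
    ∑ r ∈ Finset.Icc 1 n, (if r * d ≤ n then G r (r * d) else 0) =
      ∑ j ∈ Finset.Icc 1 n, (if d ∣ j then G (j / d) j else 0) := by
  rw [← Finset.sum_filter, ← Finset.sum_filter]
  refine Finset.sum_bij (fun r _ => r * d) ?_ ?_ ?_ ?_
  · intro r hr
    rw [Finset.mem_filter, Finset.mem_Icc] at hr ⊢
    refine ⟨⟨?_, hr.2⟩, dvd_mul_left _ _⟩
    nlinarith [hr.1.1]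
  · intro a _ b _ hab
    exact Nat.eq_of_mul_eq_mul_right hd hab
  · intro j hj
    rw [Finset.mem_filter, Finset.mem_Icc] at hj
    obtain ⟨⟨h1, h2⟩, r, rfl⟩ := hj
    refine ⟨r, ?_, mul_comm _ _⟩
    rw [Finset.mem_filter, Finset.mem_Icc]
    refine ⟨⟨?_, ?_⟩, ?_⟩
    · rcases Nat.eq_zero_or_pos r with h | h
      · subst h; simp only [mul_zero, nonpos_iff_eq_zero, one_ne_zero] at h1
      · exact h
    · nlinarith only [h2, hd]
    · rw [mul_comm]; exact h2
  · intro r _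
    rw [Nat.mul_div_cancel _ hd]

open Classical in
theorem newton {χ : F[X] → ℂ} (h : CM χ) (n : ℕ) :
    (n : ℂ) * cM χ n = ∑ j ∈ Finset.Icc 1 n, sM χ j * cM χ (n - j) := by
  have h1 : (n : ℂ) * cM χ n = ∑ f ∈ Mon F n, ∑ P ∈ Irr F n, ∑ r ∈ Finset.Icc 1 n,
      (if P ^ r ∣ f then (P.natDegree : ℂ) * χ f else 0) := by
    unfold cM
    rw [Finset.mul_sum]
    refine Finset.sum_congr rfl fun f hf => ?_
    have := deg_count hf
    have h2 : (n : ℂ) = ∑ P ∈ Irr F n, (P.natDegree : ℂ) *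
        (((Finset.Icc 1 n).filter (fun r => P ^ r ∣ f)).card : ℂ) := by
      conv_lhs => rw [this]
      push_cast
      rfl
    rw [h2, Finset.sum_mul]
    refine Finset.sum_congr rfl fun P _ => ?_
    rw [← Finset.sum_filter, Finset.sum_const, nsmul_eq_mul]
    ring
  rw [h1, Finset.sum_comm]
  have h2 : ∀ P ∈ Irr F n, ∑ f ∈ Mon F n, ∑ r ∈ Finset.Icc 1 n,
      (if P ^ r ∣ f then (P.natDegree : ℂ) * χ f else 0) =
      ∑ j ∈ Finset.Icc 1 n, (if P.natDegree ∣ j then
        (P.natDegree : ℂ) * χ P ^ (j / P.natDegree) * cM χ (n - j) else 0) := by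
    intro P hP
    obtain ⟨hPm, hPd, hPi⟩ := mem_Irr.1 hP
    rw [Finset.sum_comm]
    have h3 := reindex_r n P.natDegree hPi.natDegree_pos
      (fun r j => (P.natDegree : ℂ) * χ P ^ r * cM χ (n - j))
    refine Eq.trans ?_ h3
    refine Finset.sum_congr rfl fun r _ => ?_
    rw [← Finset.sum_filter, ← Finset.mul_sum, sum_dvd h n P hPm r]
    split_ifs
    · ring
    · simp
  rw [Finset.sum_congr rfl h2, Finset.sum_comm]
  refine Finset.sum_congr rfl fun j hj => ?_
  rw [Finset.mem_Icc] at hj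
  unfold sM
  rw [Finset.sum_mul, ← Finset.sum_filter]
  refine Finset.sum_congr ?_ fun P _ => rfl
  ext P
  rw [Finset.mem_filter, Finset.mem_filter, mem_Irr, mem_Irr]
  constructor
  · rintro ⟨⟨a, b, c⟩, d⟩
    exact ⟨⟨a, Nat.le_of_dvd (by omega) d, c⟩, d⟩
  · rintro ⟨⟨a, b, c⟩, d⟩
    exact ⟨⟨a, by omega, c⟩, d⟩

end Newton

open Classical in
lemma card_fiber {F K : Type*} [Field F] [Finite F] [Field K] [Fintype K] [Algebra F K]
    {P : F[X]} (hP : P.Monic) (hirr : Irreducible P) (hdvd : P.natDegree ∣ Module.finrank F K) :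
    (univ.filter (fun x : K => minpoly F x = P)).card = P.natDegree := by
  have h1 : P ∣ X ^ (Nat.card F) ^ (Module.finrank F K) - X :=
    hirr.natDegree_dvd_iff_dvd_X_pow_card_pow_sub_X.1 hdvd
  have hcard : (Nat.card F) ^ (Module.finrank F K) = Fintype.card K := by
    rw [← Nat.card_eq_fintype_card]
    exact (Module.natCard_eq_pow_finrank (K := F) (V := K)).symm
  rw [hcard] at h1
  have h2 : P.map (algebraMap F K) ∣ X ^ (Fintype.card K) - X := by
    have := Polynomial.map_dvd (algebraMap F K) h1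
    simpa only [Polynomial.map_sub, Polynomial.map_pow, map_X] using this
  have hne : (X ^ (Fintype.card K) - X : K[X]) ≠ 0 :=
    FiniteField.X_pow_card_sub_X_ne_zero K Fintype.one_lt_card
  have hroots := FiniteField.roots_X_pow_card_sub_X K
  have hsp : (X ^ (Fintype.card K) - X : K[X]).Splits := by
    rw [splits_iff_card_roots, hroots, FiniteField.X_pow_card_sub_X_natDegree_eq K Fintype.one_lt_card]
    simp
  have hPs : (P.map (algebraMap F K)).Splits := hsp.of_dvd hne h2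
  have hle : (P.map (algebraMap F K)).roots ≤ univ.val := by
    rw [← hroots]
    exact Polynomial.roots.le_of_dvd hne h2
  have hnd : (P.map (algebraMap F K)).roots.Nodup := Multiset.nodup_of_le hle univ.nodup
  have h3 : (univ.filter (fun x : K => minpoly F x = P)) = (P.map (algebraMap F K)).roots.toFinset := by
    ext x
    rw [Finset.mem_filter, Multiset.mem_toFinset, mem_roots (hP.map _).ne_zero, IsRoot.def,
      eval_map_algebraMap]
    constructor
    · rintro ⟨_, h⟩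
      rw [← h]; exact minpoly.aeval F x
    · intro h
      exact ⟨mem_univ _, (minpoly.eq_of_irreducible_of_monic hirr h hP).symm⟩
  rw [h3, Multiset.toFinset_card_of_nodup hnd]
  rw [splits_iff_card_roots] at hPs
  rw [hPs, natDegree_map]

lemma psi_natmul {F : Type*} [Field F] (ψ : AddChar F ℂ) (r : ℕ) (a : F) : ψ ((r : F) * a) = ψ a ^ r := by
  rw [← nsmul_eq_mul, AddChar.map_nsmul_eq_pow]

open Classical in
theorem sum_eq_sM {F K : Type*} [Field F] [Finite F] [Field K] [Fintype K] [Algebra F K]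
    (ψ : AddChar F ℂ) (g : F[X]) :
    ∑ x : K, ψ (Algebra.trace F K (aeval x g)) =
      sM (fun f => ψ (lam g f)) (Module.finrank F K) := by
  set n := Module.finrank F K with hn
  have hnpos : 0 < n := Module.finrank_pos
  have hint : ∀ x : K, IsIntegral F x := fun x => Algebra.IsIntegral.isIntegral x
  have hmaps : ∀ x ∈ (univ : Finset K), minpoly F x ∈ (Irr F n).filter (fun P => P.natDegree ∣ n) := by
    intro x _
    rw [Finset.mem_filter, mem_Irr]
    have h1 := minpoly.degree_dvd (hint x)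
    exact ⟨⟨minpoly.monic (hint x), Nat.le_of_dvd hnpos h1, minpoly.irreducible (hint x)⟩, h1⟩
  rw [← Finset.sum_fiberwise_of_maps_to hmaps]
  unfold sM
  refine Finset.sum_congr rfl fun P hP => ?_
  rw [Finset.mem_filter, mem_Irr] at hP
  obtain ⟨⟨hPm, _, hPi⟩, hPd⟩ := hP
  have h2 : ∀ x ∈ univ.filter (fun x : K => minpoly F x = P),
      ψ (Algebra.trace F K (aeval x g)) = ψ (lam g P) ^ (n / P.natDegree) := by
    intro x hx
    rw [Finset.mem_filter] at hx
    rw [trace_lam, hx.2, psi_natmul]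
  rw [Finset.sum_congr rfl h2, Finset.sum_const, card_fiber hPm hPi hPd, nsmul_eq_mul]

lemma lam_shift {F : Type*} [Field F] (g : F[X]) {m n : ℕ} (hgm : g.natDegree = m) {f : F[X]}
    (hf : f.Monic) (hn : f.natDegree = n) (hm1 : 1 ≤ m) (hmn : m ≤ n) (t : F) :
    lam g (f + C t * X ^ (n - m)) = lam g f - g.leadingCoeff * (m * t) := by
  unfold lam
  have h1 : ∀ i ∈ range (g.natDegree + 1), g.coeff i * PowerSeries.coeff i (psu (f + C t * X ^ (n - m))) =
      g.coeff i * PowerSeries.coeff i (psu f) - if i = m then g.coeff i * (m * t) else 0 := by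
    intro i hi
    rw [Finset.mem_range, hgm] at hi
    rw [psu_shift hf hn hm1 hmn t i (by omega), mul_sub]
    split_ifs <;> simp
  rw [Finset.sum_congr rfl h1, Finset.sum_sub_distrib]
  congr 1
  rw [Finset.sum_ite_eq', if_pos (by rw [Finset.mem_range]; omega), leadingCoeff, hgm]

theorem cM_vanish {F : Type*} [Field F] [Finite F] (ψ : AddChar F ℂ) (hψ : ψ ≠ 1) (g : F[X]) (m : ℕ)
    (hgm : g.natDegree = m) (hm1 : 1 ≤ m) (hmF : (m : F) ≠ 0) (n : ℕ) (hmn : m ≤ n) :
    cM (fun f => ψ (lam g f)) n = 0 := by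
  have hg0 : g.leadingCoeff ≠ 0 := by
    rw [leadingCoeff_ne_zero]
    rintro rfl
    simp at hgm
    omega
  obtain ⟨y, hy⟩ : ∃ y, ψ y ≠ 1 := by
    by_contra hcon
    push Not at hcon
    exact hψ (by ext y; simp [hcon y])
  set t : F := -(y / (g.leadingCoeff * m)) with ht
  have hkey : g.leadingCoeff * (m * t) = -y := by
    rw [ht]; (clear * - hg0 hmF; field_simp)
  have h1 : cM (fun f => ψ (lam g f)) n = cM (fun f => ψ (lam g f)) n * ψ y := by
    conv_lhs => unfold cM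
    unfold cM
    rw [Finset.sum_mul]
    symm
    refine Finset.sum_bij' (fun f _ => f + C t * X ^ (n - m)) (fun f _ => f - C t * X ^ (n - m)) ?_ ?_ ?_ ?_ ?_
    · intro f hf
      rw [mem_Mon] at hf ⊢
      exact monic_shift hf.1 hf.2 hm1 hmn t
    · intro f hf
      rw [mem_Mon] at hf ⊢
      have := monic_shift hf.1 hf.2 hm1 hmn (-t)
      rwa [C_neg, neg_mul, ← sub_eq_add_neg] at this
    · intro f _; ring
    · intro f _; ring
    · intro f hf
      rw [mem_Mon] at hf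
      rw [lam_shift g hgm hf.1 hf.2 hm1 hmn t, hkey, sub_neg_eq_add, AddChar.map_add_eq_mul]
  have h2 : cM (fun f => ψ (lam g f)) n * (1 - ψ y) = 0 := by linear_combination h1
  rcases mul_eq_zero.1 h2 with h | h
  · exact h
  · exact absurd (by linear_combination (-1:ℂ) * h) hy

end Vale.Agent.P042
end
end
end

section

section

section

set_option autoImplicit false

namespace Vale.Agent.P042

open Polynomial Finset

lemma root_bound (Z : Multiset ℂ) (R B : ℝ) (hR : 0 < R)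
    (h : ∀ μ : ℕ, 1 ≤ μ → ‖(Z.map (fun z => z ^ μ)).sum‖ ≤ B * R ^ μ) :
    ∀ z ∈ Z, ‖z‖ ≤ R := by
  classical
  intro z1 hz1
  set L : ℂ[X] := ∏ z ∈ Z.toFinset.erase z1, (X - C z) with hL
  have hL1 : L.eval z1 ≠ 0 := by
    rw [hL, eval_prod, Finset.prod_ne_zero_iff]
    intro z hz
    rw [Finset.mem_erase] at hz
    simp only [eval_sub, eval_X, eval_C, ne_eq, sub_ne_zero, hz.1.symm, not_false_eq_true]
  have hL0 : ∀ z ∈ Z.toFinset, z ≠ z1 → L.eval z = 0 := by
    intro z hz hne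
    rw [hL, eval_prod]
    apply Finset.prod_eq_zero (Finset.mem_erase.2 ⟨hne, hz⟩)
    simp
  have key : ∀ μ : ℕ, ∑ j ∈ range (L.natDegree + 1), L.coeff j * (Z.map (fun z => z ^ (μ + j))).sum =
      (Z.count z1 : ℂ) * (z1 ^ μ * L.eval z1) := by
    intro μ
    have h1 : ∑ j ∈ range (L.natDegree + 1), L.coeff j * (Z.map (fun z => z ^ (μ + j))).sum =
        (Z.map (fun z => z ^ μ * L.eval z)).sum := by
      have h2 : ∀ z : ℂ, z ^ μ * L.eval z = ∑ j ∈ range (L.natDegree + 1), L.coeff j * z ^ (μ + j) := by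
        intro z
        rw [eval_eq_sum_range, Finset.mul_sum]
        refine Finset.sum_congr rfl fun j _ => ?_
        rw [pow_add]; ring
      simp_rw [h2]
      rw [Multiset.sum_map_sum]
      refine Finset.sum_congr rfl fun j _ => ?_
      rw [Multiset.sum_map_mul_left]
    rw [h1, Finset.sum_multiset_map_count]
    rw [Finset.sum_eq_single z1]
    · rw [nsmul_eq_mul]
    · intro z hz hne
      rw [hL0 z hz hne]; simp
    · intro hcon
      exact absurd (Multiset.mem_toFinset.2 hz1) hcon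
  have hcount : (1 : ℝ) ≤ Z.count z1 := by exact_mod_cast Multiset.one_le_count_iff_mem.2 hz1
  set K : ℝ := ∑ j ∈ range (L.natDegree + 1), ‖L.coeff j‖ * (B * R ^ j) with hK
  have hbound : ∀ μ : ℕ, 1 ≤ μ → ‖z1‖ ^ μ * ‖L.eval z1‖ ≤ K * R ^ μ := by
    intro μ hμ
    have h1 : ‖(Z.count z1 : ℂ) * (z1 ^ μ * L.eval z1)‖ ≤ K * R ^ μ := by
      rw [← key μ, hK, Finset.sum_mul]
      refine (norm_sum_le _ _).trans (Finset.sum_le_sum fun j _ => ?_)
      rw [norm_mul, mul_assoc]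
      apply mul_le_mul_of_nonneg_left _ (norm_nonneg _)
      refine (h (μ + j) (by omega)).trans (le_of_eq ?_)
      rw [pow_add]; ring
    rw [norm_mul, norm_mul, norm_pow, Complex.norm_natCast] at h1
    have h2 : 0 ≤ ‖z1‖ ^ μ * ‖L.eval z1‖ := by (clear * - hL1; positivity)
    nlinarith only [h1, hcount, h2]
  by_contra hcon
  push Not at hcon
  have hpos : 0 < ‖L.eval z1‖ := norm_pos_iff.2 hL1
  have hratio : 1 < ‖z1‖ / R := by rwa [one_lt_div hR]
  obtain ⟨μ, hμ⟩ := pow_unbounded_of_one_lt (K / ‖L.eval z1‖) hratio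
  have hμ2 : K / ‖L.eval z1‖ < (‖z1‖ / R) ^ (μ + 1) := by
    refine hμ.trans_le ?_
    exact pow_le_pow_right₀ hratio.le (by omega)
  have h3 := hbound (μ + 1) (by omega)
  rw [div_pow, div_lt_div_iff₀ hpos (by positivity)] at hμ2
  linarith only [hμ2, h3]

/-- T1C -/
theorem recurrence_bound (c s : ℕ → ℂ) (m : ℕ) (hm : 1 ≤ m) (h0 : c 0 = 1)
    (hc : ∀ n, m ≤ n → c n = 0)
    (hrec : ∀ n : ℕ, (n : ℂ) * c n = ∑ j ∈ Finset.Icc 1 n, s j * c (n - j)) (R B : ℝ) (hR : 0 < R)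
    (hs : ∀ μ, 1 ≤ μ → ‖s (2 * μ)‖ ≤ B * R ^ μ) : ‖s 1‖ ≤ ((m : ℝ) - 1) * Real.sqrt R := by
  -- the monic polynomial with coefficients c
  set f : ℂ[X] := ∑ n ∈ range m, C (c n) * X ^ (m - 1 - n) with hf
  have hfc : ∀ i, i ≤ m - 1 → f.coeff i = c (m - 1 - i) := by
    intro i hi
    rw [hf, finsetSum_coeff]
    simp_rw [coeff_C_mul_X_pow]
    rw [Finset.sum_eq_single (m - 1 - i)]
    · rw [if_pos (by omega)]
    · intro n hn hne
      rw [Finset.mem_range] at hn
      rw [if_neg (by omega)]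
    · intro hcon
      rw [Finset.mem_range] at hcon
      omega
  have hfdeg : f.natDegree ≤ m - 1 := by
    rw [hf]
    apply natDegree_sum_le_of_forall_le
    intro n _
    refine (natDegree_C_mul_X_pow_le _ _).trans (by omega)
  have hfm : f.Monic := by
    apply monic_of_natDegree_le_of_coeff_eq_one (m - 1) hfdeg
    rw [hfc _ le_rfl, Nat.sub_self, h0]
  have hfn : f.natDegree = m - 1 := by
    apply le_antisymm hfdeg
    apply le_natDegree_of_ne_zero
    rw [hfc _ le_rfl, Nat.sub_self, h0]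
    exact one_ne_zero
  have hrev : ∀ n, f.reverse.coeff n = c n := by
    intro n
    rw [coeff_reverse, hfn]
    rcases le_or_gt n (m - 1) with hn | hn
    · rw [revAt_le hn, hfc _ (by omega)]
      congr 1
      omega
    · rw [revAt_eq_self_of_lt hn, coeff_eq_zero_of_natDegree_lt (by omega), hc n (by omega)]
  set D : PowerSeries ℂ := (f.reverse : PowerSeries ℂ) with hD
  have hDc : ∀ n, PowerSeries.coeff n D = c n := by
    intro n
    rw [hD, Polynomial.coeff_coe, hrev]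
  set A : PowerSeries ℂ := PowerSeries.mk (fun n => if n = 0 then 0 else s n) with hA
  have hAD : A * D = PowerSeries.X * PowerSeries.derivative ℂ D := by
    ext n
    have h1 : PowerSeries.coeff n (PowerSeries.X * PowerSeries.derivative ℂ D) = n * c n := by
      rcases n with _ | n
      · simp
      · rw [PowerSeries.coeff_succ_X_mul, PowerSeries.coeff_derivative, hDc]
        push_cast
        ring
    rw [h1, hrec n, PowerSeries.coeff_mul, Finset.Nat.sum_antidiagonal_eq_sum_range_succ_mk]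
    simp only [hA, PowerSeries.coeff_mk, hDc]
    rw [Finset.sum_range_succ']
    simp only [if_true, zero_mul, add_zero]
    have h2 : Finset.Icc 1 n = (range n).image (fun k => k + 1) := by
      ext j
      rw [Finset.mem_Icc, Finset.mem_image]
      constructor
      · rintro ⟨h1, h2⟩
        exact ⟨j - 1, by rw [Finset.mem_range]; omega, by omega⟩
      · rintro ⟨k, hk, rfl⟩
        rw [Finset.mem_range] at hk
        omega
    rw [h2, Finset.sum_image (by intro a _ b _ h; simpa using h)]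
    refine Finset.sum_congr rfl fun k _ => ?_
    rw [if_neg (by omega)]
  have hpsu := psu_spec hfm.ne_zero
  rw [← hD, ← hAD, hfn] at hpsu
  have hDne : D ≠ 0 := by
    intro hcon
    have := hDc 0
    rw [hcon, h0] at this
    simp at this
  have hAeq : A = PowerSeries.C ((m - 1 : ℕ) : ℂ) - psu f := by
    apply mul_right_cancel₀ hDne
    linear_combination hpsu
  have hsplit : f = ((f.roots).map (fun a => X - C a)).prod :=
    (IsAlgClosed.splits f).eq_prod_roots_of_monic hfm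
  have hsn : ∀ n, 1 ≤ n → s n = -((f.roots).map (fun a => a ^ n)).sum := by
    intro n hn
    have h1 : PowerSeries.coeff n A = s n := by
      rw [hA, PowerSeries.coeff_mk, if_neg (by omega)]
    rw [← h1, hAeq]
    conv_lhs => rw [hsplit]
    rw [psu_prod, map_sub, PowerSeries.coeff_mk, PowerSeries.coeff_C, if_neg (by omega), zero_sub]
  have hZ := root_bound ((f.roots).map (fun a => a ^ 2)) R B hR (by
    intro μ hμ
    rw [Multiset.map_map]
    have h1 : (f.roots.map ((fun z : ℂ => z ^ μ) ∘ fun a => a ^ 2)).sum =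
        (f.roots.map (fun a => a ^ (2 * μ))).sum := by
      congr 2
      ext a
      simp [pow_mul]
    rw [h1]
    have h2 := hs μ hμ
    rwa [hsn (2 * μ) (by omega), norm_neg] at h2)
  have hroot : ∀ a ∈ f.roots, ‖a‖ ≤ Real.sqrt R := by
    intro a ha
    have h1 := hZ (a ^ 2) (Multiset.mem_map_of_mem (fun a => a ^ 2) ha)
    rw [norm_pow] at h1
    exact Real.le_sqrt_of_sq_le h1
  rw [hsn 1 le_rfl, norm_neg]
  have h1 : ((f.roots).map (fun a => a ^ 1)).sum = (f.roots).sum := by simp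
  rw [h1]
  have h2 : ‖(f.roots).sum‖ ≤ ((f.roots).map (fun a => ‖a‖)).sum := by
    have := norm_multiset_sum_le (f.roots)
    simpa only [ge_iff_le] using this
  refine h2.trans ?_
  have h3 : ((f.roots).map (fun a => ‖a‖)).sum ≤ ((f.roots).map (fun a => ‖a‖)).card • Real.sqrt R := by
    apply Multiset.sum_le_card_nsmul
    intro x hx
    rw [Multiset.mem_map] at hx
    obtain ⟨a, ha, rfl⟩ := hx
    exact hroot a ha
  refine h3.trans (le_of_eq ?_)
  rw [Multiset.card_map, nsmul_eq_mul]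
  have h4 : Multiset.card f.roots = f.natDegree := splits_iff_card_roots.1 (IsAlgClosed.splits f)
  rw [h4, hfn]
  push_cast [Nat.cast_sub hm]
  ring

end Vale.Agent.P042
end
end
end

section

section

section

namespace Vale.Agent.P042

open Polynomial Finset

theorem natDegree_frob_sum {p m : ℕ} (hp : 1 < p) {K : Type*} [Field K] (g : K[X])
    (hg : g.natDegree = m) (hm : 1 ≤ m) (k : ℕ) :
    (∑ i ∈ range (k + 1), g ^ (p ^ i)).natDegree = m * p ^ k := by
  induction k with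
  | zero => simp [hg]
  | succ k ih =>
    rw [sum_range_succ, natDegree_add_eq_right_of_natDegree_lt]
    · rw [natDegree_pow, hg, mul_comm]
    · rw [ih, natDegree_pow, hg, mul_comm (p ^ (k + 1))]
      exact Nat.mul_lt_mul_of_pos_left (Nat.pow_lt_pow_right hp (Nat.lt_succ_self k)) hm

theorem stepanov {p μ m : ℕ} [Fact p.Prime] {K : Type*} [Field K] [Fintype K] [CharP K p]
    (hμ : 1 ≤ μ) (hK : Fintype.card K = p ^ (2 * μ)) (g : Polynomial K) (hg : g.natDegree = m)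
    (hm : 1 ≤ m) (hmp : m < p) (b : K) :
    ∃ T : Finset K, (∀ x, ∑ i ∈ Finset.range (2 * μ), (g.eval x) ^ (p ^ i) = b → x ∈ T) ∧
      T.card ≤ p ^ (2 * μ - 1) + (2 * m + 4) * p ^ μ := by
  classical
  obtain ⟨ν, rfl⟩ : ∃ ν, μ = ν + 1 := ⟨μ - 1, by omega⟩
  have hpp : p.Prime := Fact.out
  have hp1 : 1 < p := hpp.one_lt
  obtain ⟨l, hl⟩ : ∃ l, l = p ^ ν := ⟨_, rfl⟩
  obtain ⟨s, hs⟩ : ∃ s, s = p ^ (ν + 1) := ⟨_, rfl⟩
  have hsl : s = p * l := by rw [hs, hl, pow_succ, mul_comm]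
  have hl0 : 0 < l := by rw [hl]; (clear * - hp1; positivity)
  have hs0 : 0 < s := by rw [hs]; positivity
  obtain ⟨A, hA⟩ : ∃ A, A = l + m + 3 := ⟨_, rfl⟩
  have hss : s * s = Fintype.card K := by
    rw [hK, hs, ← pow_add]; congr 1; ring
  have e1 : 2 * l ≤ s := by rw [hsl]; exact Nat.mul_le_mul_right l hp1
  have e2 : m + 1 ≤ s := by
    rw [hsl]
    calc m + 1 ≤ p := hmp
      _ = p * 1 := (mul_one p).symm
      _ ≤ p * l := Nat.mul_le_mul_left p hl0
  have e3 : 2 ≤ s := by omega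
  set T1 : K[X] := ∑ i ∈ range (ν + 1), g ^ (p ^ i) with hT1
  have hT1deg : T1.natDegree = m * l := by
    rw [hT1, natDegree_frob_sum hp1 g hg hm ν, hl]
  have hT10 : T1 ≠ 0 := by
    intro h
    rw [h, natDegree_zero] at hT1deg
    have : 0 < m * l := Nat.mul_pos hm hl0
    omega
  -- the auxiliary family
  let φ : Fin l × Fin A × Fin p → K[X] := fun t =>
    X ^ ((t.1 : ℕ) * s + (t.2.1 : ℕ)) * (C b - T1) ^ (t.2.2 : ℕ)
  obtain ⟨n, hn⟩ : ∃ n, n = l * s + A + m * s := ⟨_, rfl⟩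
  have hφdeg : ∀ t, (φ t).natDegree < n := by
    intro t
    have h1 : (C b - T1).natDegree ≤ m * l := by
      refine (natDegree_sub_le _ _).trans ?_
      rw [natDegree_C, hT1deg]
      simp only [zero_le, sup_of_le_right, Std.le_refl]
    have h2 : (φ t).natDegree ≤ ((t.1 : ℕ) * s + (t.2.1 : ℕ)) + (t.2.2 : ℕ) * (m * l) := by
      refine (natDegree_mul_le).trans ?_
      refine Nat.add_le_add ?_ ?_
      · exact natDegree_X_pow_le _
      · exact (natDegree_pow_le).trans (Nat.mul_le_mul_left _ h1)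
    have h3 : (t.1 : ℕ) * s + s ≤ l * s := by
      have : (t.1 : ℕ) + 1 ≤ l := t.1.2
      calc (t.1 : ℕ) * s + s = ((t.1 : ℕ) + 1) * s := by ring
        _ ≤ l * s := Nat.mul_le_mul_right _ this
    have h4 : (t.2.1 : ℕ) < A := t.2.1.2
    have h5 : (t.2.2 : ℕ) * (m * l) ≤ m * s := by
      have : (t.2.2 : ℕ) ≤ p := t.2.2.2.le
      calc (t.2.2 : ℕ) * (m * l) ≤ p * (m * l) := Nat.mul_le_mul_right _ this
        _ = m * s := by rw [hsl]; ring
    (clear * - hl hs hsl hA e1 e2 hn h2 h3 h5; omega)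
  let L : (Fin l × Fin A × Fin p → K) →ₗ[K] (Fin n → K) :=
    (LinearMap.pi fun k : Fin n => Polynomial.lcoeff K (k : ℕ)).comp
      (Fintype.linearCombination K φ)
  have hker : LinearMap.ker L ≠ ⊥ := by
    apply LinearMap.ker_ne_bot_of_finrank_lt
    rw [Module.finrank_fintype_fun_eq_card, Module.finrank_fintype_fun_eq_card]
    simp only [Fintype.card_prod, Fintype.card_fin]
    have h1 : l * (A * p) = A * s := by rw [hsl]; ring
    rw [h1, hn, hA]
    have h2 : (l + m + 3) * s = l * s + m * s + 3 * s := by ring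
    rw [h2]
    omega
  obtain ⟨d, hdk, hd0⟩ := (Submodule.ne_bot_iff _).1 hker
  have hP : ∑ t, d t • φ t = 0 := by
    ext k
    by_cases hk : k < n
    · have h1 := congrFun (LinearMap.mem_ker.1 hdk) ⟨k, hk⟩
      simpa [L, Fintype.linearCombination_apply] using h1
    · rw [finsetSum_coeff, coeff_zero]
      refine sum_eq_zero fun t _ => ?_
      rw [coeff_smul, coeff_eq_zero_of_natDegree_lt (by have := hφdeg t; omega), smul_zero]
  let f : Fin l × Fin A × Fin p → K[X] := fun t =>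
    C (d t ^ s) * (X ^ ((t.1 : ℕ) + (t.2.1 : ℕ) * s) * T1 ^ (t.2.2 : ℕ))
  let G : K[X] := ∑ t, f t
  have hfdeg : ∀ t, d t ≠ 0 → (f t).natDegree =
      ((t.1 : ℕ) + (t.2.1 : ℕ) * s) + (t.2.2 : ℕ) * (m * l) := by
    intro t ht
    have h1 : d t ^ s ≠ 0 := pow_ne_zero _ ht
    have h2 : T1 ^ (t.2.2 : ℕ) ≠ 0 := pow_ne_zero _ hT10
    simp only [f]
    rw [natDegree_C_mul h1, natDegree_mul (pow_ne_zero _ X_ne_zero) h2, natDegree_X_pow,
      natDegree_pow, hT1deg]
  have hf0 : ∀ t, d t ≠ 0 → f t ≠ 0 := by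
    intro t ht
    exact mul_ne_zero (C_ne_zero.2 (pow_ne_zero _ ht))
      (mul_ne_zero (pow_ne_zero _ X_ne_zero) (pow_ne_zero _ hT10))
  have hfd : ∀ t, f t ≠ 0 → d t ≠ 0 := by
    intro t ht h
    apply ht
    simp only [f, h, zero_pow hs0.ne', C_0, zero_mul]
  have hG0 : G ≠ 0 := by
    obtain ⟨t0, ht0⟩ : ∃ t, d t ≠ 0 := by
      by_contra hcon
      push Not at hcon
      exact hd0 (funext hcon)
    intro hG
    have hdis := degree_sum_eq_of_disjoint f univ (by
      rintro t ⟨-, ht⟩ t' ⟨-, ht'⟩ hne hdeg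
      apply hne
      have hd1 := hfdeg t (hfd t ht)
      have hd2 := hfdeg t' (hfd t' ht')
      have hdd : (f t).natDegree = (f t').natDegree := natDegree_eq_of_degree_eq hdeg
      rw [hd1, hd2] at hdd
      have k1 : ((t.1 : ℕ) + (t.2.1 : ℕ) * s) + (t.2.2 : ℕ) * (m * l) =
          (t.1 : ℕ) + l * ((t.2.1 : ℕ) * p + (t.2.2 : ℕ) * m) := by rw [hsl]; ring
      have k2 : ((t'.1 : ℕ) + (t'.2.1 : ℕ) * s) + (t'.2.2 : ℕ) * (m * l) =
          (t'.1 : ℕ) + l * ((t'.2.1 : ℕ) * p + (t'.2.2 : ℕ) * m) := by rw [hsl]; ring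
      rw [k1, k2] at hdd
      have c1 : (t.1 : ℕ) = t'.1 := by
        have := congrArg (· % l) hdd
        simpa only [Nat.add_mul_mod_self_left, Nat.mod_eq_of_lt t.1.2, Nat.mod_eq_of_lt t'.1.2] using this
      have c2 : (t.2.1 : ℕ) * p + (t.2.2 : ℕ) * m = (t'.2.1 : ℕ) * p + (t'.2.2 : ℕ) * m := by
        rw [c1] at hdd
        exact Nat.eq_of_mul_eq_mul_left hl0 (Nat.add_left_cancel hdd)
      have c3 : (t.2.2 : ℕ) = t'.2.2 := by
        have h3 : (t.2.2 : ℕ) * m ≡ (t'.2.2 : ℕ) * m [MOD p] := by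
          have := congrArg (· % p) c2
          simpa only [Nat.ModEq, Nat.add_mod, Nat.mul_mod_left, zero_add, dvd_refl, Nat.mod_mod_of_dvd] using this
        have hco : Nat.gcd p m = 1 := by
          refine (Nat.Prime.coprime_iff_not_dvd hpp).2 ?_
          exact Nat.not_dvd_of_pos_of_lt hm hmp
        have h4 := Nat.ModEq.cancel_right_of_coprime hco h3
        exact Nat.ModEq.eq_of_lt_of_lt h4 t.2.2.2 t'.2.2.2
      have c4 : (t.2.1 : ℕ) = t'.2.1 := by
        rw [c3] at c2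
        exact Nat.eq_of_mul_eq_mul_right hpp.pos (Nat.add_right_cancel c2)
      exact Prod.ext (Fin.ext c1) (Prod.ext (Fin.ext c4) (Fin.ext c3)))
    have h1 : degree (f t0) ≤ univ.sup fun t => degree (f t) :=
      Finset.le_sup (f := fun t => degree (f t)) (mem_univ t0)
    rw [← hdis] at h1
    have h2 : (∑ t, f t) = 0 := hG
    rw [h2, degree_zero, le_bot_iff, degree_eq_bot] at h1
    exact hf0 t0 ht0 h1
  refine ⟨G.roots.toFinset, ?_, ?_⟩
  · intro x hx
    rw [Multiset.mem_toFinset, mem_roots hG0]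
    have hT1x : (T1.eval x) ^ s = b - T1.eval x := by
      have h1 : T1.eval x = ∑ i ∈ range (ν + 1), (g.eval x) ^ (p ^ i) := by
        rw [hT1, eval_finsetSum]
        simp only [eval_pow]
      have h2 : (T1.eval x) ^ s = ∑ i ∈ range (ν + 1), (g.eval x) ^ (p ^ (ν + 1 + i)) := by
        rw [h1, hs, sum_pow_char_pow]
        refine sum_congr rfl fun i _ => ?_
        rw [← pow_mul]
        congr 1
        rw [pow_add (p) (ν + 1) i, mul_comm]
      have h3 : ∑ i ∈ range (2 * (ν + 1)), (g.eval x) ^ (p ^ i) =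
          ∑ i ∈ range (ν + 1), (g.eval x) ^ (p ^ i) +
          ∑ i ∈ range (ν + 1), (g.eval x) ^ (p ^ (ν + 1 + i)) := by
        rw [two_mul, sum_range_add]
      rw [h2, h1, ← hx, h3, add_sub_cancel_left]
    have hcard : ∀ y : K, y ^ (s * s) = y := by
      intro y
      rw [hss, FiniteField.pow_card]
    have hev : (G.eval x) ^ s = 0 := by
      have h1 : G.eval x = ∑ t, d t ^ s * (x ^ ((t.1 : ℕ) + (t.2.1 : ℕ) * s) *
          (T1.eval x) ^ (t.2.2 : ℕ)) := by
        simp only [map_pow, eval_finsetSum, eval_mul, eval_pow, eval_C, eval_X, G, f]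
      rw [h1]
      have h2 : (∑ t : Fin l × Fin A × Fin p, d t ^ s * (x ^ ((t.1 : ℕ) + (t.2.1 : ℕ) * s) *
          (T1.eval x) ^ (t.2.2 : ℕ))) ^ s = ∑ t : Fin l × Fin A × Fin p,
          (d t ^ s * (x ^ ((t.1 : ℕ) + (t.2.1 : ℕ) * s) *
          (T1.eval x) ^ (t.2.2 : ℕ))) ^ s := by
        rw [hs, sum_pow_char_pow]
      rw [h2]
      have h3 : (∑ t, d t • φ t).eval x = 0 := by rw [hP, eval_zero]
      rw [eval_finsetSum] at h3
      rw [← h3]
      refine sum_congr rfl fun t _ => ?_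
      simp only [φ, eval_smul, smul_eq_mul, eval_mul, eval_pow, eval_X, eval_sub, eval_C]
      rw [mul_pow, mul_pow, ← pow_mul (d t), hcard, ← pow_mul (T1.eval x),
        mul_comm (t.2.2 : ℕ) s, pow_mul (T1.eval x), hT1x, ← pow_mul x, add_mul,
        pow_add, mul_assoc (t.2.1 : ℕ) s s, mul_comm (t.2.1 : ℕ) (s * s), pow_mul x (s * s),
        hcard, ← pow_add]
    exact pow_eq_zero_iff hs0.ne' |>.1 hev
  · have hcardle : G.roots.toFinset.card ≤ G.natDegree :=
      (Multiset.toFinset_card_le _).trans (card_roots' G)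
    refine hcardle.trans ?_
    refine natDegree_sum_le_of_forall_le _ _ ?_
    intro t _
    by_cases ht : d t = 0
    · simp only [map_pow, ht, map_zero, zero_pow hs0.ne', zero_mul, natDegree_zero, zero_le, f]
    rw [hfdeg t ht]
    have h1 : (t.1 : ℕ) < l := t.1.2
    have h2 : (t.2.1 : ℕ) * s + s ≤ l * s + m * s + 3 * s := by
      have : (t.2.1 : ℕ) + 1 ≤ A := t.2.1.2
      calc (t.2.1 : ℕ) * s + s = ((t.2.1 : ℕ) + 1) * s := by ring
        _ ≤ A * s := Nat.mul_le_mul_right _ this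
        _ = l * s + m * s + 3 * s := by rw [hA]; ring
    have h3 : (t.2.2 : ℕ) * (m * l) ≤ m * s := by
      have : (t.2.2 : ℕ) ≤ p := t.2.2.2.le
      calc (t.2.2 : ℕ) * (m * l) ≤ p * (m * l) := Nat.mul_le_mul_right _ this
        _ = m * s := by rw [hsl]; ring
    have h4 : p ^ (2 * (ν + 1) - 1) = l * s := by
      rw [hl, hs, ← pow_add]; congr 1; (clear * - hμ; omega)
    have h5 : (2 * m + 4) * p ^ (ν + 1) = m * s + m * s + 4 * s := by rw [← hs]; ring
    rw [h4, h5]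
    omega

end Vale.Agent.P042
end
end
end

section

section

section

set_option autoImplicit false

namespace Vale.Agent.P042

open Polynomial Finset

lemma cm_lam {F : Type*} [Field F] (ψ : AddChar F ℂ) (g : F[X]) : CM (fun f => ψ (lam g f)) where
  one := by simp [lam_one]
  mul f1 f2 h1 h2 := by
    rw [lam_mul g h1.ne_zero h2.ne_zero, AddChar.map_add_eq_mul]

open Classical in
lemma even_bound {p : ℕ} [Fact p.Prime] (g : (ZMod p)[X]) (hg1 : 1 ≤ g.natDegree)
    (hgp : g.natDegree < p) (ψ : AddChar (ZMod p) ℂ) (hψ : ψ ≠ 1) (μ : ℕ) (hμ : 1 ≤ μ) :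
    ‖sM (fun f => ψ (lam g f)) (2 * μ)‖ ≤ (2 * p * (2 * g.natDegree + 4)) * (p : ℝ) ^ μ := by
  set m := g.natDegree with hm
  let K := GaloisField p (2 * μ)
  have hfr : Module.finrank (ZMod p) K = 2 * μ := GaloisField.finrank p (by (clear g ψ hψ m hg1 hgp hm K; omega))
  have : Fintype K := Fintype.ofFinite K
  have hcard : Fintype.card K = p ^ (2 * μ) := by
    rw [← Nat.card_eq_fintype_card, GaloisField.card p (2 * μ) (by omega)]
  have hsum := sum_eq_sM (K := K) ψ g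
  rw [hfr] at hsum
  rw [← hsum]
  set N : ZMod p → ℕ := fun b =>
    ((univ : Finset K).filter (fun x => Algebra.trace (ZMod p) K (aeval x g) = b)).card with hN
  have hNle : ∀ b, N b ≤ p ^ (2 * μ - 1) + (2 * m + 4) * p ^ μ := by
    intro b
    obtain ⟨T, hT1, hT2⟩ := stepanov (K := K) hμ hcard (g.map (algebraMap (ZMod p) K))
      (by rw [natDegree_map]) hg1 hgp (algebraMap (ZMod p) K b)
    refine le_trans (Finset.card_le_card ?_) hT2
    intro x hx
    rw [Finset.mem_filter] at hx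
    apply hT1
    have h1 := FiniteField.algebraMap_trace_eq_sum_pow (ZMod p) K (aeval x g)
    rw [hx.2, hfr, Nat.card_zmod] at h1
    rw [h1]
    refine Finset.sum_congr rfl fun i _ => ?_
    rw [eval_map_algebraMap]
  have hNsum : ∑ b, N b = p ^ (2 * μ) := by
    rw [← hcard, ← Finset.card_univ]
    exact (Finset.card_eq_sum_card_fiberwise (fun x _ => Finset.mem_univ _)).symm
  have hS : ∑ x : K, ψ (Algebra.trace (ZMod p) K (aeval x g)) = ∑ b : ZMod p, (N b : ℂ) * ψ b := by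
    rw [← Finset.sum_fiberwise_of_maps_to (s := (univ : Finset K)) (t := (univ : Finset (ZMod p)))
      (g := fun x => Algebra.trace (ZMod p) K (aeval x g)) (fun x _ => Finset.mem_univ _)]
    refine Finset.sum_congr rfl fun b _ => ?_
    rw [Finset.sum_congr rfl (g := fun _ => ψ b)]
    · rw [Finset.sum_const, nsmul_eq_mul]
    · intro x hx
      rw [Finset.mem_filter] at hx
      rw [hx.2]
  have hψ0 : ∑ b : ZMod p, ψ b = 0 := AddChar.sum_eq_zero_of_ne_one hψ
  set T : ℝ := (p : ℝ) ^ (2 * μ - 1) with hT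
  have hS2 : ∑ b : ZMod p, (N b : ℂ) * ψ b = ∑ b : ZMod p, (((N b : ℝ) - T : ℝ) : ℂ) * ψ b := by
    have h1 : ∑ b : ZMod p, (((N b : ℝ) - T : ℝ) : ℂ) * ψ b =
        ∑ b : ZMod p, (N b : ℂ) * ψ b - T * ∑ b : ZMod p, ψ b := by
      rw [Finset.mul_sum, ← Finset.sum_sub_distrib]
      refine Finset.sum_congr rfl fun b _ => ?_
      push_cast; ring
    rw [h1, hψ0]; ring
  have hψn : ∀ b, ‖ψ b‖ = 1 := fun b => ψ.norm_apply b
  rw [hS, hS2]
  set E : ℝ := (2 * m + 4) * (p : ℝ) ^ μ with hE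
  have h3 : ∀ b, |(N b : ℝ) - T| ≤ 2 * E - ((N b : ℝ) - T) := by
    intro b
    have h4 : (N b : ℝ) ≤ T + E := by
      have := hNle b
      rw [hT, hE]
      exact_mod_cast this
    have hE0 : 0 ≤ E := by (clear * - hg1; positivity)
    rw [abs_le]
    constructor <;> linarith only [h4, hE0]
  have h5 : ∑ b : ZMod p, ((N b : ℝ) - T) = 0 := by
    rw [Finset.sum_sub_distrib]
    have h6 : ∑ b : ZMod p, (N b : ℝ) = (p : ℝ) ^ (2 * μ) := by exact_mod_cast hNsum
    rw [h6, Finset.sum_const, Finset.card_univ, ZMod.card, nsmul_eq_mul, hT, ← pow_succ']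
    rw [show 2 * μ - 1 + 1 = 2 * μ by (clear g ψ hψ m hg1 hgp hm hfr hcard hsum N hN hNle hNsum hS hψ0 T hT hS2 hψn E hE h3 h6; omega), sub_self]
  calc ‖∑ b : ZMod p, (((N b : ℝ) - T : ℝ) : ℂ) * ψ b‖ ≤ ∑ b : ZMod p, |(N b : ℝ) - T| := by
        refine (norm_sum_le _ _).trans (Finset.sum_le_sum fun b _ => ?_)
        rw [norm_mul, hψn, mul_one, Complex.norm_real, Real.norm_eq_abs]
    _ ≤ ∑ b : ZMod p, (2 * E - ((N b : ℝ) - T)) := Finset.sum_le_sum fun b _ => h3 b
    _ = p * (2 * E) := by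
        rw [Finset.sum_sub_distrib, h5, Finset.sum_const, Finset.card_univ, ZMod.card, nsmul_eq_mul,
          sub_zero]
    _ = (2 * p * (2 * m + 4)) * (p : ℝ) ^ μ := by rw [hE]; ring

/-- Weil's bound for additive character sums of polynomials over `ZMod p`. -/
theorem weil_bound {p : ℕ} [Fact p.Prime] (g : (ZMod p)[X]) (hg1 : 1 ≤ g.natDegree)
    (hgp : g.natDegree < p) (ψ : AddChar (ZMod p) ℂ) (hψ : ψ ≠ 1) :
    ‖∑ x : ZMod p, ψ (g.eval x)‖ ≤ ((g.natDegree : ℝ) - 1) * Real.sqrt p := by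
  have hp : p.Prime := Fact.out
  have hmF : ((g.natDegree : ℕ) : ZMod p) ≠ 0 := by
    intro h
    rw [ZMod.natCast_eq_zero_iff] at h
    exact absurd (Nat.le_of_dvd (by omega) h) (by omega)
  have hcm := cm_lam ψ g
  have h1 := recurrence_bound (cM (fun f => ψ (lam g f))) (sM (fun f => ψ (lam g f))) g.natDegree hg1
    (by unfold cM; rw [Mon_zero, Finset.sum_singleton]; exact hcm.one)
    (fun n hn => cM_vanish ψ hψ g _ rfl hg1 hmF n hn)
    (fun n => newton hcm n) p (2 * p * (2 * g.natDegree + 4)) (by exact_mod_cast hp.pos)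
    (fun μ hμ => even_bound g hg1 hgp ψ hψ μ hμ)
  have h2 := sum_eq_sM (K := ZMod p) ψ g
  rw [Module.finrank_self] at h2
  rw [← h2] at h1
  refine le_trans (le_of_eq ?_) h1
  congr 1
  refine Finset.sum_congr rfl fun x _ => ?_
  rw [Algebra.trace_self_apply]
  simp

end Vale.Agent.P042
end
end
end

section

section

section

/-!
# P042, module S2-cost: cost of the random modulus

Chebyshev type bounds for the sums of `kap p j * (j * log p)` over prime powers.
-/

namespace Vale.Agent.P042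

open Finset

/-- partial summation inequality -/
theorem cost_abel (b g : ℕ → ℝ) (c : ℝ) (hg : Antitone g)
    (hA : ∀ n, ∑ m ∈ range n, b m ≤ c * n) (hg0 : ∀ n, 0 ≤ g n) (n : ℕ) :
    ∑ m ∈ range n, b m * g m ≤ c * ∑ m ∈ range n, g m := by
  have key : ∀ n : ℕ, ∑ m ∈ range n, b m * g m + (c * n - ∑ m ∈ range n, b m) * g n
      ≤ c * ∑ m ∈ range n, g m := by
    intro n
    induction n with
    | zero => simp
    | succ n ih =>
      rw [Finset.sum_range_succ, Finset.sum_range_succ (f := b), Finset.sum_range_succ (f := g)]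
      have h1 := hA (n + 1)
      rw [Finset.sum_range_succ] at h1
      have h2 : g (n + 1) ≤ g n := hg (Nat.le_succ n)
      push_cast at h1 ⊢
      have h3 : (c * (n + 1) - (∑ m ∈ range n, b m + b n)) * g (n + 1)
          ≤ (c * (n + 1) - (∑ m ∈ range n, b m + b n)) * g n :=
        mul_le_mul_of_nonneg_left h2 (by linarith only [h1])
      linarith
  have h1 := key n
  have h2 := hA n
  have h3 : 0 ≤ (c * n - ∑ m ∈ range n, b m) * g n := mul_nonneg (by linarith) (hg0 n)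
  linarith only [h1, h3]

/-- `log p` on primes, shifted by one -/
noncomputable def lp (m : ℕ) : ℝ := if (m + 1).Prime then Real.log ((m + 1 : ℕ) : ℝ) else 0

theorem sum_lp_le (n : ℕ) : ∑ m ∈ range n, lp m ≤ Real.log 4 * n := by
  have h1 : ∑ m ∈ range n, lp m = Chebyshev.theta n := by
    unfold Chebyshev.theta lp
    rw [Nat.floor_natCast, Finset.sum_filter, Finset.range_eq_Ico,
      Finset.sum_Ico_add' (fun m : ℕ => if m.Prime then Real.log ((m : ℕ) : ℝ) else 0) 0 n 1]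
    apply Finset.sum_congr _ (fun _ _ => rfl)
    ext m
    simp only [Finset.mem_Ico, Finset.mem_Ioc]
    omega
  rw [h1]
  exact Chebyshev.theta_le_log4_mul_x (Nat.cast_nonneg n)

theorem sum_shift (F : ℕ → ℝ) (n : ℕ) :
    ∑ p ∈ (range (n + 1)).filter Nat.Prime, F p
      = ∑ m ∈ range n, if (m + 1).Prime then F (m + 1) else 0 := by
  rw [Finset.sum_filter, Finset.sum_range_succ']
  simp only [Nat.not_prime_zero, ↓reduceIte, add_zero]

/-- `∑_{p ≤ n} log p / √p ≤ 2 log 4 √n` -/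
theorem sum_log_div_sqrt (n : ℕ) :
    ∑ p ∈ (range (n + 1)).filter Nat.Prime, Real.log p / Real.sqrt p
      ≤ Real.log 4 * (2 * Real.sqrt n) := by
  rw [sum_shift (fun p => Real.log p / Real.sqrt p)]
  have h1 : ∑ m ∈ range n, (if (m + 1).Prime then Real.log ((m + 1 : ℕ) : ℝ) / Real.sqrt ((m + 1 : ℕ) : ℝ) else 0)
      = ∑ m ∈ range n, lp m * (1 / Real.sqrt ((m + 1 : ℕ) : ℝ)) := by
    apply Finset.sum_congr rfl
    intro m _
    unfold lp
    split_ifs
    · ring
    · ring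
  rw [h1]
  refine (cost_abel lp (fun m => 1 / Real.sqrt ((m + 1 : ℕ) : ℝ)) (Real.log 4) ?_ sum_lp_le ?_ n).trans ?_
  · intro a b hab
    have h2 : (0 : ℝ) < Real.sqrt ((a + 1 : ℕ) : ℝ) := Real.sqrt_pos.mpr (by positivity)
    exact one_div_le_one_div_of_le h2 (Real.sqrt_le_sqrt (by exact_mod_cast Nat.succ_le_succ hab))
  · intro m
    positivity
  · apply mul_le_mul_of_nonneg_left _ (Real.log_nonneg (by norm_num))
    clear h1
    induction n with
    | zero => simp
    | succ n ih =>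
      rw [Finset.sum_range_succ]
      have h3 : 1 / Real.sqrt ((n + 1 : ℕ) : ℝ) ≤ 2 * Real.sqrt ((n + 1 : ℕ) : ℝ) - 2 * Real.sqrt n := by
        have h4 : (0 : ℝ) < Real.sqrt ((n + 1 : ℕ) : ℝ) := Real.sqrt_pos.mpr (by positivity)
        rw [div_le_iff₀ h4]
        have h5 : Real.sqrt ((n + 1 : ℕ) : ℝ) * Real.sqrt ((n + 1 : ℕ) : ℝ) = n + 1 := by
          rw [Real.mul_self_sqrt (by positivity)]; push_cast; ring
        have h6 : Real.sqrt (n : ℝ) * Real.sqrt (n : ℝ) = n := Real.mul_self_sqrt (by positivity)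
        nlinarith only [h5, h6]
      linarith

/-- `∑_{p ≤ n} log p / p ≤ log 4 (1 + log n)` -/
theorem sum_log_div (n : ℕ) :
    ∑ p ∈ (range (n + 1)).filter Nat.Prime, Real.log p / p
      ≤ Real.log 4 * (1 + Real.log n) := by
  rw [sum_shift (fun p => Real.log p / p)]
  have h1 : ∑ m ∈ range n, (if (m + 1).Prime then Real.log ((m + 1 : ℕ) : ℝ) / ((m + 1 : ℕ) : ℝ) else 0)
      = ∑ m ∈ range n, lp m * (1 / ((m + 1 : ℕ) : ℝ)) := by
    apply Finset.sum_congr rfl
    intro m _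
    unfold lp
    split_ifs
    · ring
    · ring
  rw [h1]
  refine (cost_abel lp (fun m => 1 / ((m + 1 : ℕ) : ℝ)) (Real.log 4) ?_ sum_lp_le ?_ n).trans ?_
  · intro a b hab
    have h2 : (0 : ℝ) < ((a + 1 : ℕ) : ℝ) := by positivity
    exact one_div_le_one_div_of_le h2 (by exact_mod_cast Nat.succ_le_succ hab)
  · intro m
    positivity
  · apply mul_le_mul_of_nonneg_left _ (Real.log_nonneg (by norm_num))
    have h3 := harmonic_le_one_add_log n
    have h4 : ((harmonic n : ℚ) : ℝ) = ∑ m ∈ range n, (1 / ((m + 1 : ℕ) : ℝ)) := by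
      unfold harmonic
      push_cast
      apply Finset.sum_congr rfl
      intro m _
      rw [one_div]
    rw [← h4]
    exact h3

/-- sum over a finite set of pairs by fibres of the first coordinate -/
theorem cost_fib (I : Finset (ℕ × ℕ)) (P : Finset ℕ) (hIP : ∀ i ∈ I, i.1 ∈ P) (F : ℕ → ℕ → ℝ)
    (G : ℕ → ℝ) (h : ∀ p ∈ P, ∀ s : Finset ℕ, (∀ j ∈ s, (p, j) ∈ I) → ∑ j ∈ s, F p j ≤ G p) :
    ∑ i ∈ I, F i.1 i.2 ≤ ∑ p ∈ P, G p := by
  classical
  rw [← Finset.sum_fiberwise_of_maps_to hIP]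
  apply Finset.sum_le_sum
  intro p hp
  have h3 : ∑ i ∈ I.filter (fun i => i.1 = p), F i.1 i.2
      = ∑ j ∈ (I.filter (fun i => i.1 = p)).image (fun i => i.2), F p j := by
    rw [Finset.sum_image]
    · apply Finset.sum_congr rfl
      intro i hi
      rw [Finset.mem_filter] at hi
      rw [hi.2]
    · intro i hi i' hi' h
      rw [Finset.mem_coe, Finset.mem_filter] at hi hi'
      exact Prod.ext (by rw [hi.2, hi'.2]) h
  rw [h3]
  apply h p hp
  intro j hj
  rw [Finset.mem_image] at hj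
  obtain ⟨i, hi, rfl⟩ := hj
  rw [Finset.mem_filter] at hi
  rw [← hi.2]
  exact hi.1

/-- the cost bound with separated constants: the factor `C2` of the main term depends only on
`C1` and `E`. -/
theorem cost_bound2 (C1 : ℝ) (E : ℕ) (hC : 0 ≤ C1) (hE : 1 ≤ E) :
    ∃ C2 : ℝ, 0 < C2 ∧ ∀ (K : ℝ) (p0 : ℕ), 0 ≤ K → ∃ C3 : ℝ, 0 ≤ C3 ∧
      ∀ (kap : ℕ → ℕ → ℝ),
      (∀ p j, p.Prime → 1 ≤ j → kap p j ≤ K * (p : ℝ) ^ (-(j : ℝ) / E)) →
      (∀ p, p.Prime → p0 < p → kap p 1 ≤ C1 / Real.sqrt p) →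
      (∀ p j, p.Prime → p0 < p → 2 ≤ j → kap p j ≤ C1 / p) →
      ∀ (Q Y : ℕ), 1 ≤ Q → ∀ (I : Finset (ℕ × ℕ)),
        (∀ i ∈ I, i.1.Prime ∧ 1 ≤ i.2 ∧ i.1 ^ i.2 ≤ Q ∧ (i.1 ≤ Y ∨ 2 ≤ i.2)) →
        ∑ i ∈ I, kap i.1 i.2 * (i.2 * Real.log i.1) ≤ C2 * (Real.sqrt Y + Real.log Q) + C3 := by
  classical
  -- the geometric series
  set r : ℝ := (2 : ℝ) ^ (-(1 : ℝ) / E) with hr
  have hER : (0 : ℝ) < E := by exact_mod_cast hE
  have hr0 : 0 < r := Real.rpow_pos_of_pos (by norm_num) _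
  have hr1 : r < 1 := Real.rpow_lt_one_of_one_lt_of_neg (by norm_num)
    (div_neg_of_neg_of_pos (by norm_num) hER)
  have hsum : Summable (fun n : ℕ => (n : ℝ) * r ^ n) :=
    (hasSum_coe_mul_geometric_of_norm_lt_one (by rw [Real.norm_of_nonneg hr0.le]; exact hr1)).summable
  set S : ℝ := ∑' n : ℕ, (n : ℝ) * r ^ n with hS
  have hS0 : 0 ≤ S := tsum_nonneg (fun n => by (clear * -; positivity))
  have hSle : ∀ s : Finset ℕ, ∑ n ∈ s, (n : ℝ) * r ^ n ≤ S := fun s =>
    hsum.sum_le_tsum s (fun n _ => by (clear * -; positivity))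
  -- the series of `log p / p ^ 2`
  have hsumT : Summable (fun n : ℕ => 1 / (n : ℝ) ^ (3 / 2 : ℝ)) :=
    Real.summable_one_div_nat_rpow.mpr (by norm_num)
  set T : ℝ := ∑' n : ℕ, 1 / (n : ℝ) ^ (3 / 2 : ℝ) with hT
  have hT0 : 0 ≤ T := tsum_nonneg (fun n => by (clear * -; positivity))
  have hTle : ∀ s : Finset ℕ, ∑ n ∈ s, 1 / (n : ℝ) ^ (3 / 2 : ℝ) ≤ T := fun s =>
    hsumT.sum_le_tsum s (fun n _ => by (clear * -; positivity))
  have hlog2 : 0 < Real.log 2 := Real.log_pos (by (clear * -; norm_num))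
  have hlog4 : 0 < Real.log 4 := Real.log_pos (by norm_num)
  set D : ℝ := C1 * (2 * E) ^ 2 with hD
  have hD0 : 0 ≤ D := by (clear * - hC hE; positivity)
  refine ⟨C1 * (2 * Real.log 4) + D * Real.log 4 + 1, by (clear * - hC hE; positivity), ?_⟩
  intro K p0 hK
  set W : ℝ := ∑ p ∈ range (p0 + 1), K * S * Real.log p with hW
  have hW0 : 0 ≤ W := Finset.sum_nonneg (fun p _ => mul_nonneg (by (clear * - hK; positivity)) (Real.log_natCast_nonneg _))
  refine ⟨W + D * Real.log 4 + 4 * K * S * (2 * T), by (clear * - hK hC hE; positivity), ?_⟩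
  intro kap hkK hkC hkC2 Q Y hQ I hI
  have hlogQ : 0 ≤ Real.log (Q : ℝ) := Real.log_natCast_nonneg _
  -- small primes
  have hsmall : ∀ p : ℕ, p.Prime → ∀ s : Finset ℕ, (∀ j ∈ s, 1 ≤ j) →
      ∑ j ∈ s, kap p j * (j * Real.log p) ≤ K * S * Real.log p := by
    intro p hp s hs
    have hpR : (0 : ℝ) < p := by exact_mod_cast hp.pos
    have hp2 : (2 : ℝ) ≤ p := by exact_mod_cast hp.two_le
    have hlp : 0 ≤ Real.log (p : ℝ) := Real.log_natCast_nonneg _
    have hterm : ∀ j ∈ s, kap p j * (j * Real.log p) ≤ K * Real.log p * ((j : ℝ) * r ^ j) := by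
      intro j hj
      have h1 : kap p j ≤ K * (p : ℝ) ^ (-(j : ℝ) / E) := hkK p j hp (hs j hj)
      have h2 : (p : ℝ) ^ (-(j : ℝ) / E) ≤ r ^ j := by
        have h4 : (p : ℝ) ^ (-(j : ℝ) / E) ≤ 2 ^ (-(j : ℝ) / E) := by
          apply Real.rpow_le_rpow_of_nonpos (by norm_num) hp2
          apply div_nonpos_of_nonpos_of_nonneg _ hER.le
          have : (0 : ℝ) ≤ j := by (clear * -; positivity)
          linarith only []
        have h5 : (2 : ℝ) ^ (-(j : ℝ) / E) = r ^ j := by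
          rw [hr, ← Real.rpow_natCast, ← Real.rpow_mul (by norm_num)]
          congr 1
          ring
        rw [h5] at h4
        exact h4
      have h3 : kap p j ≤ K * r ^ j := h1.trans (mul_le_mul_of_nonneg_left h2 hK)
      calc kap p j * (j * Real.log p) ≤ K * r ^ j * (j * Real.log p) :=
            mul_le_mul_of_nonneg_right h3 (by (clear * -; positivity))
        _ = _ := by ring
    refine (Finset.sum_le_sum hterm).trans ?_
    rw [← Finset.mul_sum]
    calc K * Real.log p * ∑ j ∈ s, (j : ℝ) * r ^ j ≤ K * Real.log p * S :=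
          mul_le_mul_of_nonneg_left (hSle s) (by (clear * - hK; positivity))
      _ = _ := by ring
  -- large primes, exponents at least two
  have hlarge : ∀ p : ℕ, p.Prime → p0 < p → ∀ s : Finset ℕ, (∀ j ∈ s, 2 ≤ j) →
      ∑ j ∈ s, kap p j * (j * Real.log p)
        ≤ D * (Real.log p / p) + 4 * K * S * (Real.log p / (p : ℝ) ^ 2) := by
    intro p hp hpp s hs
    have hpR : (0 : ℝ) < p := by exact_mod_cast hp.pos
    have hp2 : (2 : ℝ) ≤ p := by exact_mod_cast hp.two_le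
    have hlp : 0 ≤ Real.log (p : ℝ) := Real.log_natCast_nonneg _
    have hterm : ∀ j ∈ s, kap p j * (j * Real.log p) ≤
        (if j ≤ 2 * E then C1 * (2 * E) * (Real.log p / p) else 0)
          + 4 * K * (Real.log p / (p : ℝ) ^ 2) * ((j : ℝ) * r ^ j) := by
      intro j hj
      have hj2 := hs j hj
      have hj0 : (0 : ℝ) ≤ j := by (clear * - hj2; positivity)
      by_cases hjE : j ≤ 2 * E
      · rw [if_pos hjE]
        have h1 : kap p j ≤ C1 / p := hkC2 p j hp hpp hj2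
        have hjE' : (j : ℝ) ≤ 2 * E := by exact_mod_cast hjE
        have h2 : kap p j * (j * Real.log p) ≤ C1 / p * (2 * E * Real.log p) := by
          calc kap p j * (j * Real.log p) ≤ C1 / p * (j * Real.log p) :=
                mul_le_mul_of_nonneg_right h1 (by (clear * - hj2; positivity))
            _ ≤ C1 / p * (2 * E * Real.log p) :=
                mul_le_mul_of_nonneg_left (mul_le_mul_of_nonneg_right hjE' hlp) (by (clear * - hC hpR; positivity))
        have h3 : 0 ≤ 4 * K * (Real.log p / (p : ℝ) ^ 2) * ((j : ℝ) * r ^ j) := by (clear * - hK hpR hj2; positivity)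
        calc _ ≤ _ := h2
          _ = C1 * (2 * E) * (Real.log p / p) := by ring
          _ ≤ _ := by linarith only [h3]
      · rw [if_neg hjE, zero_add]
        have hjE' : 2 * (E : ℝ) ≤ j := by exact_mod_cast (not_le.mp hjE).le
        have h1 : kap p j ≤ K * (p : ℝ) ^ (-(j : ℝ) / E) := hkK p j hp (by omega)
        have h2 : (p : ℝ) ^ (-(j : ℝ) / E) ≤ 4 / (p : ℝ) ^ 2 * r ^ j := by
          have h3 : -(j : ℝ) / E = -2 + -((j : ℝ) - 2 * E) / E := by
            field_simp; ring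
          have h3' : (p : ℝ) ^ (-2 : ℝ) = ((p : ℝ) ^ 2)⁻¹ := by
            rw [Real.rpow_neg hpR.le]
            norm_cast
          rw [h3, Real.rpow_add hpR, h3']
          have h4 : (p : ℝ) ^ (-((j : ℝ) - 2 * E) / E) ≤ 2 ^ (-((j : ℝ) - 2 * E) / E) := by
            apply Real.rpow_le_rpow_of_nonpos (by norm_num) hp2
            apply div_nonpos_of_nonpos_of_nonneg _ hER.le
            linarith only [hjE']
          have h5 : (2 : ℝ) ^ (-((j : ℝ) - 2 * E) / E) = 4 * r ^ j := by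
            rw [hr, ← Real.rpow_natCast, ← Real.rpow_mul (by norm_num)]
            have h4' : (4 : ℝ) = 2 ^ (2 : ℝ) := by norm_num
            rw [h4', ← Real.rpow_add (by norm_num)]
            congr 1
            field_simp
            ring
          rw [h5] at h4
          calc ((p : ℝ) ^ 2)⁻¹ * (p : ℝ) ^ (-((j : ℝ) - 2 * E) / E) ≤ ((p : ℝ) ^ 2)⁻¹ * (4 * r ^ j) :=
                mul_le_mul_of_nonneg_left h4 (by (clear * - hpR; positivity))
            _ = 4 / (p : ℝ) ^ 2 * r ^ j := by ring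
        calc kap p j * (j * Real.log p) ≤ (K * (4 / (p : ℝ) ^ 2 * r ^ j)) * (j * Real.log p) := by
              apply mul_le_mul_of_nonneg_right _ (by (clear * - hj2; positivity))
              exact h1.trans (mul_le_mul_of_nonneg_left h2 hK)
          _ = _ := by ring
    refine (Finset.sum_le_sum hterm).trans ?_
    rw [Finset.sum_add_distrib, ← Finset.mul_sum]
    have h6 : ∑ j ∈ s, (if j ≤ 2 * E then C1 * (2 * E) * (Real.log p / p) else (0 : ℝ))
        ≤ (2 * E) * (C1 * (2 * E) * (Real.log p / p)) := by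
      rw [← Finset.sum_filter, Finset.sum_const, nsmul_eq_mul]
      apply mul_le_mul_of_nonneg_right _ (by (clear * - hC hE hpR; positivity))
      have : (s.filter (fun j => j ≤ 2 * E)).card ≤ (Finset.Icc 1 (2 * E)).card := by
        apply Finset.card_le_card
        intro j hj
        rw [Finset.mem_filter] at hj
        have := hs j hj.1
        rw [Finset.mem_Icc]
        exact ⟨by omega, hj.2⟩
      rw [Nat.card_Icc, Nat.add_sub_cancel] at this
      exact_mod_cast this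
    have h7 : 4 * K * (Real.log p / (p : ℝ) ^ 2) * ∑ j ∈ s, (j : ℝ) * r ^ j
        ≤ 4 * K * (Real.log p / (p : ℝ) ^ 2) * S :=
      mul_le_mul_of_nonneg_left (hSle s) (by (clear * - hK hpR; positivity))
    calc _ ≤ (2 * E) * (C1 * (2 * E) * (Real.log p / p)) + 4 * K * (Real.log p / (p : ℝ) ^ 2) * S :=
          add_le_add h6 h7
      _ = _ := by rw [hD]; ring
  -- split I into three parts
  rw [← Finset.sum_filter_add_sum_filter_not I (fun i => i.1 ≤ p0)]
  rw [← Finset.sum_filter_add_sum_filter_not (I.filter (fun i => ¬ i.1 ≤ p0)) (fun i => i.2 = 1)]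
  -- part 1
  have hP1 : ∑ i ∈ I.filter (fun i => i.1 ≤ p0), kap i.1 i.2 * (i.2 * Real.log i.1) ≤ W := by
    have h1 := cost_fib (I.filter (fun i => i.1 ≤ p0)) ((range (p0 + 1)).filter Nat.Prime) (by
      intro i hi
      rw [Finset.mem_filter] at hi
      rw [Finset.mem_filter, Finset.mem_range]
      exact ⟨by omega, (hI i hi.1).1⟩) (fun p j => kap p j * (j * Real.log p))
      (fun p => K * S * Real.log p) (by
      intro p hp s hs
      rw [Finset.mem_filter] at hp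
      apply hsmall p hp.2
      intro j hj
      have := hs j hj
      rw [Finset.mem_filter] at this
      exact (hI _ this.1).2.1)
    refine h1.trans ?_
    apply Finset.sum_le_sum_of_subset_of_nonneg (Finset.filter_subset _ _)
    intro p _ _
    exact mul_nonneg (by (clear * - hK; positivity)) (Real.log_natCast_nonneg _)
  -- part 2
  have hP2 : ∑ i ∈ (I.filter (fun i => ¬ i.1 ≤ p0)).filter (fun i => i.2 = 1),
      kap i.1 i.2 * (i.2 * Real.log i.1) ≤ C1 * (2 * Real.log 4) * Real.sqrt Y := by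
    have h1 := cost_fib ((I.filter (fun i => ¬ i.1 ≤ p0)).filter (fun i => i.2 = 1))
      ((range (Y + 1)).filter Nat.Prime) (by
      intro i hi
      rw [Finset.mem_filter, Finset.mem_filter] at hi
      obtain ⟨hp, _, _, h4⟩ := hI i hi.1.1
      rw [Finset.mem_filter, Finset.mem_range]
      refine ⟨?_, hp⟩
      rcases h4 with h4 | h4
      · omega
      · omega) (fun p j => kap p j * (j * Real.log p))
      (fun p => C1 * (Real.log p / Real.sqrt p)) (by
      intro p hp s hs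
      rw [Finset.mem_filter] at hp
      have hlp : 0 ≤ Real.log (p : ℝ) := Real.log_natCast_nonneg _
      rcases Finset.eq_empty_or_nonempty s with rfl | ⟨j0, hj0⟩
      · rw [Finset.sum_empty]; (clear * - hC; positivity)
      · have h2 : s = {1} := by
          ext j
          rw [Finset.mem_singleton]
          constructor
          · intro hj
            have := hs j hj
            rw [Finset.mem_filter] at this
            exact this.2
          · intro hj
            have := hs j0 hj0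
            rw [Finset.mem_filter] at this
            rw [hj, ← this.2]
            exact hj0
        have h3 := hs j0 hj0
        rw [Finset.mem_filter, Finset.mem_filter] at h3
        have h4 := hkC p hp.2 (not_le.mp h3.1.2)
        rw [h2, Finset.sum_singleton]
        calc kap p 1 * (((1 : ℕ) : ℝ) * Real.log p) = kap p 1 * Real.log p := by push_cast; ring
          _ ≤ C1 / Real.sqrt p * Real.log p := mul_le_mul_of_nonneg_right h4 hlp
          _ = C1 * (Real.log p / Real.sqrt p) := by ring)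
    refine h1.trans ?_
    rw [← Finset.mul_sum]
    have h3 := mul_le_mul_of_nonneg_left (sum_log_div_sqrt Y) hC
    calc _ ≤ _ := h3
      _ = _ := by ring
  -- part 3
  have hP3 : ∑ i ∈ (I.filter (fun i => ¬ i.1 ≤ p0)).filter (fun i => ¬ i.2 = 1),
      kap i.1 i.2 * (i.2 * Real.log i.1)
        ≤ D * Real.log 4 * Real.log Q + D * Real.log 4 + 4 * K * S * (2 * T) := by
    have h1 := cost_fib ((I.filter (fun i => ¬ i.1 ≤ p0)).filter (fun i => ¬ i.2 = 1))
      ((range (Q + 1)).filter Nat.Prime) (by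
      intro i hi
      rw [Finset.mem_filter, Finset.mem_filter] at hi
      obtain ⟨hp, h2, h3, _⟩ := hI i hi.1.1
      rw [Finset.mem_filter, Finset.mem_range]
      refine ⟨?_, hp⟩
      have : i.1 ^ 1 ≤ i.1 ^ i.2 := Nat.pow_le_pow_right hp.pos h2
      rw [pow_one] at this
      omega) (fun p j => kap p j * (j * Real.log p))
      (fun p => D * (Real.log p / p) + 4 * K * S * (Real.log p / (p : ℝ) ^ 2)) (by
      intro p hp s hs
      rw [Finset.mem_filter] at hp
      have hlp : 0 ≤ Real.log (p : ℝ) := Real.log_natCast_nonneg _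
      rcases Finset.eq_empty_or_nonempty s with rfl | ⟨j0, hj0⟩
      · rw [Finset.sum_empty]; (clear * - hC hE hK; positivity)
      · have h3 := hs j0 hj0
        rw [Finset.mem_filter, Finset.mem_filter] at h3
        apply hlarge p hp.2 (not_le.mp h3.1.2)
        intro j hj
        have h4 := hs j hj
        rw [Finset.mem_filter, Finset.mem_filter] at h4
        have := (hI _ h4.1.1).2.1
        have := h4.2
        simp only at *
        omega)
    refine h1.trans ?_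
    rw [Finset.sum_add_distrib, ← Finset.mul_sum, ← Finset.mul_sum]
    have h2 := mul_le_mul_of_nonneg_left (sum_log_div Q) hD0
    have h3 : ∑ p ∈ (range (Q + 1)).filter Nat.Prime, Real.log (p : ℝ) / (p : ℝ) ^ 2 ≤ 2 * T := by
      have h4 : ∀ p ∈ (range (Q + 1)).filter Nat.Prime,
          Real.log (p : ℝ) / (p : ℝ) ^ 2 ≤ 2 * (1 / (p : ℝ) ^ (3 / 2 : ℝ)) := by
        intro p hp
        rw [Finset.mem_filter] at hp
        have hpR : (0 : ℝ) < p := by exact_mod_cast hp.2.pos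
        have h5 : Real.log (p : ℝ) ≤ 2 * (p : ℝ) ^ (1 / 2 : ℝ) := by
          have := Real.log_le_rpow_div hpR.le (ε := 1 / 2) (by norm_num)
          linarith only [this]
        have h6 : (p : ℝ) ^ 2 = (p : ℝ) ^ (1 / 2 : ℝ) * (p : ℝ) ^ (3 / 2 : ℝ) := by
          rw [← Real.rpow_add hpR]
          norm_num
        rw [h6]
        have h7 : 0 < (p : ℝ) ^ (1 / 2 : ℝ) := Real.rpow_pos_of_pos hpR _
        have h8 : 0 < (p : ℝ) ^ (3 / 2 : ℝ) := Real.rpow_pos_of_pos hpR _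
        rw [div_le_iff₀ (by (clear * - hpR; positivity))]
        calc Real.log (p : ℝ) ≤ 2 * (p : ℝ) ^ (1 / 2 : ℝ) := h5
          _ = _ := by (clear * - hpR; field_simp)
      refine (Finset.sum_le_sum h4).trans ?_
      rw [← Finset.mul_sum]
      exact mul_le_mul_of_nonneg_left (hTle _) (by norm_num)
    have h5 := mul_le_mul_of_nonneg_left h3 (by (clear * - hK; positivity) : 0 ≤ 4 * K * S)
    calc _ ≤ D * (Real.log 4 * (1 + Real.log Q)) + 4 * K * S * (2 * T) := add_le_add h2 h5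
      _ = _ := by ring
  have hsY : 0 ≤ Real.sqrt (Y : ℝ) := Real.sqrt_nonneg _
  have hc1 : 0 ≤ C1 * (2 * Real.log 4) := by (clear * - hC; positivity)
  have hc2 : 0 ≤ D * Real.log 4 := by (clear * - hC hE; positivity)
  nlinarith only [hlogQ, hP1, hP2, hP3, hsY, hc1, hc2]

end Vale.Agent.P042
end
end
end

section

section

section

set_option autoImplicit false

namespace Vale.Agent.P042

open Polynomial

/-- Integral Bezout identity. -/
lemma aux_bezout (f g : ℤ[X]) (hf : f.natDegree ≠ 0)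
    (hc : IsCoprime (f.map (Int.castRingHom ℚ)) (g.map (Int.castRingHom ℚ))) :
    ∃ U V : ℤ[X], ∃ c : ℤ, c ≠ 0 ∧ f * U + g * V = C c := by
  obtain ⟨U, V, -, -, h⟩ := exists_mul_add_mul_eq_C_resultant f g le_rfl le_rfl (Or.inl hf)
  refine ⟨U, V, resultant f g, ?_, h⟩
  intro h0
  have h1 := resultant_map_map f g f.natDegree g.natDegree (Int.castRingHom ℚ)
  rw [h0, map_zero] at h1
  have h2 : resultant (f.map (Int.castRingHom ℚ)) (g.map (Int.castRingHom ℚ)) = 0 := by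
    rw [← h1]
    congr 1
    · exact natDegree_map_eq_of_injective (RingHom.injective_int _) f
    · exact natDegree_map_eq_of_injective (RingHom.injective_int _) g
  exact (resultant_eq_zero_iff.1 h2).2 hc

/-- Uniform control of the leading Taylor coefficient at `p`-adic roots, one factor. -/
lemma aux_factor (h : ℤ[X]) (hh : h ≠ 0) (f : ℤ[X]) (hf : Irreducible f)
    (hfd : f.natDegree ≠ 0) (hfh : f ∣ h) :
    ∃ R : ℤ, R ≠ 0 ∧ ∀ (p : ℕ) [Fact p.Prime] (z : ℤ_[p]),
      (f.map (Int.castRingHom ℤ_[p])).eval z = 0 →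
      ∃ m : ℕ, 1 ≤ m ∧ m ≤ h.natDegree ∧ ∃ G : ℤ_[p][X],
        taylor z (h.map (Int.castRingHom ℤ_[p])) = X ^ m * G ∧ G.coeff 0 ∣ (R : ℤ_[p]) := by
  obtain ⟨e, g, hg, hfg⟩ : ∃ (e : ℕ) (g : ℤ[X]), h = f ^ e * g ∧ ¬ f ∣ g :=
    ⟨_, (FiniteMultiplicity.of_not_isUnit hf.not_isUnit hh).exists_eq_pow_mul_and_not_dvd⟩
  have he : 1 ≤ e := by
    rcases Nat.eq_zero_or_pos e with h0 | h0
    · subst h0
      rw [pow_zero, one_mul] at hg
      exact absurd (hg ▸ hfh) hfg
    · exact h0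
  have hprim : f.IsPrimitive := hf.isPrimitive hfd
  have hfQ : Irreducible (f.map (Int.castRingHom ℚ)) :=
    (IsPrimitive.Int.irreducible_iff_irreducible_map_cast hprim).1 hf
  have hcop1 : IsCoprime (f.map (Int.castRingHom ℚ)) (g.map (Int.castRingHom ℚ)) := by
    rw [hfQ.coprime_iff_not_dvd]
    intro hd
    exact hfg ((IsPrimitive.Int.dvd_iff_map_cast_dvd_map_cast f g hprim).2 hd)
  have hcop2 : IsCoprime (f.map (Int.castRingHom ℚ))
      ((derivative f).map (Int.castRingHom ℚ)) := by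
    have := hfQ.separable
    rwa [Polynomial.Separable, derivative_map] at this
  obtain ⟨U1, V1, c1, hc1, h1⟩ := aux_bezout f g hfd hcop1
  obtain ⟨U2, V2, c2, hc2, h2⟩ := aux_bezout f _ hfd hcop2
  refine ⟨c2 ^ e * c1, mul_ne_zero (pow_ne_zero _ hc2) hc1, ?_⟩
  intro p _ z hz
  have hdeg : e ≤ h.natDegree := by
    have hg0 : g ≠ 0 := by
      rintro rfl
      exact hh (by rw [hg, mul_zero])
    have hf0 : f ≠ 0 := hf.ne_zero
    rw [hg, natDegree_mul (pow_ne_zero _ hf0) hg0, natDegree_pow]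
    have : 1 ≤ f.natDegree := Nat.one_le_iff_ne_zero.2 hfd
    nlinarith only [this]
  have hX : X ∣ taylor z (f.map (Int.castRingHom ℤ_[p])) := by
    rw [X_dvd_iff, taylor_coeff_zero, hz]
  obtain ⟨F1, hF1⟩ := hX
  have hF10 : F1.coeff 0 = ((derivative f).map (Int.castRingHom ℤ_[p])).eval z := by
    have := taylor_coeff_one z (f.map (Int.castRingHom ℤ_[p]))
    rw [hF1, mul_comm, coeff_mul_X] at this
    rw [this, derivative_map]
  refine ⟨e, he, hdeg, F1 ^ e * taylor z (g.map (Int.castRingHom ℤ_[p])), ?_, ?_⟩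
  · rw [hg, Polynomial.map_mul, Polynomial.map_pow, taylor_mul, taylor_pow, hF1, mul_pow,
      mul_assoc]
  · have hd2 : ((derivative f).map (Int.castRingHom ℤ_[p])).eval z ∣ (c2 : ℤ_[p]) := by
      have h3 := congrArg (fun q : ℤ[X] => (q.map (Int.castRingHom ℤ_[p])).eval z) h2
      simp only [Polynomial.map_add, Polynomial.map_mul, eval_add, eval_mul, map_C, eval_C,
        hz, zero_mul, zero_add] at h3
      exact ⟨_, by simpa only [eq_intCast] using h3.symm⟩
    have hd1 : (g.map (Int.castRingHom ℤ_[p])).eval z ∣ (c1 : ℤ_[p]) := by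
      have h3 := congrArg (fun q : ℤ[X] => (q.map (Int.castRingHom ℤ_[p])).eval z) h1
      simp only [Polynomial.map_add, Polynomial.map_mul, eval_add, eval_mul, map_C, eval_C,
        hz, zero_mul, zero_add] at h3
      exact ⟨_, by simpa only [eq_intCast] using h3.symm⟩
    have hc : (F1 ^ e * taylor z (g.map (Int.castRingHom ℤ_[p]))).coeff 0 =
        (((derivative f).map (Int.castRingHom ℤ_[p])).eval z) ^ e *
          (g.map (Int.castRingHom ℤ_[p])).eval z := by
      rw [mul_coeff_zero, taylor_coeff_zero, ← hF10]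
      congr 1
      simp [coeff_zero_eq_eval_zero]
    rw [hc]
    push_cast
    exact mul_dvd_mul (pow_dvd_pow_of_dvd hd2 e) hd1

/-- Uniform control of the leading Taylor coefficient at `p`-adic roots. -/
lemma aux_root (h : ℤ[X]) (hh : h ≠ 0) :
    ∃ R : ℤ, R ≠ 0 ∧ ∀ (p : ℕ) [Fact p.Prime] (z : ℤ_[p]),
      (h.map (Int.castRingHom ℤ_[p])).eval z = 0 →
      ∃ m : ℕ, 1 ≤ m ∧ m ≤ h.natDegree ∧ ∃ G : ℤ_[p][X],
        taylor z (h.map (Int.castRingHom ℤ_[p])) = X ^ m * G ∧ G.coeff 0 ∣ (R : ℤ_[p]) := by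
  classical
  have H : ∀ f : ℤ[X], ∃ R : ℤ, R ≠ 0 ∧ (Irreducible f → f.natDegree ≠ 0 → f ∣ h →
      ∀ (p : ℕ) [Fact p.Prime] (z : ℤ_[p]),
      (f.map (Int.castRingHom ℤ_[p])).eval z = 0 →
      ∃ m : ℕ, 1 ≤ m ∧ m ≤ h.natDegree ∧ ∃ G : ℤ_[p][X],
        taylor z (h.map (Int.castRingHom ℤ_[p])) = X ^ m * G ∧ G.coeff 0 ∣ (R : ℤ_[p])) := by
    intro f
    by_cases hf : Irreducible f ∧ f.natDegree ≠ 0 ∧ f ∣ h
    · obtain ⟨R, hR, hR'⟩ := aux_factor h hh f hf.1 hf.2.1 hf.2.2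
      exact ⟨R, hR, fun _ _ _ => hR'⟩
    · exact ⟨1, one_ne_zero, fun h1 h2 h3 => absurd ⟨h1, h2, h3⟩ hf⟩
  choose Rf hR0 hR using H
  refine ⟨∏ f ∈ (UniqueFactorizationMonoid.factors h).toFinset, Rf f,
    Finset.prod_ne_zero_iff.2 fun f _ => hR0 f, ?_⟩
  intro p _ z hz
  have hassoc := UniqueFactorizationMonoid.factors_prod hh
  have hz' : ((UniqueFactorizationMonoid.factors h).prod.map (Int.castRingHom ℤ_[p])).eval z
      = 0 := by
    obtain ⟨q, hq⟩ := hassoc.symm.dvd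
    rw [hq, Polynomial.map_mul, eval_mul, hz, zero_mul]
  have hz2 : ((UniqueFactorizationMonoid.factors h).map
      (fun f : ℤ[X] => (f.map (Int.castRingHom ℤ_[p])).eval z)).prod = 0 := by
    rw [← hz']
    have := Multiset.prod_hom (UniqueFactorizationMonoid.factors h)
      ((evalRingHom z).comp (mapRingHom (Int.castRingHom ℤ_[p])))
    simpa only [RingHom.coe_comp, coe_evalRingHom, coe_mapRingHom, Function.comp_apply] using this
  rw [Multiset.prod_eq_zero_iff, Multiset.mem_map] at hz2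
  obtain ⟨f, hf, hfz⟩ := hz2
  have hirr := UniqueFactorizationMonoid.irreducible_of_factor f hf
  have hdvd := UniqueFactorizationMonoid.dvd_of_mem_factors hf
  have hdeg : f.natDegree ≠ 0 := by
    intro h0
    obtain ⟨c, hc⟩ := natDegree_eq_zero.1 h0
    have hc0 : c ≠ 0 := by
      rintro rfl
      exact hirr.ne_zero (by rw [← hc, C_0])
    rw [← hc, map_C, eval_C] at hfz
    exact hc0 (by simpa only [eq_intCast, Int.cast_eq_zero] using hfz)
  obtain ⟨m, hm1, hm2, G, hG, hGR⟩ := hR f hirr hdeg hdvd p z hfz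
  refine ⟨m, hm1, hm2, G, hG, hGR.trans ?_⟩
  have : Rf f ∣ ∏ f ∈ (UniqueFactorizationMonoid.factors h).toFinset, Rf f :=
    Finset.dvd_prod_of_mem _ (Multiset.mem_toFinset.2 hf)
  exact Int.cast_dvd_cast _ _ this

/-- An intersective polynomial has a root in every `ℤ_[p]`. -/
lemma aux_padic_root (h : ℤ[X]) (hint : Intersective h) (p : ℕ) [hp : Fact p.Prime] :
    ∃ z : ℤ_[p], (h.map (Int.castRingHom ℤ_[p])).eval z = 0 := by
  have H : ∀ k : ℕ, ∃ t : ℤ, ((p : ℤ) ^ k) ∣ h.eval t := by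
    intro k
    obtain ⟨t, ht⟩ := hint (p ^ k) (Nat.one_le_pow _ _ hp.out.pos)
    exact ⟨t, by exact_mod_cast ht⟩
  choose t ht using H
  obtain ⟨z, φ, hφ, hlim⟩ := CompactSpace.tendsto_subseq (fun k => (t k : ℤ_[p]))
  refine ⟨z, ?_⟩
  have hcont : Filter.Tendsto (fun n => (h.map (Int.castRingHom ℤ_[p])).eval
      ((fun k => (t k : ℤ_[p])) (φ n))) Filter.atTop
      (nhds ((h.map (Int.castRingHom ℤ_[p])).eval z)) :=
    ((h.map (Int.castRingHom ℤ_[p])).continuous.tendsto z).comp hlim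
  have hzero : Filter.Tendsto (fun n => (h.map (Int.castRingHom ℤ_[p])).eval
      ((fun k => (t k : ℤ_[p])) (φ n))) Filter.atTop (nhds 0) := by
    rw [tendsto_zero_iff_norm_tendsto_zero]
    have hp1 : (1 : ℝ) < p := by exact_mod_cast hp.out.one_lt
    have hgeo : Filter.Tendsto (fun n : ℕ => ((p : ℝ)⁻¹) ^ (φ n)) Filter.atTop (nhds 0) :=
      (tendsto_pow_atTop_nhds_zero_of_lt_one (by (clear * - hp1; positivity))
        (inv_lt_one_of_one_lt₀ hp1)).comp hφ.tendsto_atTop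
    refine squeeze_zero (fun _ => norm_nonneg _) (fun n => ?_) hgeo
    have h1 : (h.map (Int.castRingHom ℤ_[p])).eval ((t (φ n) : ℤ) : ℤ_[p])
        = ((h.eval (t (φ n)) : ℤ) : ℤ_[p]) := by
      simp only [eval_intCast_map, Int.cast_eq, eq_intCast]
    have h2 := (PadicInt.norm_int_le_pow_iff_dvd (p := p) (k := h.eval (t (φ n)))
      (n := φ n)).2 (by exact_mod_cast ht (φ n))
    simp only
    rw [h1]
    refine h2.trans (le_of_eq ?_)
    rw [zpow_neg, zpow_natCast, inv_pow]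
  exact tendsto_nhds_unique hcont hzero

/-- The local statement at one prime, in terms of integers only. -/
lemma aux_local (h : ℤ[X]) (hh : h ≠ 0) (hint : Intersective h) :
    ∃ R : ℤ, R ≠ 0 ∧ ∀ p : ℕ, p.Prime → ∃ (m : ℕ) (a : ℕ → ℤ), 1 ≤ m ∧ m ≤ h.natDegree ∧
      (∀ v w : ℕ, v ≤ w → (p : ℤ) ^ v ∣ a w - a v) ∧
      (∀ (v : ℕ) (r d : ℤ), (p : ℤ) ^ v ∣ r - a v → ¬ (p : ℤ) ∣ d →
        (∀ j, (p : ℤ) ^ (v * m) ∣ (h.comp (C r + C ((p : ℤ) ^ v * d) * X)).coeff j) ∧
        (∀ (u : ℤ) (H : ℤ[X]), ¬ (p : ℤ) ∣ u →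
          C ((p : ℤ) ^ (v * m) * u) * H = h.comp (C r + C ((p : ℤ) ^ v * d) * X) →
          ∀ e : ℕ, (∀ j : ℕ, 1 ≤ j → (p : ℤ) ^ e ∣ H.coeff j) → (p : ℤ) ^ e ∣ R)) := by
  obtain ⟨R, hR0, hR⟩ := aux_root h hh
  refine ⟨R, hR0, fun p hp => ?_⟩
  have : Fact p.Prime := ⟨hp⟩
  obtain ⟨z, hz⟩ := aux_padic_root h hint p
  obtain ⟨m, hm1, hm2, G, hG, hGR⟩ := hR p z hz
  refine ⟨m, fun v => (z.appr v : ℤ), hm1, hm2, ?_, ?_⟩
  · intro v w hvw
    have h1 := PadicInt.dvd_appr_sub_appr z v w hvw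
    have h2 := PadicInt.appr_mono z hvw
    have h3 : (((p ^ v : ℕ)) : ℤ) ∣ ((z.appr w - z.appr v : ℕ) : ℤ) :=
      Int.natCast_dvd_natCast.2 h1
    rw [Nat.cast_sub h2] at h3
    simpa only [Nat.cast_pow] using h3
  · intro v r d hr hd
    have hz1 : (p : ℤ_[p]) ^ v ∣ z - (z.appr v : ℤ_[p]) :=
      Ideal.mem_span_singleton.1 (PadicInt.appr_spec v z)
    have hr1 : (p : ℤ_[p]) ^ v ∣ ((r - (z.appr v : ℤ) : ℤ) : ℤ_[p]) :=
      (PadicInt.pow_p_dvd_int_iff v _).2 hr
    obtain ⟨w, hw⟩ : (p : ℤ_[p]) ^ v ∣ (r : ℤ_[p]) - z := by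
      have := dvd_sub hr1 hz1
      convert this using 1
      push_cast
      ring
    have hrw : (r : ℤ_[p]) = z + (p : ℤ_[p]) ^ v * w := by rw [← hw]; ring
    obtain ⟨φ, hφ⟩ : ∃ φ : ℤ →+* ℤ_[p], φ = Int.castRingHom ℤ_[p] := ⟨_, rfl⟩
    have hφi : ∀ x : ℤ, φ x = (x : ℤ_[p]) := fun x => by rw [hφ]; rfl
    rw [← hφ] at hz hG
    have hkey : (h.comp (C r + C ((p : ℤ) ^ v * d) * X)).map φ =
        C ((p : ℤ_[p]) ^ (v * m)) * ((C w + C (d : ℤ_[p]) * X) ^ m *
          G.comp (C ((p : ℤ_[p]) ^ v) * (C w + C (d : ℤ_[p]) * X))) := by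
      have h1 : (h.comp (C r + C ((p : ℤ) ^ v * d) * X)).map φ =
          (taylor z (h.map φ)).comp (C ((p : ℤ_[p]) ^ v) * (C w + C (d : ℤ_[p]) * X)) := by
        rw [taylor_apply, comp_assoc, Polynomial.map_comp]
        congr 1
        simp only [Polynomial.map_add, Polynomial.map_mul, map_C, map_X, add_comp, X_comp, C_comp,
          hφi, Int.cast_pow, Int.cast_natCast, hrw, C_add, C_mul]
        ring
      rw [h1, hG, mul_comp, pow_comp, X_comp, mul_pow, ← C_pow, ← pow_mul]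
      ring
    refine ⟨fun j => ?_, ?_⟩
    · have h2 : (((h.comp (C r + C ((p : ℤ) ^ v * d) * X)).coeff j : ℤ) : ℤ_[p]) =
          ((h.comp (C r + C ((p : ℤ) ^ v * d) * X)).map φ).coeff j := by
        rw [coeff_map, hφi]
      rw [← PadicInt.pow_p_dvd_int_iff, h2, hkey, coeff_C_mul]
      exact dvd_mul_right _ _
    · intro u H hu hH e he
      have hp0 : (C ((p : ℤ_[p]) ^ (v * m)) : ℤ_[p][X]) ≠ 0 := by
        rw [Ne, C_eq_zero]
        exact pow_ne_zero _ (by exact_mod_cast hp.ne_zero)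
      have h3 : C (u : ℤ_[p]) * H.map φ = (C w + C (d : ℤ_[p]) * X) ^ m *
          G.comp (C ((p : ℤ_[p]) ^ v) * (C w + C (d : ℤ_[p]) * X)) := by
        apply mul_left_cancel₀ hp0
        rw [← hkey, ← hH, ← mul_assoc, ← C_mul, Polynomial.map_mul, map_C, hφi]
        simp only [Int.cast_mul, Int.cast_pow, Int.cast_natCast]
      have hunit : ∀ x : ℤ, ¬ (p : ℤ) ∣ x → IsUnit (x : ℤ_[p]) := by
        intro x hx
        rw [PadicInt.isUnit_iff, PadicInt.norm_intCast_eq_one_iff, isCoprime_comm]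
        exact (Nat.prime_iff_prime_int.1 hp).coprime_iff_not_dvd.2 hx
      obtain ⟨di, hdi⟩ := (hunit d hd).exists_right_inv
      obtain ⟨ui, hui⟩ := (hunit u hu).exists_left_inv
      have h4 := congrArg (fun q : ℤ_[p][X] => (q.comp (C di * (X - C w))).coeff m) h3
      have h5 : (C w + C (d : ℤ_[p]) * X).comp (C di * (X - C w)) = X := by
        simp only [add_comp, mul_comp, C_comp, X_comp]
        rw [← mul_assoc, ← C_mul, hdi, C_1]
        ring
      obtain ⟨K, hK⟩ : C ((p : ℤ_[p]) ^ e) ∣ H.map φ - C ((H.map φ).coeff 0) := by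
        rw [C_dvd_iff_dvd_coeff]
        intro j
        rcases Nat.eq_zero_or_pos j with hj | hj
        · subst hj
          rw [coeff_sub, coeff_C_zero, sub_self]
          exact dvd_zero _
        · rw [coeff_sub, coeff_C_of_ne_zero hj.ne', sub_zero, coeff_map, hφi,
            PadicInt.pow_p_dvd_int_iff]
          exact he j hj
      have hK' : H.map φ = C ((H.map φ).coeff 0) + C ((p : ℤ_[p]) ^ e) * K := by
        rw [← hK]; ring
      have hm0 : m ≠ 0 := by omega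
      simp only [mul_comp, pow_comp, comp_assoc] at h4
      rw [h5] at h4
      rw [hK'] at h4
      simp only [C_comp, add_comp, mul_comp, coeff_C_mul, coeff_add, coeff_C_of_ne_zero hm0, zero_add] at h4
      rw [coeff_X_pow_mul', if_pos le_rfl, Nat.sub_self, coeff_zero_eq_eval_zero, eval_comp,
        eval_mul, eval_C, eval_X, mul_zero, ← coeff_zero_eq_eval_zero] at h4
      have h6 : (p : ℤ_[p]) ^ e ∣ G.coeff 0 := by
        rw [← h4]
        exact Dvd.dvd.mul_left (dvd_mul_right _ _) _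
      have h7 := h6.trans hGR
      rwa [PadicInt.pow_p_dvd_int_iff] at h7

/-- The exponent function of `lam`. -/
noncomputable def auxExp (m : ℕ → ℕ) (d : ℕ) : ℕ →₀ ℕ :=
  Finsupp.onFinset d.primeFactors (fun p => m p * d.factorization p) (by
    intro p hp
    rw [← Nat.support_factorization, Finsupp.mem_support_iff]
    exact right_ne_zero_of_mul hp)

/-- `lam d = ∏ p ^ (m p * v_p d)`. -/
noncomputable def auxLam (m : ℕ → ℕ) (d : ℕ) : ℕ := (auxExp m d).prod (· ^ ·)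

lemma auxLam_factorization (m : ℕ → ℕ) (d p : ℕ) :
    (auxLam m d).factorization p = m p * d.factorization p := by
  have h : (auxLam m d).factorization = auxExp m d := by
    apply Nat.prod_pow_factorization_eq_self
    intro q hq
    have := Finsupp.support_onFinset_subset hq
    exact Nat.prime_of_mem_primeFactors this
  rw [h]
  rfl

lemma auxLam_ne_zero (m : ℕ → ℕ) (d : ℕ) : auxLam m d ≠ 0 := by
  rw [auxLam, Finsupp.prod]
  apply Finset.prod_ne_zero_iff.2
  intro q hq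
  have := Finsupp.support_onFinset_subset hq
  exact pow_ne_zero _ (Nat.prime_of_mem_primeFactors this).ne_zero

/-- Chinese remainder theorem in the form needed. -/
lemma aux_crt (a : ℕ → ℕ → ℤ) (d : ℕ) (hd : 1 ≤ d) :
    ∃ r : ℤ, -(d : ℤ) < r ∧ r ≤ 0 ∧
      ∀ p : ℕ, p.Prime → (p : ℤ) ^ (d.factorization p) ∣ r - a p (d.factorization p) := by
  have hcop : Set.Pairwise (d.primeFactors : Set ℕ)
      (Function.onFun Nat.Coprime (fun p : ℕ => p ^ (d.factorization p))) := by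
    intro p hp q hq hpq
    exact Nat.coprime_pow_primes _ _ (Nat.prime_of_mem_primeFactors hp)
      (Nat.prime_of_mem_primeFactors hq) hpq
  obtain ⟨k, hk⟩ := Nat.chineseRemainderOfFinset
    (fun p => (a p (d.factorization p) % ((p ^ (d.factorization p) : ℕ) : ℤ)).toNat)
    (fun p : ℕ => p ^ (d.factorization p)) d.primeFactors
    (fun p hp => pow_ne_zero _ (Nat.prime_of_mem_primeFactors hp).ne_zero) hcop
  have hd0 : (0 : ℤ) < d := by exact_mod_cast hd
  refine ⟨-((-(k : ℤ)) % d), ?_, ?_, ?_⟩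
  · have := Int.emod_lt_of_pos (-(k : ℤ)) hd0
    omega
  · have := Int.emod_nonneg (-(k : ℤ)) hd0.ne'
    omega
  · intro p hp
    by_cases hpd : p ∣ d
    · have hmem : p ∈ d.primeFactors := Nat.mem_primeFactors.2 ⟨hp, hpd, by omega⟩
      have h1 := hk p hmem
      have hpos : (0 : ℤ) < ((p ^ (d.factorization p) : ℕ) : ℤ) := by
        exact_mod_cast pow_pos hp.pos _
      have h2 : ((p ^ (d.factorization p) : ℕ) : ℤ) ∣ (k : ℤ) - a p (d.factorization p) := by
        have h3 := (Nat.modEq_iff_dvd.1 h1.symm)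
        rw [Int.toNat_of_nonneg (Int.emod_nonneg _ hpos.ne')] at h3
        have h4 : ((p ^ (d.factorization p) : ℕ) : ℤ) ∣
            a p (d.factorization p) - a p (d.factorization p) %
              ((p ^ (d.factorization p) : ℕ) : ℤ) := Int.dvd_self_sub_emod
        have h5 := dvd_sub h3 h4
        rwa [sub_sub_sub_cancel_right] at h5
      have h6 : (d : ℤ) ∣ -((-(k : ℤ)) % d) - k := by
        have h7 : (d : ℤ) ∣ -(k : ℤ) - (-(k : ℤ)) % d := Int.dvd_self_sub_emod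
        have h7' : -((-(k : ℤ)) % d) - k = -(k : ℤ) - (-(k : ℤ)) % d := by abel
        rwa [h7']
      have h8 : ((p ^ (d.factorization p) : ℕ) : ℤ) ∣ (d : ℤ) :=
        Int.natCast_dvd_natCast.2 (Nat.ordProj_dvd d p)
      have h9 := dvd_add (h8.trans h6) h2
      rw [← Nat.cast_pow]
      rwa [sub_add_sub_cancel] at h9
    · rw [Nat.factorization_eq_zero_of_not_dvd hpd, pow_zero]
      exact one_dvd _

/-- MODULE A -/
theorem exists_aux (h : ℤ[X]) (hk : 1 ≤ h.natDegree) (hpos : 0 < h.leadingCoeff)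
    (hint : Intersective h) :
    ∃ (lam : ℕ → ℕ) (r : ℕ → ℤ) (H : ℕ → ℤ[X]) (R : ℕ), 1 ≤ R ∧
      (∀ d : ℕ, 1 ≤ d → C (lam d : ℤ) * H d = h.comp (C (r d) + C (d : ℤ) * X)) ∧
      (∀ d q : ℕ, 1 ≤ d → 1 ≤ q → lam (d * q) = lam d * lam q) ∧
      (∀ d : ℕ, 1 ≤ d → d ∣ lam d ∧ lam d ∣ d ^ h.natDegree) ∧
      (∀ d : ℕ, 1 ≤ d → -(d : ℤ) < r d ∧ r d ≤ 0) ∧
      (∀ d q : ℕ, 1 ≤ d → 1 ≤ q → (d : ℤ) ∣ r (d * q) - r d) ∧
      (∀ d : ℕ, 1 ≤ d → ∀ g : ℤ, (∀ j : ℕ, 1 ≤ j → g ∣ (H d).coeff j) → g ∣ (R : ℤ)) := by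
  have hh : h ≠ 0 := by
    rintro rfl
    simp only [natDegree_zero, nonpos_iff_eq_zero, one_ne_zero] at hk
  obtain ⟨R0, hR0, HL⟩ := aux_local h hh hint
  have HL' : ∀ p : ℕ, ∃ (m : ℕ) (a : ℕ → ℤ), p.Prime → (1 ≤ m ∧ m ≤ h.natDegree ∧
      (∀ v w : ℕ, v ≤ w → (p : ℤ) ^ v ∣ a w - a v) ∧
      (∀ (v : ℕ) (r d : ℤ), (p : ℤ) ^ v ∣ r - a v → ¬ (p : ℤ) ∣ d →
        (∀ j, (p : ℤ) ^ (v * m) ∣ (h.comp (C r + C ((p : ℤ) ^ v * d) * X)).coeff j) ∧
        (∀ (u : ℤ) (H : ℤ[X]), ¬ (p : ℤ) ∣ u →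
          C ((p : ℤ) ^ (v * m) * u) * H = h.comp (C r + C ((p : ℤ) ^ v * d) * X) →
          ∀ e : ℕ, (∀ j : ℕ, 1 ≤ j → (p : ℤ) ^ e ∣ H.coeff j) → (p : ℤ) ^ e ∣ R0))) := by
    intro p
    by_cases hp : p.Prime
    · obtain ⟨m, a, hma⟩ := HL p hp
      exact ⟨m, a, fun _ => hma⟩
    · exact ⟨0, fun _ => 0, fun hp' => absurd hp' hp⟩
  choose m a hma using HL'
  have HC : ∀ d : ℕ, ∃ r : ℤ, 1 ≤ d → (-(d : ℤ) < r ∧ r ≤ 0 ∧
      ∀ p : ℕ, p.Prime → (p : ℤ) ^ (d.factorization p) ∣ r - a p (d.factorization p)) := by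
    intro d
    by_cases hd : 1 ≤ d
    · obtain ⟨r, hr⟩ := aux_crt a d hd
      exact ⟨r, fun _ => hr⟩
    · exact ⟨0, fun hd' => absurd hd' hd⟩
  choose r hr using HC
  have hdec : ∀ d : ℕ, 1 ≤ d → ∀ p : ℕ, p.Prime →
      ∃ d' : ℤ, ¬ (p : ℤ) ∣ d' ∧ (d : ℤ) = (p : ℤ) ^ (d.factorization p) * d' := by
    intro d hd p hp
    refine ⟨((d / p ^ (d.factorization p) : ℕ) : ℤ), ?_, ?_⟩
    · intro hdv
      exact Nat.not_dvd_ordCompl hp (by omega : d ≠ 0) (by exact_mod_cast hdv)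
    · exact_mod_cast (Nat.ordProj_mul_ordCompl_eq_self d p).symm
  have hcoef : ∀ d : ℕ, 1 ≤ d → C ((auxLam m d : ℕ) : ℤ) ∣ h.comp (C (r d) + C (d : ℤ) * X) := by
    intro d hd
    rw [C_dvd_iff_dvd_coeff]
    intro j
    rw [← Int.natAbs_dvd_natAbs, Int.natAbs_natCast, Nat.dvd_iff_prime_pow_dvd_dvd]
    intro p k hp hk'
    have h1 : k ≤ (auxLam m d).factorization p :=
      (hp.pow_dvd_iff_le_factorization (auxLam_ne_zero m d)).1 hk'
    rw [auxLam_factorization] at h1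
    obtain ⟨d', hd', hdd⟩ := hdec d hd p hp
    have h2 := ((hma p hp).2.2.2 (d.factorization p) (r d) d' ((hr d hd).2.2 p hp) hd').1 j
    rw [← hdd] at h2
    have h3 : (p : ℤ) ^ k ∣ (h.comp (C (r d) + C (d : ℤ) * X)).coeff j :=
      (pow_dvd_pow _ (by rw [mul_comm]; exact h1)).trans h2
    have h4 := Int.natAbs_dvd_natAbs.2 h3
    rwa [Int.natAbs_pow, Int.natAbs_natCast] at h4
  have HH : ∀ d : ℕ, ∃ H : ℤ[X], 1 ≤ d →
      C ((auxLam m d : ℕ) : ℤ) * H = h.comp (C (r d) + C (d : ℤ) * X) := by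
    intro d
    by_cases hd : 1 ≤ d
    · obtain ⟨H, hH⟩ := hcoef d hd
      exact ⟨H, fun _ => hH.symm⟩
    · exact ⟨0, fun hd' => absurd hd' hd⟩
  choose H hH using HH
  refine ⟨auxLam m, r, H, R0.natAbs, Int.natAbs_pos.2 hR0, hH, ?_, ?_, ?_, ?_, ?_⟩
  · intro d q hd hq
    apply Nat.eq_of_factorization_eq (auxLam_ne_zero m _)
      (mul_ne_zero (auxLam_ne_zero m _) (auxLam_ne_zero m _))
    intro p
    rw [Nat.factorization_mul (auxLam_ne_zero m _) (auxLam_ne_zero m _), Finsupp.add_apply,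
      auxLam_factorization, auxLam_factorization, auxLam_factorization,
      Nat.factorization_mul (by omega) (by omega), Finsupp.add_apply, mul_add]
  · intro d hd
    constructor
    · rw [← Nat.factorization_le_iff_dvd (by omega) (auxLam_ne_zero m _)]
      intro p
      rw [auxLam_factorization]
      by_cases hp : p.Prime
      · have := (hma p hp).1
        nlinarith only [this]
      · rw [Nat.factorization_eq_zero_of_not_prime _ hp]
        exact Nat.zero_le _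
    · rw [← Nat.factorization_le_iff_dvd (auxLam_ne_zero m _) (pow_ne_zero _ (by omega))]
      intro p
      rw [auxLam_factorization, Nat.factorization_pow, Finsupp.smul_apply, smul_eq_mul]
      by_cases hp : p.Prime
      · exact Nat.mul_le_mul_right _ (hma p hp).2.1
      · rw [Nat.factorization_eq_zero_of_not_prime _ hp]
        simp
  · intro d hd
    exact ⟨(hr d hd).1, (hr d hd).2.1⟩
  · intro d q hd hq
    have hdq : 1 ≤ d * q := Nat.one_le_iff_ne_zero.2 (mul_ne_zero (by omega) (by omega))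
    rw [← Int.natAbs_dvd_natAbs, Int.natAbs_natCast, Nat.dvd_iff_prime_pow_dvd_dvd]
    intro p k hp hk'
    have h1 : k ≤ d.factorization p :=
      (hp.pow_dvd_iff_le_factorization (by omega)).1 hk'
    have h2 : d.factorization p ≤ (d * q).factorization p := by
      rw [Nat.factorization_mul (by omega) (by omega), Finsupp.add_apply]
      exact Nat.le_add_right _ _
    have h3 := (hr d hd).2.2 p hp
    have h4 := (hr (d * q) hdq).2.2 p hp
    have h5 := (hma p hp).2.2.1 _ _ h2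
    have h6 : (p : ℤ) ^ (d.factorization p) ∣ r (d * q) - r d := by
      have h7 := dvd_sub (dvd_add ((pow_dvd_pow _ h2).trans h4) h5) h3
      rw [sub_add_sub_cancel, sub_sub_sub_cancel_right] at h7
      exact h7
    have h7 := Int.natAbs_dvd_natAbs.2 ((pow_dvd_pow _ h1).trans h6)
    rwa [Int.natAbs_pow, Int.natAbs_natCast] at h7
  · intro d hd g hg
    rw [Int.dvd_natAbs, ← Int.natAbs_dvd_natAbs, Nat.dvd_iff_prime_pow_dvd_dvd]
    intro p e hp he
    obtain ⟨d', hd', hdd⟩ := hdec d hd p hp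
    have hlam : ((auxLam m d : ℕ) : ℤ) = (p : ℤ) ^ (d.factorization p * m p) *
        ((auxLam m d / p ^ ((auxLam m d).factorization p) : ℕ) : ℤ) := by
      have := Nat.ordProj_mul_ordCompl_eq_self (auxLam m d) p
      rw [auxLam_factorization, mul_comm (m p)] at this ⊢
      exact_mod_cast this.symm
    have hu : ¬ (p : ℤ) ∣ ((auxLam m d / p ^ ((auxLam m d).factorization p) : ℕ) : ℤ) := by
      intro hdv
      exact Nat.not_dvd_ordCompl hp (auxLam_ne_zero m d) (by exact_mod_cast hdv)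
    have h1 := ((hma p hp).2.2.2 (d.factorization p) (r d) d' ((hr d hd).2.2 p hp) hd').2
      _ (H d) hu (by rw [← hlam, ← hdd]; exact hH d hd) e (by
        intro j hj
        have h2 : ((p ^ e : ℕ) : ℤ) ∣ g := Int.natCast_dvd.2 he
        rw [Nat.cast_pow] at h2
        exact h2.trans (hg j hj))
    have h2 := Int.natAbs_dvd_natAbs.2 h1
    rwa [Int.natAbs_pow, Int.natAbs_natCast] at h2

end Vale.Agent.P042
end
end
end

section

section

section

/-!
# P042, module E4: the density increment bookkeeping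

A residue class modulo `m` inside an interval splits into residue classes modulo a
multiple `lm` of `m`; one of these has at least the average density.
-/

namespace Vale.Agent.P042

/-- If the part of `A` in a residue class modulo `m` inside an interval of length `N1` has
density more than `g`, then for every multiple `lm` of `m` there is a progression of
difference `lm` on which `A` has more than `g * (N1 / lm)` points. -/
theorem increment (A : Finset Int) (N1 m lm : Nat) (y x : Int) (g : Real) (hm : 1 ≤ m)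
    (hlm : 1 ≤ lm) (hdvd : m ∣ lm)
    (hcnt : g * (N1 / m) < ((A.filter (fun n => y < n ∧ n ≤ y + N1 ∧ n ≡ x [ZMOD m])).card : Real)) :
    ∃ x2 : Int, g * (N1 / lm) <
      (((Finset.Icc (1 : Int) (N1 / lm + 1 : Nat)).filter (fun j => x2 + lm * j ∈ A)).card : Real) := by
  classical
  obtain ⟨k, rfl⟩ := hdvd
  have hk : 1 ≤ k := by
    rcases Nat.eq_zero_or_pos k with h | h
    · subst h; simp at hlm
    · exact h
  by_contra hcon
  push Not at hcon
  -- the class of n modulo lm is determined by (n - x) / m mod k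
  set B : Finset Int := A.filter (fun n => y < n ∧ n ≤ y + N1 ∧ n ≡ x [ZMOD m]) with hB
  have hmR : (0 : Real) < m := by exact_mod_cast hm
  have hkR : (0 : Real) < k := by exact_mod_cast hk
  have hmZ : (0 : Int) < m := by exact_mod_cast hm
  have hkZ : (0 : Int) < k := by exact_mod_cast hk
  have hlmZ : (0 : Int) < ((m * k : Nat) : Int) := by exact_mod_cast hlm
  -- fibres
  have hfib : ∀ i ∈ Finset.range k,
      ((B.filter (fun n => ((n - x) / m) % k = (i : Int))).card : Real) ≤ g * (N1 / ((m * k : Nat) : Real)) := by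
    intro i hi
    -- the class
    set c : Int := x + m * i with hc
    -- x2 is the largest integer ≤ y congruent to c mod lm
    set x2 : Int := y - (y - c) % ((m * k : Nat) : Int) with hx2
    refine le_trans ?_ (hcon x2)
    have : (B.filter (fun n => ((n - x) / m) % k = (i : Int))).card ≤
        ((Finset.Icc (1 : Int) (N1 / (m * k) + 1 : Nat)).filter
          (fun j => x2 + ((m * k : Nat) : Int) * j ∈ A)).card := by
      set L : Int := ((m * k : Nat) : Int) with hL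
      have hLmk : L = m * k := by rw [hL]; push_cast; ring
      have key : ∀ n ∈ B.filter (fun n => ((n - x) / m) % k = (i : Int)),
          n = x2 + L * ((n - x2) / L) := by
        intro n hn
        rw [Finset.mem_filter, hB, Finset.mem_filter] at hn
        obtain ⟨⟨hnA, hn1, hn2, hn3⟩, hn4⟩ := hn
        have hd : (m : Int) ∣ n - x := (Int.ModEq.dvd hn3.symm)
        have h1 : n - x = m * ((n - x) / m) := (Int.mul_ediv_cancel' hd).symm
        have h2 : ((n - x) / m) = k * (((n - x) / m) / k) + i := by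
          rw [← hn4]; exact (Int.mul_ediv_add_emod _ _).symm
        have h3 : (y - c) = L * ((y - c) / L) + (y - c) % L := (Int.mul_ediv_add_emod _ _).symm
        have h4 : n - x2 = L * ((((n - x) / m) / k) - (y - c) / L) := by
          have h5 : n - x2 = (n - x) - m * i - (y - c) + (y - c) % L := by
            rw [hx2, hc]; ring
          rw [h5]
          have h6 : n - x = L * (((n - x) / m) / k) + m * i := by
            conv_lhs => rw [h1, h2]
            rw [hLmk]; ring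
          have h7 : (y - c) % L = (y - c) - L * ((y - c) / L) := by linarith only [h3]
          linear_combination h6 + h7
        have hdvd : L ∣ n - x2 := ⟨_, h4⟩
        rw [Int.mul_ediv_cancel' hdvd]; ring
      apply Finset.card_le_card_of_injOn (fun n => (n - x2) / L)
      · intro n hn
        have hk1 := key n hn
        rw [Finset.mem_coe, Finset.mem_filter, hB, Finset.mem_filter] at hn
        obtain ⟨⟨hnA, hn1, hn2, hn3⟩, hn4⟩ := hn
        set j : Int := (n - x2) / L with hj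
        have hr0 : 0 ≤ (y - c) % L := Int.emod_nonneg _ hlmZ.ne'
        have hr1 : (y - c) % L < L := Int.emod_lt_of_pos _ hlmZ
        have hj1 : 1 ≤ j := by
          by_contra hcon
          have : j ≤ 0 := by omega
          have : L * j ≤ 0 := mul_nonpos_of_nonneg_of_nonpos hlmZ.le this
          rw [hx2] at hk1
          omega
        have hj2 : L * (j - 1) ≤ N1 := by
          have : L * (j - 1) = L * j - L := by ring
          rw [this]
          rw [hx2] at hk1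
          omega
        have hj3 : j - 1 ≤ (N1 : Int) / L := by
          apply (Int.le_ediv_iff_mul_le hlmZ).mpr
          rw [mul_comm]; exact hj2
        simp only [Finset.coe_filter, Finset.mem_Icc, Set.mem_ofPred_eq]
        refine ⟨⟨hj1, ?_⟩, ?_⟩
        · push_cast
          rw [hLmk] at hj3
          linarith only [hj3]
        · rw [← hk1]; exact hnA
      · intro n hn n' hn' h
        rw [key n hn, key n' hn']
        simp only at h
        rw [h]
    exact_mod_cast this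
  have hsum : (B.card : Real) = ∑ i ∈ Finset.range k,
      ((B.filter (fun n => ((n - x) / m) % k = (i : Int))).card : Real) := by
    rw [← Nat.cast_sum]
    congr 1
    have := Finset.card_eq_sum_card_fiberwise (f := fun n : Int => (((n - x) / m) % k).toNat)
      (s := B) (t := Finset.range k) ?_
    · rw [this]
      apply Finset.sum_congr rfl
      intro i hi
      congr 1
      apply Finset.filter_congr
      intro n hn
      have h0 : 0 ≤ ((n - x) / m) % (k : Int) := Int.emod_nonneg _ hkZ.ne'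
      constructor
      · intro h
        have := Int.toNat_of_nonneg h0
        rw [h] at this
        exact this.symm
      · intro h
        rw [h]; simp
    · intro n hn
      have h0 : 0 ≤ ((n - x) / m) % (k : Int) := Int.emod_nonneg _ hkZ.ne'
      have h1 : ((n - x) / m) % (k : Int) < k := Int.emod_lt_of_pos _ hkZ
      simp only [Finset.coe_range, Set.mem_Iio]
      omega
  have hle : (B.card : Real) ≤ ∑ i ∈ Finset.range k, g * (N1 / ((m * k : Nat) : Real)) := by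
    rw [hsum]
    exact Finset.sum_le_sum hfib
  rw [Finset.sum_const, Finset.card_range, nsmul_eq_mul] at hle
  have heq : (k : Real) * (g * (N1 / ((m * k : Nat) : Real))) = g * (N1 / m) := by
    push_cast
    field_simp
  rw [heq] at hle
  exact absurd hcnt (not_lt.mpr hle)

end Vale.Agent.P042
end
end
end

section

section

section

set_option autoImplicit false

namespace Vale.Agent.P042

/-- `e x = exp (2 π i x)`. -/
noncomputable def e (x : ℝ) : ℂ := Complex.exp (((2 * Real.pi * x : ℝ) : ℂ) * Complex.I)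

/-- number of primes `p` dividing `q` such that the full power of `p` in `q` does not divide `W` -/
def sW (W q : ℕ) : ℕ := (q.primeFactors.filter (fun p => ¬ p ^ (q.factorization p) ∣ W)).card

end Vale.Agent.P042
end
end
end

section

section

section

set_option autoImplicit false

namespace Vale.Agent.P042

open Classical in
/-- average of `f` over the coset `x + H` -/
noncomputable def avg {G : Type*} [AddCommGroup G] [Fintype G] (H : AddSubgroup G)
    (f : G → ℝ) (x : G) : ℝ :=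
  (∑ h : G, if h ∈ H then f (x + h) else 0) / (Nat.card H : ℝ)

/-- average over the coordinates in `V` -/
noncomputable def EE {G ι : Type*} [AddCommGroup G] [Fintype G] (Hs : ι → AddSubgroup G)
    (V : Finset ι) (f : G → ℝ) : G → ℝ :=
  avg (V.sup Hs) f

/-- `DD U = ∏_{i ∈ U} (1 - E_i)` -/
noncomputable def DD {G ι : Type*} [AddCommGroup G] [Fintype G] (Hs : ι → AddSubgroup G)
    (U : Finset ι) (f : G → ℝ) : G → ℝ :=
  fun x => ∑ V ∈ U.powerset, (-1 : ℝ) ^ V.card * EE Hs V f x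

/-- the component of `F` that depends on the coordinates in `S` and purely on those in `U` -/
noncomputable def gg {G ι : Type*} [AddCommGroup G] [Fintype G] [Fintype ι] [DecidableEq ι]
    (Hs : ι → AddSubgroup G) (F : G → ℝ) (S U : Finset ι) : G → ℝ :=
  DD Hs U (EE Hs (S ∪ U)ᶜ F)

end Vale.Agent.P042
end
end
end

section

section

section

set_option autoImplicit false

namespace Vale.Agent.P042

open Finset

section Group

variable {n : ℕ} [NeZero n]

/-- unnormalised Fourier coefficient on `ZMod n` -/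
noncomputable def ftz (f : ZMod n → ℂ) (ξ : ZMod n) : ℂ :=
  ∑ z, f z * ZMod.stdAddChar (-(z * ξ))

theorem ftz_parseval (g : ZMod n → ℂ) :
    ∑ ξ, ‖ftz g ξ‖ ^ 2 = n * ∑ z, ‖g z‖ ^ 2 := by
  have horth : ∀ z w : ZMod n, ∑ ξ : ZMod n,
      (ZMod.stdAddChar (-(z * ξ)) : ℂ) * (starRingEnd ℂ) (ZMod.stdAddChar (-(w * ξ))) =
      if w = z then (n : ℂ) else 0 := by
    intro z w
    have h1 : ∀ ξ : ZMod n, (ZMod.stdAddChar (-(z * ξ)) : ℂ) *
        (starRingEnd ℂ) (ZMod.stdAddChar (-(w * ξ))) = ZMod.stdAddChar (ξ * (w - z)) := by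
      intro ξ
      rw [← AddChar.map_neg_eq_conj, ← AddChar.map_add_eq_mul]
      congr 1
      ring
    simp_rw [h1]
    have := AddChar.sum_mulShift (w - z) (ZMod.isPrimitive_stdAddChar n)
    rw [this]
    simp only [sub_eq_zero, ZMod.card]
    split_ifs <;> simp
  have h2 : ((∑ ξ, ‖ftz g ξ‖ ^ 2 : ℝ) : ℂ) = ((n * ∑ z, ‖g z‖ ^ 2 : ℝ) : ℂ) := by
    push_cast
    have h3 : ∀ ξ : ZMod n, ((‖ftz g ξ‖ : ℂ)) ^ 2 = ∑ z, ∑ w, (g z * (starRingEnd ℂ) (g w)) *
        ((ZMod.stdAddChar (-(z * ξ)) : ℂ) * (starRingEnd ℂ) (ZMod.stdAddChar (-(w * ξ)))) := by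
      intro ξ
      rw [← Complex.mul_conj', ftz, map_sum, Finset.sum_mul_sum]
      refine Finset.sum_congr rfl fun z _ => Finset.sum_congr rfl fun w _ => ?_
      rw [map_mul]
      ring
    simp_rw [h3]
    rw [Finset.sum_comm]
    have h4 : ∀ z : ZMod n, ∑ ξ : ZMod n, ∑ w, (g z * (starRingEnd ℂ) (g w)) *
        ((ZMod.stdAddChar (-(z * ξ)) : ℂ) * (starRingEnd ℂ) (ZMod.stdAddChar (-(w * ξ)))) =
        (n : ℂ) * (‖g z‖ : ℂ) ^ 2 := by
      intro z
      rw [Finset.sum_comm]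
      simp_rw [← Finset.mul_sum, horth]
      simp only [mul_ite, mul_zero, Finset.sum_ite_eq', Finset.mem_univ, if_true]
      rw [Complex.mul_conj']
      ring
    simp_rw [h4]
    rw [← Finset.mul_sum]
  exact_mod_cast h2

open Classical in
theorem ftz_avg (H : AddSubgroup (ZMod n)) (f : ZMod n → ℝ) (ξ : ZMod n) :
    ftz (fun z => (avg H f z : ℂ)) ξ =
      if (∀ h ∈ H, (ZMod.stdAddChar (h * ξ) : ℂ) = 1) then ftz (fun z => (f z : ℂ)) ξ else 0 := by
  have hcard : (Nat.card H : ℂ) ≠ 0 := by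
    exact_mod_cast Nat.card_pos.ne'
  have h1 : ftz (fun z => (avg H f z : ℂ)) ξ =
      ((∑ h : ZMod n, if h ∈ H then (ZMod.stdAddChar (h * ξ) : ℂ) else 0) / (Nat.card H : ℂ)) *
        ftz (fun z => (f z : ℂ)) ξ := by
    unfold ftz avg
    push_cast
    have h2 : ∀ z : ZMod n, ((∑ h : ZMod n, (((if h ∈ H then f (z + h) else 0 : ℝ)) : ℂ)) /
        (Nat.card H : ℂ)) * ZMod.stdAddChar (-(z * ξ)) =
        ∑ h : ZMod n, (if h ∈ H then (f (z + h) : ℂ) * ZMod.stdAddChar (-((z + h) * ξ)) *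
          ZMod.stdAddChar (h * ξ) else 0) / (Nat.card H : ℂ) := by
      intro z
      rw [div_mul_eq_mul_div, Finset.sum_mul, Finset.sum_div]
      refine Finset.sum_congr rfl fun h _ => ?_
      split_ifs with hh
      · rw [mul_assoc, ← AddChar.map_add_eq_mul]
        congr 3
        ring
      · simp only [Complex.ofReal_zero, zero_mul, Nat.card_eq_fintype_card, zero_div]
    simp_rw [h2]
    rw [Finset.sum_comm, div_mul_eq_mul_div, Finset.sum_mul, Finset.sum_div]
    refine Finset.sum_congr rfl fun h _ => ?_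
    rw [← Finset.sum_div]
    congr 1
    split_ifs with hh
    · rw [← Finset.sum_mul, mul_comm]
      congr 1
      exact Fintype.sum_equiv (Equiv.addRight h) _ _ (fun z => rfl)
    · simp only [sum_const_zero, zero_mul]
  rw [h1]
  split_ifs with hall
  · have : (∑ h : ZMod n, if h ∈ H then (ZMod.stdAddChar (h * ξ) : ℂ) else 0) =
        (Nat.card H : ℂ) := by
      rw [Finset.sum_congr rfl (g := fun h => if h ∈ H then (1 : ℂ) else 0)]
      · rw [Finset.sum_ite, Finset.sum_const_zero, add_zero, Finset.sum_const, nsmul_eq_mul,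
          mul_one]
        congr 1
        rw [Nat.card_eq_fintype_card, Fintype.card_subtype]
      · intro h _
        split_ifs with hh
        · exact hall h hh
        · rfl
    rw [this, div_self hcard, one_mul]
  · push Not at hall
    obtain ⟨h0, hh0, hne⟩ := hall
    have : (∑ h : ZMod n, if h ∈ H then (ZMod.stdAddChar (h * ξ) : ℂ) else 0) = 0 := by
      have h3 : (∑ h : ZMod n, if h ∈ H then (ZMod.stdAddChar (h * ξ) : ℂ) else 0) =
          ZMod.stdAddChar (h0 * ξ) *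
            (∑ h : ZMod n, if h ∈ H then (ZMod.stdAddChar (h * ξ) : ℂ) else 0) := by
        rw [Finset.mul_sum]
        symm
        refine Fintype.sum_equiv (Equiv.addLeft h0) _ _ (fun z => ?_)
        simp only [Equiv.coe_addLeft]
        have : h0 + z ∈ H ↔ z ∈ H := by
          constructor
          · intro h
            have := H.add_mem (H.neg_mem hh0) h
            simpa using this
          · intro h
            exact H.add_mem hh0 h
        simp only [this]
        split_ifs with hz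
        · rw [← AddChar.map_add_eq_mul]
          congr 1
          ring
        · simp only [mul_zero]
      have h4 : ((ZMod.stdAddChar (h0 * ξ) : ℂ) - 1) *
          (∑ h : ZMod n, if h ∈ H then (ZMod.stdAddChar (h * ξ) : ℂ) else 0) = 0 := by
        rw [sub_mul, one_mul, ← h3, sub_self]
      rcases mul_eq_zero.1 h4 with h5 | h5
      · exact absurd (sub_eq_zero.1 h5) hne
      · exact h5
    rw [this, zero_div, zero_mul]

theorem sum_avg (H : AddSubgroup (ZMod n)) (f : ZMod n → ℝ) :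
    ∑ x, avg H f x = ∑ x, f x := by
  classical
  have hcard : (Nat.card H : ℝ) ≠ 0 := by
    exact_mod_cast Nat.card_pos.ne'
  unfold avg
  rw [← Finset.sum_div, div_eq_iff hcard, Finset.sum_comm]
  have : ∀ h : ZMod n, (∑ x : ZMod n, if h ∈ H then f (x + h) else 0) =
      if h ∈ H then ∑ x, f x else 0 := by
    intro h
    split_ifs with hh
    · exact Fintype.sum_equiv (Equiv.addRight h) _ _ (fun z => rfl)
    · simp
  simp_rw [this]
  rw [Finset.sum_ite, Finset.sum_const_zero, add_zero, Finset.sum_const, nsmul_eq_mul, mul_comm]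
  congr 2
  rw [Nat.card_eq_fintype_card, Fintype.card_subtype]

theorem zmultiples_sup_coprime {G : Type*} [AddCommGroup G] (c : G) {u v : ℕ}
    (h : Nat.Coprime u v) :
    AddSubgroup.zmultiples (u • c) ⊔ AddSubgroup.zmultiples (v • c) =
      AddSubgroup.zmultiples c := by
  apply le_antisymm
  · apply sup_le
    · rw [AddSubgroup.zmultiples_le]
      exact AddSubgroup.nsmul_mem _ (AddSubgroup.mem_zmultiples c) u
    · rw [AddSubgroup.zmultiples_le]
      exact AddSubgroup.nsmul_mem _ (AddSubgroup.mem_zmultiples c) v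
  · rw [AddSubgroup.zmultiples_le]
    have hb : (u : ℤ) * Nat.gcdA u v + (v : ℤ) * Nat.gcdB u v = 1 := by
      have := Nat.gcd_eq_gcd_ab u v
      rw [h] at this
      push_cast at this
      linarith only [this]
    have : c = Nat.gcdA u v • (u • c) + Nat.gcdB u v • (v • c) := by
      rw [← natCast_zsmul, ← natCast_zsmul, smul_smul, smul_smul, ← add_smul]
      rw [show Nat.gcdA u v * (u : ℤ) + Nat.gcdB u v * (v : ℤ) = 1 by linarith, one_smul]
    have hmem : Nat.gcdA u v • (u • c) + Nat.gcdB u v • (v • c) ∈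
        AddSubgroup.zmultiples (u • c) ⊔ AddSubgroup.zmultiples (v • c) := by
      apply AddSubgroup.add_mem
      · exact AddSubgroup.mem_sup_left (AddSubgroup.zsmul_mem _ (AddSubgroup.mem_zmultiples _) _)
      · exact AddSubgroup.mem_sup_right (AddSubgroup.zsmul_mem _ (AddSubgroup.mem_zmultiples _) _)
    rw [← this] at hmem
    exact hmem

omit [NeZero n] in
theorem intCast_mem_zmultiples {d : ℕ} (hd : d ∣ n) (z : ℤ) :
    ((z : ZMod n) ∈ AddSubgroup.zmultiples ((d : ℕ) : ZMod n)) ↔ (d : ℤ) ∣ z := by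
  rw [AddSubgroup.mem_zmultiples_iff]
  constructor
  · rintro ⟨k, hk⟩
    have : ((k * d : ℤ) : ZMod n) = ((z : ℤ) : ZMod n) := by
      rw [← hk]
      push_cast
      rw [zsmul_eq_mul]
    rw [ZMod.intCast_eq_intCast_iff] at this
    have h2 : (k * d : ℤ) ≡ z [ZMOD d] := this.of_dvd (by exact_mod_cast hd)
    have h3 : (d : ℤ) ∣ z - k * d := Int.modEq_iff_dvd.1 h2
    have h4 : (d : ℤ) ∣ k * d := Dvd.intro_left k rfl
    have := dvd_add h3 h4
    simpa only [sub_add_cancel] using this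
  · rintro ⟨k, rfl⟩
    refine ⟨k, ?_⟩
    rw [zsmul_eq_mul]
    push_cast
    ring

theorem card_zmultiples_dvd {d : ℕ} (hd : d ∣ n) :
    Nat.card (AddSubgroup.zmultiples ((d : ℕ) : ZMod n)) = n / d := by
  rw [Nat.card_zmultiples, ZMod.addOrderOf_coe _ (NeZero.ne n), Nat.gcd_eq_right hd]

end Group

section Concrete

variable (W Q : ℕ)

variable {W Q}

theorem count_mod {d N1 : ℕ} (hd : 0 < d) (y v : ℤ) :
    |(((Finset.Ioc y (y + N1)).filter (fun n : ℤ => n ≡ v [ZMOD (d : ℕ)])).card : ℝ) -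
      (N1 : ℝ) / d| ≤ 1 := by
  have h1 := Int.Ioc_filter_modEq_card y (y + N1) (r := (d : ℤ)) (by exact_mod_cast hd) v
  have hd' : (0 : ℚ) < d := by exact_mod_cast hd
  set f1 := ⌊(((y + N1 : ℤ) : ℚ) - v) / ((d : ℤ) : ℚ)⌋ with hf1
  set f2 := ⌊((y : ℚ) - v) / ((d : ℤ) : ℚ)⌋ with hf2
  have h2 : (((y + N1 : ℤ) : ℚ) - v) / ((d : ℤ) : ℚ) = ((y : ℚ) - v) / ((d : ℤ) : ℚ) +
      (N1 : ℚ) / d := by
    push_cast
    field_simp
    ring
  have a1 := Int.floor_le ((((y + N1 : ℤ) : ℚ) - v) / ((d : ℤ) : ℚ))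
  have a2 := Int.lt_floor_add_one ((((y + N1 : ℤ) : ℚ) - v) / ((d : ℤ) : ℚ))
  have b1 := Int.floor_le (((y : ℚ) - v) / ((d : ℤ) : ℚ))
  have b2 := Int.lt_floor_add_one (((y : ℚ) - v) / ((d : ℤ) : ℚ))
  rw [← hf1] at a1 a2
  rw [← hf2] at b1 b2
  rw [h2] at a1 a2
  have hmono : f2 ≤ f1 := by
    apply Int.floor_le_floor
    rw [h2]
    have : (0 : ℚ) ≤ (N1 : ℚ) / d := by (clear * - hd; positivity)
    linarith only [this]
  rw [max_eq_left (by linarith only [hmono])] at h1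
  have h3 : |(((Finset.Ioc y (y + N1)).filter (fun n : ℤ => n ≡ v [ZMOD (d : ℕ)])).card : ℚ) -
      (N1 : ℚ) / d| ≤ 1 := by
    have h4 : (((Finset.Ioc y (y + N1)).filter (fun n : ℤ => n ≡ v [ZMOD (d : ℕ)])).card : ℚ) =
        f1 - f2 := by
      exact_mod_cast h1
    rw [h4, abs_le]
    constructor <;> linarith
  have h5 := (Rat.cast_le (K := ℝ)).2 h3
  rw [Rat.cast_abs] at h5
  push_cast at h5
  exact h5

end Concrete

end Vale.Agent.P042
end
end
end

section

section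

section

set_option autoImplicit false

/-!
# Concrete level inequality for a down-closed family of sets of primes
-/

namespace Vale.Agent.P042

open Finset

section General

variable {n : ℕ} [NeZero n] {ι : Type*} [Fintype ι] [DecidableEq ι]
  (Hg : ι → AddSubgroup (ZMod n))

/-- the character `ξ` is trivial on the coordinate `p` -/
def TG (ξ : ZMod n) (p : ι) : Prop :=
  ∀ h ∈ Hg p, (ZMod.stdAddChar (h * ξ) : ℂ) = 1

omit [Fintype ι] [DecidableEq ι] in
theorem triv_iff_g (V : Finset ι) (ξ : ZMod n) :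
    (∀ h ∈ V.sup Hg, (ZMod.stdAddChar (h * ξ) : ℂ) = 1) ↔ ∀ p ∈ V, TG Hg ξ p := by
  constructor
  · intro h p hp z hz
    apply h
    have h1 : Hg p ≤ V.sup Hg := Finset.le_sup hp
    exact h1 hz
  · intro h
    let K : AddSubgroup (ZMod n) :=
      { carrier := {z | (ZMod.stdAddChar (z * ξ) : ℂ) = 1}
        zero_mem' := by simp only [Set.mem_ofPred_eq, zero_mul, AddChar.map_zero_eq_one]
        add_mem' := by
          intro a b ha hb
          simp only [Set.mem_ofPred_eq] at ha hb ⊢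
          rw [add_mul, AddChar.map_add_eq_mul, ha, hb, one_mul]
        neg_mem' := by
          intro a ha
          simp only [Set.mem_ofPred_eq] at ha ⊢
          rw [neg_mul, AddChar.map_neg_eq_inv, ha, inv_one] }
    have hK : V.sup Hg ≤ K := by
      apply Finset.sup_le
      intro p hp z hz
      exact h p hp z hz
    intro z hz
    exact hK hz

open Classical in
theorem ftz_EE_g (V : Finset ι) (f : ZMod n → ℝ) (ξ : ZMod n) :
    ftz (fun z => (EE Hg V f z : ℂ)) ξ =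
      if (∀ p ∈ V, TG Hg ξ p) then ftz (fun z => (f z : ℂ)) ξ else 0 := by
  unfold EE
  rw [ftz_avg]
  simp only [triv_iff_g]

theorem ftz_gg_g (F : ZMod n → ℝ) (U : Finset ι) (ξ : ZMod n)
    (hU : ∀ p, p ∈ U ↔ ¬ TG Hg ξ p) :
    ftz (fun z => (gg Hg F ∅ U z : ℂ)) ξ = ftz (fun z => (F z : ℂ)) ξ := by
  classical
  have h1 : ftz (fun z => (gg Hg F ∅ U z : ℂ)) ξ = ∑ V ∈ U.powerset, (-1 : ℂ) ^ V.card *
      ftz (fun z => (EE Hg V (EE Hg (∅ ∪ U)ᶜ F) z : ℂ)) ξ := by
    unfold gg DD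
    simp only [ftz]
    push_cast
    simp_rw [Finset.sum_mul]
    rw [Finset.sum_comm]
    refine Finset.sum_congr rfl fun V _ => ?_
    rw [Finset.mul_sum]
    refine Finset.sum_congr rfl fun z _ => ?_
    ring
  rw [h1, Finset.sum_eq_single ∅]
  · rw [ftz_EE_g, if_pos (by simp), ftz_EE_g, if_pos]
    · simp
    · intro p hp
      by_contra h
      have := (hU p).2 h
      simp [this] at hp
  · intro V hV hne
    rw [ftz_EE_g, if_neg, mul_zero]
    intro h
    obtain ⟨p, hp⟩ := Finset.nonempty_iff_ne_empty.2 hne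
    exact (hU p).1 (Finset.mem_powerset.1 hV hp) (h p hp)
  · intro h
    simp only [mem_powerset, empty_subset, not_true_eq_false] at h

theorem bessel_g (F : ZMod n → ℝ) (𝒟 : Finset (Finset ι)) (ρ β : ℝ)
    (Ξ : Finset (ZMod n)) (Uf : ZMod n → Finset ι)
    (hUf : ∀ ξ ∈ Ξ, ∀ p, p ∈ Uf ξ ↔ ¬ TG Hg ξ p) (hD : ∀ ξ ∈ Ξ, Uf ξ ∈ 𝒟)
    (hρ : 0 ≤ ρ)
    (hlev : ∀ x, ∑ U ∈ 𝒟,
      ρ ^ U.card * EE Hg Finset.univ (fun z => (gg Hg F ∅ U z) ^ 2) x ≤ β) :
    ∑ ξ ∈ Ξ, ρ ^ (Uf ξ).card * ‖ftz (fun z => (F z : ℂ)) ξ‖ ^ 2 ≤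
      (n : ℝ) ^ 2 * β := by
  classical
  have h1 : ∑ ξ ∈ Ξ, ρ ^ (Uf ξ).card * ‖ftz (fun z => (F z : ℂ)) ξ‖ ^ 2 =
      ∑ U ∈ 𝒟, ∑ ξ ∈ Ξ.filter (fun ξ => Uf ξ = U),
        ρ ^ (Uf ξ).card * ‖ftz (fun z => (F z : ℂ)) ξ‖ ^ 2 := by
    symm
    apply Finset.sum_fiberwise_of_maps_to
    intro ξ hξ
    exact hD ξ hξ
  rw [h1]
  have h2 : ∀ U ∈ 𝒟, ∑ ξ ∈ Ξ.filter (fun ξ => Uf ξ = U),
        ρ ^ (Uf ξ).card * ‖ftz (fun z => (F z : ℂ)) ξ‖ ^ 2 ≤
        ρ ^ U.card * ((n : ℝ) * ∑ z, (gg Hg F ∅ U z) ^ 2) := by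
    intro U _
    have h3 : ∑ ξ ∈ Ξ.filter (fun ξ => Uf ξ = U),
        ρ ^ (Uf ξ).card * ‖ftz (fun z => (F z : ℂ)) ξ‖ ^ 2 =
        ρ ^ U.card * ∑ ξ ∈ Ξ.filter (fun ξ => Uf ξ = U),
          ‖ftz (fun z => (gg Hg F ∅ U z : ℂ)) ξ‖ ^ 2 := by
      rw [Finset.mul_sum]
      refine Finset.sum_congr rfl fun ξ hξ => ?_
      rw [Finset.mem_filter] at hξ
      rw [ftz_gg_g Hg F U ξ (by rw [← hξ.2]; exact hUf ξ hξ.1), hξ.2]
    rw [h3]
    apply mul_le_mul_of_nonneg_left _ (pow_nonneg hρ _)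
    calc ∑ ξ ∈ Ξ.filter (fun ξ => Uf ξ = U), ‖ftz (fun z => (gg Hg F ∅ U z : ℂ)) ξ‖ ^ 2
        ≤ ∑ ξ, ‖ftz (fun z => (gg Hg F ∅ U z : ℂ)) ξ‖ ^ 2 :=
          Finset.sum_le_sum_of_subset_of_nonneg (Finset.subset_univ _)
            (fun _ _ _ => by (clear ρ β hUf hD hρ hlev h1 h3; positivity))
      _ = (n : ℝ) * ∑ z, (gg Hg F ∅ U z) ^ 2 := by
          rw [ftz_parseval]
          congr 1
          refine Finset.sum_congr rfl fun z _ => ?_
          rw [Complex.norm_real, Real.norm_eq_abs, sq_abs]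
  refine (Finset.sum_le_sum h2).trans ?_
  have h4 : ∑ U ∈ 𝒟, ρ ^ U.card * ((n : ℝ) * ∑ z, (gg Hg F ∅ U z) ^ 2) =
      (n : ℝ) * ∑ x, ∑ U ∈ 𝒟,
        ρ ^ U.card * EE Hg Finset.univ (fun z => (gg Hg F ∅ U z) ^ 2) x := by
    rw [Finset.sum_comm, Finset.mul_sum]
    refine Finset.sum_congr rfl fun U _ => ?_
    rw [← Finset.mul_sum]
    have : ∑ x, EE Hg Finset.univ (fun z => (gg Hg F ∅ U z) ^ 2) x =
        ∑ z, (gg Hg F ∅ U z) ^ 2 := by
      unfold EE
      exact sum_avg _ _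
    rw [this]
    ring
  rw [h4]
  have h5 : ∑ x, ∑ U ∈ 𝒟,
        ρ ^ U.card * EE Hg Finset.univ (fun z => (gg Hg F ∅ U z) ^ 2) x ≤
      (n : ℝ) * β := by
    calc _ ≤ ∑ x : ZMod n, β := Finset.sum_le_sum fun x _ => hlev x
      _ = (n : ℝ) * β := by
        rw [Finset.sum_const, nsmul_eq_mul, Finset.card_univ, ZMod.card]
  calc (n : ℝ) * _ ≤ (n : ℝ) * ((n : ℝ) * β) :=
        mul_le_mul_of_nonneg_left h5 (by (clear * -; positivity))
    _ = _ := by ring

end General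

section Concrete

variable (W : ℕ) (P : Finset ℕ)

/-- total modulus -/
def bigF : ℕ := W * ∏ p ∈ P, p

/-- coordinate subgroups -/
def HF (p : P) : AddSubgroup (ZMod (bigF W P)) :=
  AddSubgroup.zmultiples ((bigF W P / (p : ℕ) : ℕ) : ZMod (bigF W P))

variable {W P}

theorem prodF_pos (hP : ∀ p ∈ P, Nat.Prime p) (S : Finset P) : 0 < ∏ p ∈ S, (p : ℕ) :=
  Finset.prod_pos fun p _ => (hP p p.2).pos

theorem coprimeF (hP : ∀ p ∈ P, Nat.Prime p) {p : P} {V : Finset P} (h : p ∉ V) :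
    Nat.Coprime (p : ℕ) (∏ q ∈ V, (q : ℕ)) := by
  apply Nat.Coprime.prod_right
  intro q hq
  rw [Nat.coprime_primes (hP p p.2) (hP q q.2)]
  intro h'
  exact h (by rw [Subtype.ext h']; exact hq)

theorem bigF_eq (S : Finset P) :
    bigF W P = (W * ∏ p ∈ S, (p : ℕ)) * ∏ p ∈ Sᶜ, (p : ℕ) := by
  have h1 : bigF W P = W * ∏ p : P, (p : ℕ) := by
    unfold bigF
    congr 1
    exact (Finset.prod_coe_sort P (fun p => p)).symm
  rw [h1, mul_assoc, Finset.prod_mul_prod_compl]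

theorem prod_dvd_bigF (V : Finset P) : ∏ p ∈ V, (p : ℕ) ∣ bigF W P := by
  rw [bigF_eq V]
  exact Dvd.intro_left W rfl |>.mul_right _

theorem bigF_pos (hP : ∀ p ∈ P, Nat.Prime p) (hW : 1 ≤ W) : 0 < bigF W P := by
  rw [bigF_eq ∅]
  have := prodF_pos hP (∅ : Finset P)ᶜ
  simp only [Finset.prod_empty, mul_one]
  positivity

theorem sup_HF (hP : ∀ p ∈ P, Nat.Prime p) (V : Finset P) :
    V.sup (HF W P) = AddSubgroup.zmultiples ((bigF W P / ∏ p ∈ V, (p : ℕ) : ℕ) :
      ZMod (bigF W P)) := by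
  classical
  induction V using Finset.induction_on with
  | empty => simp only [sup_empty, prod_empty, Nat.div_one, CharP.cast_eq_zero, AddSubgroup.zmultiples_zero_eq_bot]
  | insert p V hp ih =>
    rw [Finset.sup_insert, ih, Finset.prod_insert hp]
    have hd : (p : ℕ) * ∏ q ∈ V, (q : ℕ) ∣ bigF W P := by
      rw [← Finset.prod_insert hp]
      exact prod_dvd_bigF _
    obtain ⟨c, hc⟩ := hd
    have h1 := (hP p p.2).pos
    have h2 := prodF_pos hP V
    have e1 : bigF W P / (p : ℕ) = (∏ q ∈ V, (q : ℕ)) * c := by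
      rw [hc, mul_assoc, Nat.mul_div_cancel_left _ h1]
    have e2 : bigF W P / (∏ q ∈ V, (q : ℕ)) = (p : ℕ) * c := by
      rw [hc, mul_comm (p : ℕ), mul_assoc, Nat.mul_div_cancel_left _ h2]
    have e3 : bigF W P / ((p : ℕ) * ∏ q ∈ V, (q : ℕ)) = c := by
      rw [hc, Nat.mul_div_cancel_left _ (Nat.mul_pos h1 h2)]
    unfold HF
    rw [e1, e2, e3, Nat.cast_mul, Nat.cast_mul, ← nsmul_eq_mul, ← nsmul_eq_mul]
    exact zmultiples_sup_coprime ((c : ℕ) : ZMod (bigF W P)) (coprimeF hP hp).symm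

theorem sup_HF_compl (hP : ∀ p ∈ P, Nat.Prime p) (S : Finset P) :
    (Sᶜ).sup (HF W P) = AddSubgroup.zmultiples
      ((W * ∏ p ∈ S, (p : ℕ) : ℕ) : ZMod (bigF W P)) := by
  rw [sup_HF hP]
  have h2 := prodF_pos hP Sᶜ
  congr 2
  rw [bigF_eq S, Nat.mul_div_cancel _ h2]

theorem modF_dvd (S : Finset P) : W * ∏ p ∈ S, (p : ℕ) ∣ bigF W P := by
  rw [bigF_eq S]
  exact Dvd.intro _ rfl

/-- normalised counting function of a finite set of integers -/
noncomputable def cfF (n N1 : ℕ) (B : Finset ℤ) (z : ZMod n) : ℝ :=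
  (n : ℝ) / N1 * ((B.filter (fun n' : ℤ => (n' : ZMod n) = z)).card : ℝ)

theorem avg_cfF {n d : ℕ} [NeZero n] (hdvd : d ∣ n) (N1 : ℕ) (B : Finset ℤ)
    (x : ZMod n) :
    avg (AddSubgroup.zmultiples ((d : ℕ) : ZMod n)) (cfF n N1 B) x =
      (d : ℝ) / N1 *
      ((B.filter (fun n' : ℤ => n' ≡ (x.val : ℤ) [ZMOD (d : ℕ)])).card : ℝ) := by
  classical
  have hP : 0 < n := Nat.pos_of_ne_zero (NeZero.ne _)
  have hd0 : 0 < d := Nat.pos_of_dvd_of_pos hdvd hP
  unfold avg
  rw [card_zmultiples_dvd hdvd]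
  have h1 : ∀ h : ZMod n,
      (if h ∈ AddSubgroup.zmultiples ((d : ℕ) : ZMod n) then cfF n N1 B (x + h) else 0)
      = (n : ℝ) / N1 * ∑ n' ∈ B, if h ∈ AddSubgroup.zmultiples ((d : ℕ) : ZMod n) ∧
        (n' : ZMod n) - x = h then (1 : ℝ) else 0 := by
    intro h
    by_cases hh : h ∈ AddSubgroup.zmultiples ((d : ℕ) : ZMod n)
    · simp only [hh, if_true, true_and]
      unfold cfF
      rw [Finset.card_filter]
      push_cast
      congr 1
      refine Finset.sum_congr rfl fun n' _ => ?_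
      have : ((n' : ZMod n) = x + h) ↔ ((n' : ZMod n) - x = h) := by
        rw [sub_eq_iff_eq_add']
      simp only [this]
    · simp [hh]
  simp_rw [h1]
  rw [← Finset.mul_sum, Finset.sum_comm]
  have h2 : ∀ n' : ℤ, (∑ h : ZMod n,
      if h ∈ AddSubgroup.zmultiples ((d : ℕ) : ZMod n) ∧
        (n' : ZMod n) - x = h then (1 : ℝ) else 0) =
      if n' ≡ (x.val : ℤ) [ZMOD (d : ℕ)] then (1 : ℝ) else 0 := by
    intro n'
    have h3 : ((n' : ZMod n) - x ∈
        AddSubgroup.zmultiples ((d : ℕ) : ZMod n)) ↔ n' ≡ (x.val : ℤ) [ZMOD (d : ℕ)] := by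
      have h4 : (n' : ZMod n) - x = ((n' - x.val : ℤ) : ZMod n) := by
        push_cast
        rw [ZMod.natCast_zmod_val]
      rw [h4, intCast_mem_zmultiples hdvd, Int.modEq_comm, Int.modEq_iff_dvd]
    by_cases hm : (n' : ZMod n) - x ∈
        AddSubgroup.zmultiples ((d : ℕ) : ZMod n)
    · rw [if_pos (h3.1 hm)]
      rw [Finset.sum_eq_single ((n' : ZMod n) - x)]
      · simp [hm]
      · intro b _ hb
        rw [if_neg]
        rintro ⟨_, h5⟩
        exact hb h5.symm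
      · simp
    · rw [if_neg (fun h => hm (h3.2 h))]
      apply Finset.sum_eq_zero
      intro b _
      rw [if_neg]
      rintro ⟨h5, h6⟩
      rw [h6] at hm
      exact hm h5
  simp_rw [h2]
  rw [← Finset.sum_filter, Finset.sum_const, nsmul_eq_mul, mul_one]
  have hd0' : (d : ℝ) ≠ 0 := by exact_mod_cast hd0.ne'
  have hP' : (n : ℝ) ≠ 0 := by exact_mod_cast hP.ne'
  rw [Nat.cast_div hdvd hd0']
  by_cases hN : (N1 : ℝ) = 0
  · simp only [hN, div_zero, ZMod.natCast_val, zero_mul, zero_div]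
  · field_simp

theorem EE_cfF [NeZero (bigF W P)] (hP : ∀ p ∈ P, Nat.Prime p) (N1 : ℕ) (B : Finset ℤ)
    (S : Finset P) (x : ZMod (bigF W P)) :
    EE (HF W P) Sᶜ (cfF (bigF W P) N1 B) x =
      ((W * ∏ p ∈ S, (p : ℕ) : ℕ) : ℝ) / N1 *
      ((B.filter (fun n : ℤ => n ≡ (x.val : ℤ)
        [ZMOD (W * ∏ p ∈ S, (p : ℕ) : ℕ)])).card : ℝ) := by
  unfold EE
  rw [sup_HF_compl hP, avg_cfF (modF_dvd S)]

/-- `q` is good: its prime powers divide `W` or are single primes from `P` -/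
def good (P : Finset ℕ) (W q : ℕ) : Prop :=
  ∀ p ∈ q.primeFactors, p ^ q.factorization p ∣ W ∨ (p ∈ P ∧ q.factorization p = 1)

instance (P : Finset ℕ) (W : ℕ) : DecidablePred (good P W) := fun q => by
  unfold good; infer_instance

theorem good_dvd (hP : ∀ p ∈ P, Nat.Prime p) (hW : 1 ≤ W) {q : ℕ} (hq1 : 1 ≤ q)
    (hg : good P W q) : q ∣ bigF W P := by
  have hn := bigF_pos hP hW
  rw [← Nat.factorization_prime_le_iff_dvd (by omega) (by omega)]
  intro p hp
  by_cases hpq : p ∈ q.primeFactors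
  · rw [← hp.pow_dvd_iff_le_factorization (by omega)]
    rcases hg p hpq with h | ⟨h, h'⟩
    · exact h.trans (Dvd.intro _ rfl)
    · rw [h', pow_one]
      exact (Finset.dvd_prod_of_mem (fun p => p) h).trans (Dvd.intro_left _ rfl)
  · rw [← Nat.support_factorization, Finsupp.mem_support_iff, not_not] at hpq
    rw [hpq]
    exact Nat.zero_le _

theorem fact_bigF (hP : ∀ p ∈ P, Nat.Prime p) (hW : 1 ≤ W) (p : P) :
    (bigF W P).factorization p = W.factorization p + 1 := by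
  have h1 : bigF W P = (W * (p : ℕ)) * ∏ r ∈ ({p} : Finset P)ᶜ, (r : ℕ) := by
    have := bigF_eq (W := W) ({p} : Finset P)
    simpa only [prod_singleton] using this
  have hpp := hP p p.2
  have hR : 0 < ∏ r ∈ ({p} : Finset P)ᶜ, (r : ℕ) := prodF_pos hP _
  have hco : Nat.Coprime (p : ℕ) (∏ r ∈ ({p} : Finset P)ᶜ, (r : ℕ)) :=
    coprimeF hP (by simp)
  rw [h1, Nat.factorization_mul (Nat.mul_pos (by omega) hpp.pos).ne' hR.ne',
    Nat.factorization_mul (by omega) hpp.pos.ne']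
  simp only [Finsupp.coe_add, Pi.add_apply]
  rw [hpp.factorization_self, Nat.factorization_eq_zero_of_not_dvd
    ((Nat.Prime.coprime_iff_not_dvd hpp).1 hco), add_zero]

theorem TG_iff [NeZero (bigF W P)] (hP : ∀ p ∈ P, Nat.Prime p) (hW : 1 ≤ W) {q a : ℕ}
    (hq1 : 1 ≤ q) (hg : good P W q) (hco : Nat.Coprime q a) (p : P) :
    TG (HF W P) ((a * (bigF W P / q) : ℕ) : ZMod (bigF W P)) p ↔
      ¬ ((p : ℕ) ∈ q.primeFactors ∧ ¬ (p : ℕ) ^ q.factorization p ∣ W) := by
  have hPpos := bigF_pos hP hW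
  have hpp := hP p p.2
  have hqd := good_dvd hP hW hq1 hg
  have hpd : (p : ℕ) ∣ bigF W P :=
    (Finset.dvd_prod_of_mem (fun p => p) p.2).trans (Dvd.intro_left _ rfl)
  have step1 : TG (HF W P) ((a * (bigF W P / q) : ℕ) : ZMod (bigF W P)) p ↔
      (p : ℕ) ∣ a * (bigF W P / q) := by
    have h0 : (ZMod.stdAddChar (0 : ZMod (bigF W P)) : ℂ) = 1 := AddChar.map_zero_eq_one _
    obtain ⟨c, hc⟩ := hpd
    have hc0 : 0 < c := by
      rcases Nat.eq_zero_or_pos c with h | h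
      · rw [h, mul_zero] at hc; omega
      · exact h
    have e1 : bigF W P / (p : ℕ) = c := by
      rw [hc, Nat.mul_div_cancel_left _ hpp.pos]
    have h2 : (p : ℕ) ∣ a * (bigF W P / q) ↔
        ((c * (a * (bigF W P / q)) : ℕ) : ZMod (bigF W P)) = 0 := by
      rw [ZMod.natCast_eq_zero_iff]
      generalize a * (bigF W P / q) = X
      rw [hc, mul_comm (p : ℕ) c]
      exact (Nat.mul_dvd_mul_iff_left hc0).symm
    rw [h2]
    unfold TG HF
    rw [e1]
    constructor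
    · intro h
      have h3 := h ((c : ℕ) : ZMod (bigF W P)) (AddSubgroup.mem_zmultiples _)
      rw [← h0, (ZMod.injective_stdAddChar).eq_iff] at h3
      rw [Nat.cast_mul]
      exact h3
    · intro h z hz
      obtain ⟨k, rfl⟩ := AddSubgroup.mem_zmultiples_iff.1 hz
      rw [smul_mul_assoc, ← Nat.cast_mul, h, smul_zero]
      exact h0
  rw [step1]
  have hq0 : q ≠ 0 := by omega
  by_cases hpq : (p : ℕ) ∣ q
  · have hmem : (p : ℕ) ∈ q.primeFactors := by
      rw [Nat.mem_primeFactors]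
      exact ⟨hpp, hpq, hq0⟩
    simp only [hmem, true_and, not_not]
    have hpa : Nat.Coprime (p : ℕ) a := Nat.Coprime.coprime_dvd_left hpq hco
    rw [hpa.dvd_mul_left]
    have h1 : 0 < bigF W P / q := Nat.div_pos (Nat.le_of_dvd hPpos hqd) (by omega)
    rw [hpp.dvd_iff_one_le_factorization h1.ne', Nat.factorization_div hqd,
      Finsupp.tsub_apply, fact_bigF hP hW, hpp.pow_dvd_iff_le_factorization (by omega)]
    omega
  · have hmem : ¬ (p : ℕ) ∈ q.primeFactors := by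
      rw [Nat.mem_primeFactors]
      exact fun h => hpq h.2.1
    simp only [hmem, false_and, not_false_eq_true, iff_true]
    apply Dvd.dvd.mul_left
    have hcop : Nat.Coprime (p : ℕ) q := (Nat.Prime.coprime_iff_not_dvd hpp).2 hpq
    obtain ⟨c, hc⟩ := hqd
    rw [hc, Nat.mul_div_cancel_left _ (by omega)]
    rw [hc] at hpd
    exact Nat.Coprime.dvd_of_dvd_mul_left hcop hpd

open Classical in
/-- coordinates on which `ξ` is nontrivial -/
noncomputable def UfF [NeZero (bigF W P)] (ξ : ZMod (bigF W P)) : Finset P :=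
  Finset.univ.filter (fun p => ¬ TG (HF W P) ξ p)

theorem map_UfF [NeZero (bigF W P)] (hP : ∀ p ∈ P, Nat.Prime p) (hW : 1 ≤ W) {q a : ℕ}
    (hq1 : 1 ≤ q) (hg : good P W q) (hco : Nat.Coprime q a) :
    (UfF ((a * (bigF W P / q) : ℕ) : ZMod (bigF W P))).map (Function.Embedding.subtype _) =
      q.primeFactors.filter (fun p => ¬ p ^ q.factorization p ∣ W) := by
  classical
  ext r
  simp only [Finset.mem_map, UfF, Finset.mem_filter, Finset.mem_univ, true_and,
    Function.Embedding.coe_subtype, Subtype.exists, exists_and_right, exists_eq_right]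
  constructor
  · rintro ⟨hr, h⟩
    rw [TG_iff hP hW hq1 hg hco, not_not] at h
    exact h
  · rintro ⟨h1, h2⟩
    have hr : r ∈ P := by
      rcases hg r h1 with h | h
      · exact absurd h h2
      · exact h.1
    refine ⟨hr, ?_⟩
    rw [TG_iff hP hW hq1 hg hco, not_not]
    exact ⟨h1, h2⟩

theorem card_UfF [NeZero (bigF W P)] (hP : ∀ p ∈ P, Nat.Prime p) (hW : 1 ≤ W) {q a : ℕ}
    (hq1 : 1 ≤ q) (hg : good P W q) (hco : Nat.Coprime q a) :
    (UfF ((a * (bigF W P / q) : ℕ) : ZMod (bigF W P))).card = sW W q := by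
  unfold sW
  rw [← Finset.card_map (Function.Embedding.subtype _), map_UfF hP hW hq1 hg hco]

theorem prod_UfF [NeZero (bigF W P)] (hP : ∀ p ∈ P, Nat.Prime p) (hW : 1 ≤ W) {q a : ℕ}
    (hq1 : 1 ≤ q) (hg : good P W q) (hco : Nat.Coprime q a) :
    ∏ p ∈ UfF ((a * (bigF W P / q) : ℕ) : ZMod (bigF W P)), (p : ℕ) ≤ q := by
  have h1 : ∏ p ∈ UfF ((a * (bigF W P / q) : ℕ) : ZMod (bigF W P)), (p : ℕ) =
      ∏ p ∈ q.primeFactors.filter (fun p => ¬ p ^ q.factorization p ∣ W), p := by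
    rw [← map_UfF hP hW hq1 hg hco, Finset.prod_map]
    rfl
  rw [h1]
  apply Nat.le_of_dvd (by omega)
  refine dvd_trans ?_ (Nat.prod_primeFactors_dvd q)
  exact Finset.prod_dvd_prod_of_subset _ _ _ (Finset.filter_subset _ _)

theorem ftz_cfF {n : ℕ} [NeZero n] (N1 : ℕ) (B : Finset ℤ) {q a : ℕ} (hq1 : 1 ≤ q)
    (hqn : q ∣ n) :
    ftz (fun z => (cfF n N1 B z : ℂ)) ((a * (n / q) : ℕ) : ZMod n) =
      ((n : ℝ) / N1 : ℝ) * ∑ x ∈ B, e (-(x * a / q)) := by
  classical
  have hP : 0 < n := Nat.pos_of_ne_zero (NeZero.ne _)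
  set ξ : ZMod n := ((a * (n / q) : ℕ) : ZMod n) with hξ
  have h1 : ftz (fun z => (cfF n N1 B z : ℂ)) ξ =
      ((n : ℝ) / N1 : ℝ) * ∑ x ∈ B, (ZMod.stdAddChar (-((x : ZMod n) * ξ)) : ℂ) := by
    unfold ftz cfF
    have h2 : ∀ z : ZMod n, ((((n : ℝ) / N1 *
        ((B.filter (fun x : ℤ => (x : ZMod n) = z)).card : ℝ) : ℝ)) : ℂ) *
        ZMod.stdAddChar (-(z * ξ)) = ((n : ℝ) / N1 : ℝ) *
          ∑ x ∈ B, if (x : ZMod n) = z then
            (ZMod.stdAddChar (-((x : ZMod n) * ξ)) : ℂ) else 0 := by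
      intro z
      rw [← Finset.sum_filter]
      rw [Finset.sum_congr rfl (g := fun _ => (ZMod.stdAddChar (-(z * ξ)) : ℂ))]
      · rw [Finset.sum_const, nsmul_eq_mul]
        push_cast
        ring
      · intro x hx
        rw [(Finset.mem_filter.1 hx).2]
    simp_rw [h2]
    rw [← Finset.mul_sum, Finset.sum_comm]
    congr 1
    refine Finset.sum_congr rfl fun x _ => ?_
    simp only [sum_ite_eq, mem_univ, ↓reduceIte]
  rw [h1]
  congr 1
  refine Finset.sum_congr rfl fun x _ => ?_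
  have h3 : (-((x : ZMod n) * ξ)) =
      ((-(x * (a * ((n / q : ℕ) : ℤ))) : ℤ) : ZMod n) := by
    rw [hξ]
    simp only [Int.cast_neg, Int.cast_mul, Int.cast_natCast, Nat.cast_mul]
  rw [h3, ZMod.stdAddChar_coe, e]
  congr 1
  obtain ⟨c, hc⟩ : q ∣ n := hqn
  have hq0 : (q : ℂ) ≠ 0 := by
    have : q ≠ 0 := by omega
    exact_mod_cast this
  have hc' : n / q = c := by
    rw [hc, Nat.mul_div_cancel_left _ (by omega)]
  have hc0 : (c : ℂ) ≠ 0 := by
    intro h
    have : c = 0 := by exact_mod_cast h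
    rw [this, mul_zero] at hc
    omega
  have hPc : (n : ℂ) = q * c := by
    rw [hc]; push_cast; rfl
  rw [hc', hPc]
  push_cast
  field_simp

/-- the family of sets of primes with bounded product -/
def famQ (P : Finset ℕ) (Q : ℕ) : Finset (Finset P) :=
  Finset.univ.filter (fun S => ∏ p ∈ S, (p : ℕ) ≤ Q)

theorem card_famQ (hP : ∀ p ∈ P, Nat.Prime p) (Q : ℕ) : (famQ P Q).card ≤ Q := by
  classical
  have h1 : (famQ P Q).card ≤ (Finset.Icc 1 Q).card := by
    apply Finset.card_le_card_of_injOn (fun S : Finset P => ∏ p ∈ S, (p : ℕ))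
    · intro S hS
      simp only [famQ, Finset.coe_filter, Finset.mem_univ, true_and, Set.mem_ofPred_eq] at hS
      simp only [Finset.coe_Icc, Set.mem_Icc]
      exact ⟨prodF_pos hP S, hS⟩
    · intro S _ S' _ h
      have key : ∀ S : Finset P, (∏ p ∈ S, (p : ℕ)).primeFactors =
          S.map (Function.Embedding.subtype _) := by
        intro S
        have : ∏ p ∈ S, (p : ℕ) = ∏ p ∈ S.map (Function.Embedding.subtype _), p := by
          rw [Finset.prod_map]; rfl
        rw [this]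
        apply Nat.primeFactors_prod
        intro p hp
        rw [Finset.mem_map] at hp
        obtain ⟨r, _, rfl⟩ := hp
        exact hP r r.2
      have h2 := congrArg Nat.primeFactors h
      simp only at h2
      rw [key, key] at h2
      exact Finset.map_injective _ h2
  simpa only [ge_iff_le, Nat.card_Icc, add_tsub_cancel_right] using h1

/-- The concrete level inequality from the abstract one. -/
theorem level_ineq_fam_aux (P : Finset ℕ) (hP : ∀ p ∈ P, Nat.Prime p) (W Q m N1 : ℕ)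
    (β ρ : ℝ) (A : Finset ℤ) (y : ℤ)
    (hQ : 1 ≤ Q) (hW : 1 ≤ W) (hρ : 0 ≤ ρ)
    (hN1 : W * Q ^ (4 * m + 1) ≤ N1)
    (hNI : ∀ S ⊆ P, ∏ p ∈ S, p ≤ Q → ∀ x : ℤ,
      ((A.filter (fun n => y < n ∧ n ≤ y + N1 ∧
        n ≡ x [ZMOD (W * ∏ p ∈ S, p : ℕ)])).card : ℝ) ≤
        2 ^ S.card * β * (N1 / (W * ∏ p ∈ S, p : ℕ)))
    (habs : ∀ [NeZero (bigF W P)] (F ν : ZMod (bigF W P) → ℝ) (ε : ℝ),
      (∀ x, 0 ≤ F x) → (∀ x, F x ≤ ν x) →
      (∀ S ∈ famQ P Q, ∀ x, EE (HF W P) Sᶜ F x ≤ 2 ^ S.card * β) →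
      (∀ t : Fin (2 * m + 1) → Finset P, (∀ i, t i ∈ famQ P Q) → ∀ x,
        |EE (HF W P) (Finset.univ.sup t)ᶜ ν x - 1| ≤ ε) →
      ε * ((famQ P Q).card : ℝ) ^ (2 * m) ≤ 1 →
      ∀ x, ∑ U ∈ famQ P Q, ρ ^ U.card *
          EE (HF W P) Finset.univ (fun z => (gg (HF W P) F ∅ U z) ^ 2) x ≤ 36 * β ^ 2) :
    ∑ q ∈ (Finset.Icc 1 Q).filter (good P W), ∑ a ∈ (Finset.range q).filter (Nat.Coprime q),
      ρ ^ (sW W q) *
        (‖∑ x ∈ A.filter (fun n => y < n ∧ n ≤ y + N1), e (-(x * a / q))‖ ^ 2 / (N1 : ℝ) ^ 2)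
      ≤ 36 * β ^ 2 := by
  classical
  have hPpos : 0 < bigF W P := bigF_pos hP hW
  have : NeZero (bigF W P) := ⟨hPpos.ne'⟩
  have hN1pos : 0 < N1 := by
    have : 0 < W * Q ^ (4 * m + 1) := by positivity
    omega
  have hN1r : (0 : ℝ) < N1 := by exact_mod_cast hN1pos
  have hPr : (0 : ℝ) < bigF W P := by exact_mod_cast hPpos
  set A' := A.filter (fun n => y < n ∧ n ≤ y + N1) with hA'
  set J := Finset.Ioc y (y + N1) with hJ
  have hmodpos : ∀ S : Finset P, 0 < W * ∏ p ∈ S, (p : ℕ) := fun S =>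
    Nat.mul_pos (by omega) (prodF_pos hP S)
  have hlev := habs (cfF (bigF W P) N1 A') (cfF (bigF W P) N1 J)
    ((W : ℝ) * (Q : ℝ) ^ (2 * m + 1) / N1)
    (by
      intro x
      unfold cfF
      (clear * - hPpos hN1pos; positivity))
    (by
      intro x
      unfold cfF
      apply mul_le_mul_of_nonneg_left _ (by positivity)
      have : (A'.filter (fun n : ℤ => (n : ZMod (bigF W P)) = x)).card ≤
          (J.filter (fun n : ℤ => (n : ZMod (bigF W P)) = x)).card := by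
        apply Finset.card_le_card
        apply Finset.filter_subset_filter
        intro n hn
        rw [hA', Finset.mem_filter] at hn
        rw [hJ, Finset.mem_Ioc]
        exact hn.2
      exact_mod_cast this)
    (by
      intro S hS x
      rw [EE_cfF hP]
      have hmap : ∏ p ∈ S.map (Function.Embedding.subtype _), p = ∏ p ∈ S, (p : ℕ) := by
        rw [Finset.prod_map]; rfl
      have h1 := hNI (S.map (Function.Embedding.subtype _))
        (by
          intro p hp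
          rw [Finset.mem_map] at hp
          obtain ⟨r, _, rfl⟩ := hp
          exact r.2)
        (by
          rw [hmap]
          exact (Finset.mem_filter.1 hS).2) (x.val : ℤ)
      rw [Finset.card_map, hmap] at h1
      have h2 : (A'.filter (fun n : ℤ => n ≡ (x.val : ℤ)
          [ZMOD (W * ∏ p ∈ S, (p : ℕ) : ℕ)])) =
          (A.filter (fun n => y < n ∧ n ≤ y + N1 ∧
            n ≡ (x.val : ℤ) [ZMOD (W * ∏ p ∈ S, (p : ℕ) : ℕ)])) := by
        rw [hA', Finset.filter_filter]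
        congr 1
        ext n
        (clear * -; tauto)
      rw [h2]
      have hmr : (0 : ℝ) < (W * ∏ p ∈ S, (p : ℕ) : ℕ) := by
        exact_mod_cast hmodpos S
      calc _ ≤ ((W * ∏ p ∈ S, (p : ℕ) : ℕ) : ℝ) / N1 *
            (2 ^ S.card * β * (N1 / (W * ∏ p ∈ S, (p : ℕ) : ℕ))) :=
            mul_le_mul_of_nonneg_left h1 (by (clear * - hmr hN1pos; positivity))
        _ = 2 ^ S.card * β := by (clear * - hmr hN1pos; field_simp))
    (by
      intro t ht x
      rw [EE_cfF hP]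
      set d := W * ∏ p ∈ Finset.univ.sup t, (p : ℕ) with hd
      have hdpos : 0 < d := hmodpos _
      have hdr : (0 : ℝ) < d := by exact_mod_cast hdpos
      have hdle : (d : ℝ) ≤ (W : ℝ) * (Q : ℝ) ^ (2 * m + 1) := by
        have h3 : d ≤ W * Q ^ (2 * m + 1) := by
          rw [hd]
          apply Nat.mul_le_mul_left
          have h31 : ∏ p ∈ Finset.univ.sup t, (p : ℕ) ≤ ∏ i, ∏ p ∈ t i, (p : ℕ) := by
            have h32 : ∀ I : Finset (Fin (2 * m + 1)),
                ∏ p ∈ I.sup t, (p : ℕ) ≤ ∏ i ∈ I, ∏ p ∈ t i, (p : ℕ) := by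
              intro I
              induction I using Finset.induction_on with
              | empty => simp only [sup_empty, bot_eq_empty, prod_empty, Std.le_refl]
              | insert i I hi ih =>
                rw [Finset.sup_insert, Finset.prod_insert hi]
                refine le_trans ?_ (Nat.mul_le_mul_left _ ih)
                have h33 : (∏ p ∈ t i ∪ I.sup t, (p : ℕ)) * ∏ p ∈ t i ∩ I.sup t, (p : ℕ) =
                    (∏ p ∈ t i, (p : ℕ)) * ∏ p ∈ I.sup t, (p : ℕ) :=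
                  Finset.prod_union_inter
                have h34 := prodF_pos hP (t i ∩ I.sup t)
                calc ∏ p ∈ t i ⊔ I.sup t, (p : ℕ) = (∏ p ∈ t i ∪ I.sup t, (p : ℕ)) * 1 := by
                      rw [mul_one]; rfl
                  _ ≤ (∏ p ∈ t i ∪ I.sup t, (p : ℕ)) * ∏ p ∈ t i ∩ I.sup t, (p : ℕ) :=
                      Nat.mul_le_mul_left _ h34
                  _ = _ := h33
            exact h32 _
          calc ∏ p ∈ Finset.univ.sup t, (p : ℕ) ≤ ∏ i, ∏ p ∈ t i, (p : ℕ) := h31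
            _ ≤ ∏ _i : Fin (2 * m + 1), Q := Finset.prod_le_prod' fun i _ =>
                (Finset.mem_filter.1 (ht i)).2
            _ = Q ^ (2 * m + 1) := by simp only [prod_const, card_univ, Fintype.card_fin]
        exact_mod_cast h3
      have h5 := count_mod (N1 := N1) hdpos y (x.val : ℤ)
      rw [← hJ] at h5
      set cnt := (((J.filter (fun n : ℤ => n ≡ (x.val : ℤ) [ZMOD (d : ℕ)])).card : ℕ) : ℝ)
      have h6 : (d : ℝ) / N1 * cnt - 1 = (d : ℝ) / N1 * (cnt - (N1 : ℝ) / d) := by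
        (clear * - hN1pos hdpos; field_simp)
      rw [h6, abs_mul, abs_of_nonneg (by (clear * - hdpos hN1pos; positivity) : (0 : ℝ) ≤ (d : ℝ) / N1)]
      calc (d : ℝ) / N1 * |cnt - (N1 : ℝ) / d| ≤ (d : ℝ) / N1 * 1 :=
            mul_le_mul_of_nonneg_left h5 (by (clear * - hdpos hN1pos; positivity))
        _ = (d : ℝ) / N1 := mul_one _
        _ ≤ _ := by (clear * - hdle hN1pos; gcongr))
    (by
      have hcard : ((famQ P Q).card : ℝ) ≤ Q := by exact_mod_cast card_famQ hP Q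
      rw [div_mul_eq_mul_div, div_le_one hN1r]
      calc (W : ℝ) * (Q : ℝ) ^ (2 * m + 1) * ((famQ P Q).card : ℝ) ^ (2 * m)
          ≤ (W : ℝ) * (Q : ℝ) ^ (2 * m + 1) * (Q : ℝ) ^ (2 * m) := by (clear * - hcard hW hQ; gcongr)
        _ = (W : ℝ) * (Q : ℝ) ^ (4 * m + 1) := by
            rw [mul_assoc, ← pow_add]
            congr 2
            ring
        _ ≤ N1 := by exact_mod_cast hN1)
  -- the frequencies
  let T : Finset (Σ _ : ℕ, ℕ) :=
    ((Finset.Icc 1 Q).filter (good P W)).sigma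
      (fun q => (Finset.range q).filter (Nat.Coprime q))
  let ξf : (Σ _ : ℕ, ℕ) → ZMod (bigF W P) := fun t =>
    ((t.2 * (bigF W P / t.1) : ℕ) : ZMod (bigF W P))
  have hT : ∀ t ∈ T, 1 ≤ t.1 ∧ t.1 ≤ Q ∧ t.2 < t.1 ∧ Nat.Coprime t.1 t.2 ∧
      good P W t.1 := by
    intro t ht
    simp only [T, Finset.mem_sigma, Finset.mem_Icc, Finset.mem_filter, Finset.mem_range] at ht
    exact ⟨ht.1.1.1, ht.1.1.2, ht.2.1, ht.2.2, ht.1.2⟩
  have hinj : Set.InjOn ξf T := by
    intro t ht t' ht' heq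
    have h1 := hT t ht
    have h2 := hT t' ht'
    obtain ⟨c, hc⟩ : t.1 ∣ bigF W P := good_dvd hP hW h1.1 h1.2.2.2.2
    obtain ⟨c', hc'⟩ : t'.1 ∣ bigF W P := good_dvd hP hW h2.1 h2.2.2.2.2
    have e1 : bigF W P / t.1 = c := by rw [hc, Nat.mul_div_cancel_left _ (by omega)]
    have e2 : bigF W P / t'.1 = c' := by rw [hc', Nat.mul_div_cancel_left _ (by omega)]
    have hc0 : 0 < c := by
      rcases Nat.eq_zero_or_pos c with h | h
      · rw [h, mul_zero] at hc; omega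
      · exact h
    have hc0' : 0 < c' := by
      rcases Nat.eq_zero_or_pos c' with h | h
      · rw [h, mul_zero] at hc'; omega
      · exact h
    simp only [ξf] at heq
    rw [e1, e2, ZMod.natCast_eq_natCast_iff'] at heq
    have l1 : t.2 * c < bigF W P := by
      rw [hc]; exact Nat.mul_lt_mul_of_pos_right h1.2.2.1 hc0
    have l2 : t'.2 * c' < bigF W P := by
      rw [hc']; exact Nat.mul_lt_mul_of_pos_right h2.2.2.1 hc0'
    rw [Nat.mod_eq_of_lt l1, Nat.mod_eq_of_lt l2] at heq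
    -- t.2 * c = t'.2 * c', t.1 * c = t'.1 * c'
    have h3 : t.2 * t'.1 = t'.2 * t.1 := by
      have h4 : t.1 * c = t'.1 * c' := by rw [← hc, ← hc']
      have h5 : (t.2 * t'.1) * (c * c') = (t'.2 * t.1) * (c * c') := by
        calc (t.2 * t'.1) * (c * c') = (t.2 * c) * (t'.1 * c') := by ring
          _ = (t'.2 * c') * (t.1 * c) := by rw [heq, h4]
          _ = (t'.2 * t.1) * (c * c') := by ring
      exact Nat.eq_of_mul_eq_mul_right (Nat.mul_pos hc0 hc0') h5
    have h6 : t.1 ∣ t'.1 := by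
      have : t.1 ∣ t.2 * t'.1 := by rw [h3]; exact Dvd.intro_left _ rfl
      exact h1.2.2.2.1.dvd_of_dvd_mul_left this
    have h7 : t'.1 ∣ t.1 := by
      have : t'.1 ∣ t'.2 * t.1 := by rw [← h3]; exact Dvd.intro_left _ rfl
      exact h2.2.2.2.1.dvd_of_dvd_mul_left this
    have h8 : t.1 = t'.1 := Nat.dvd_antisymm h6 h7
    have h9 : t.2 = t'.2 := by
      rw [h8] at h3
      exact Nat.eq_of_mul_eq_mul_right (by omega) h3
    rcases t with ⟨t1, t2⟩
    rcases t' with ⟨t1', t2'⟩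
    simp only at h8 h9
    rw [h8, h9]
  have hbes := bessel_g (HF W P) (cfF (bigF W P) N1 A') (famQ P Q) ρ (36 * β ^ 2)
    (T.image ξf) UfF (by
      intro ξ _ p
      simp only [UfF, univ_eq_attach, mem_filter, mem_attach, true_and])
    (by
      intro ξ hξ
      rw [Finset.mem_image] at hξ
      obtain ⟨t, ht, rfl⟩ := hξ
      have h1 := hT t ht
      simp only [ξf, famQ, Finset.mem_filter, Finset.mem_univ, true_and]
      exact (prod_UfF hP hW h1.1 h1.2.2.2.2 h1.2.2.2.1).trans h1.2.1)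
    hρ hlev
  rw [Finset.sum_image hinj] at hbes
  have hsum : ∑ q ∈ (Finset.Icc 1 Q).filter (good P W),
      ∑ a ∈ (Finset.range q).filter (Nat.Coprime q),
      ρ ^ (sW W q) *
        (‖∑ x ∈ A', e (-(x * a / q))‖ ^ 2 / (N1 : ℝ) ^ 2) =
      ∑ t ∈ T, ρ ^ (sW W t.1) *
        (‖∑ x ∈ A', e (-(x * t.2 / t.1))‖ ^ 2 / (N1 : ℝ) ^ 2) := by
    simp only [T]
    rw [Finset.sum_sigma]
  rw [hsum]
  have hterm : ∀ t ∈ T, ρ ^ (sW W t.1) *
        (‖∑ x ∈ A', e (-(x * t.2 / t.1))‖ ^ 2 / (N1 : ℝ) ^ 2) =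
      ((bigF W P : ℝ) ^ 2)⁻¹ * (ρ ^ (UfF (ξf t)).card *
        ‖ftz (fun z => (cfF (bigF W P) N1 A' z : ℂ)) (ξf t)‖ ^ 2) := by
    intro t ht
    have h1 := hT t ht
    simp only [ξf]
    rw [card_UfF hP hW h1.1 h1.2.2.2.2 h1.2.2.2.1,
      ftz_cfF N1 A' h1.1 (good_dvd hP hW h1.1 h1.2.2.2.2), norm_mul, Complex.norm_real,
      Real.norm_eq_abs, abs_of_nonneg (by positivity), mul_pow, div_pow]
    generalize ‖∑ x ∈ A', e (-(x * t.2 / t.1))‖ = Z
    (clear * - hPpos hN1pos; field_simp)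
  rw [Finset.sum_congr rfl hterm, ← Finset.mul_sum]
  calc ((bigF W P : ℝ) ^ 2)⁻¹ * _ ≤ ((bigF W P : ℝ) ^ 2)⁻¹ *
        ((bigF W P : ℝ) ^ 2 * (36 * β ^ 2)) :=
        mul_le_mul_of_nonneg_left hbes (by positivity)
    _ = 36 * β ^ 2 := by field_simp

end Concrete

end Vale.Agent.P042
end
end
end

section

section

section

/-!
One-variable moment inequality used in the tensorised hypercontractive estimate.
-/

namespace Vale.Agent.P042

open Finset

lemma add_pow_ge (M : ℕ) (hM : 1 ≤ M) (P Q : ℝ) (hP : 0 ≤ P) (hQ : 0 ≤ Q) :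
    P ^ M + M * (P ^ (M - 1) * Q) ≤ (P + Q) ^ M := by
  induction M, hM using Nat.le_induction with
  | base => simp only [pow_one, Nat.cast_one, tsub_self, pow_zero, one_mul, Std.le_refl]
  | succ n hn ih =>
    have h1 : P ^ (n + 1 - 1) = P ^ (n - 1) * P := by
      rw [← pow_succ]; congr 1; (clear * - hn; omega)
    have h2 : P ^ n = P ^ (n - 1) * P := by
      rw [← pow_succ]; congr 1; omega
    have h3 : (P + Q) ^ (n + 1) = (P + Q) ^ n * (P + Q) := pow_succ _ _
    have h4 : 0 ≤ P ^ (n - 1) := by (clear * - hP; positivity)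
    have h5 : (P ^ n + n * (P ^ (n - 1) * Q)) * (P + Q) ≤ (P + Q) ^ n * (P + Q) :=
      mul_le_mul_of_nonneg_right ih (by linarith only [hP, hQ])
    rw [h3]
    refine le_trans ?_ h5
    rw [h1, pow_succ, h2]
    push_cast
    have : 0 ≤ (n : ℝ) * (P ^ (n - 1) * Q) * Q := by (clear * - hn hP hQ; positivity)
    nlinarith only [this]

end Vale.Agent.P042
end
end
end

section

section

section

/-!
Sharper one-variable moment inequality, with noise of size `1 / (2 √M)`.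
-/

namespace Vale.Agent.P042.Sharp

open Finset Vale.Agent.P042

lemma scalar_ineq (M : ℕ) (hM : 1 ≤ M) (w : ℝ) :
    (1 + w / (2 * M)) ^ (2 * M) ≤ 1 + w + w ^ 2 + 4 ^ M * w ^ (2 * M) := by
  have hM' : (1 : ℝ) ≤ M := by exact_mod_cast hM
  have hn : (0 : ℝ) < 2 * M := by linarith only [hM']
  have hev : Even (2 * M) := even_two_mul M
  have htn : 0 ≤ w ^ (2 * M) := hev.pow_nonneg w
  have h4 : (0 : ℝ) ≤ 4 ^ M * w ^ (2 * M) := by positivity
  rcases le_or_gt |w| 1 with h | h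
  · have h0 : 0 ≤ 1 + w / (2 * M) := by
      have : -1 ≤ w / (2 * M) := by
        rw [le_div_iff₀ hn]; linarith only [hM', (abs_le.mp h).1]
      linarith only [this]
    have h1 : 1 + w / (2 * M) ≤ Real.exp (w / (2 * M)) := by
      have := Real.add_one_le_exp (w / (2 * M))
      linarith only [this]
    have h2 : (1 + w / (2 * M)) ^ (2 * M) ≤ Real.exp w := by
      calc (1 + w / (2 * M)) ^ (2 * M) ≤ (Real.exp (w / (2 * M))) ^ (2 * M) :=
            pow_le_pow_left₀ h0 h1 _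
        _ = Real.exp w := by
            rw [← Real.exp_nat_mul]
            congr 1
            push_cast
            field_simp
    have h3 := (abs_le.mp (Real.abs_exp_sub_one_sub_id_le h)).2
    linarith
  · have h1 : |1 + w / (2 * M)| ≤ |2 * w| := by
      calc |1 + w / (2 * M)| ≤ |1| + |w / (2 * M)| := abs_add_le _ _
        _ ≤ |w| + |w| := by
            apply add_le_add
            · rw [abs_one]; exact h.le
            · rw [abs_div]
              apply div_le_self (abs_nonneg _)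
              rw [abs_of_pos hn]; linarith only [hM']
        _ = |2 * w| := by rw [abs_mul, abs_two]; ring
    have h2 : (1 + w / (2 * M)) ^ (2 * M) ≤ 4 ^ M * w ^ (2 * M) := by
      have h3 : (1 + w / (2 * M)) ^ (2 * M) ≤ (2 * w) ^ (2 * M) := by
        rw [← hev.pow_abs, ← hev.pow_abs (2 * w)]
        exact pow_le_pow_left₀ (abs_nonneg _) h1 _
      have h5 : (2 * w) ^ (2 * M) = 4 ^ M * w ^ (2 * M) := by
        rw [mul_pow, pow_mul 2 2 M]; norm_num
      rwa [h5] at h3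
    nlinarith only [h2]

lemma scalar_hom (M : ℕ) (hM : 1 ≤ M) (p q : ℝ) (hp : 0 ≤ p) :
    (p + q / (2 * M)) ^ (2 * M) ≤
      p ^ (2 * M) + p ^ (2 * M - 1) * q + p ^ (2 * M - 2) * q ^ 2 + 4 ^ M * q ^ (2 * M) := by
  have hM' : (1 : ℝ) ≤ M := by exact_mod_cast hM
  have hev : Even (2 * M) := even_two_mul M
  rcases hp.eq_or_lt with h | h
  · subst h
    have h1 : (0 : ℝ) ^ (2 * M) = 0 := by
      apply zero_pow; omega
    have h2 : (0 : ℝ) ^ (2 * M - 1) = 0 := by
      apply zero_pow; (clear * - hM; omega)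
    have h3 : 0 ≤ (0 : ℝ) ^ (2 * M - 2) * q ^ 2 := by (clear * -; positivity)
    rw [h1, h2, zero_add, zero_mul, zero_add, zero_add]
    have h4 : (q / (2 * M)) ^ (2 * M) ≤ q ^ (2 * M) := by
      rw [← hev.pow_abs, ← hev.pow_abs q]
      apply pow_le_pow_left₀ (abs_nonneg _)
      rw [abs_div]
      apply div_le_self (abs_nonneg _)
      rw [abs_of_pos] <;> linarith only [hM']
    have h5 : (1 : ℝ) ≤ 4 ^ M := one_le_pow₀ (by norm_num)
    have h6 : 0 ≤ q ^ (2 * M) := hev.pow_nonneg q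
    nlinarith only [h3, h4, h5, h6]
  · have key := scalar_ineq M hM (q / p)
    have hpp : 0 < p ^ (2 * M) := by positivity
    have h1 := mul_le_mul_of_nonneg_left key hpp.le
    have e1 : p ^ (2 * M) * (1 + q / p / (2 * M)) ^ (2 * M) = (p + q / (2 * M)) ^ (2 * M) := by
      rw [← mul_pow]
      congr 1
      field_simp
    have e2 : p ^ (2 * M) * (q / p) = p ^ (2 * M - 1) * q := by
      have : p ^ (2 * M) = p ^ (2 * M - 1) * p := by
        rw [← pow_succ]; congr 1; omega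
      rw [this]; field_simp
    have e3 : p ^ (2 * M) * (q / p) ^ 2 = p ^ (2 * M - 2) * q ^ 2 := by
      have : p ^ (2 * M) = p ^ (2 * M - 2) * p ^ 2 := by
        rw [← pow_add]; congr 1; omega
      rw [this]; field_simp
    have e4 : p ^ (2 * M) * (q / p) ^ (2 * M) = q ^ (2 * M) := by
      rw [← mul_pow]; congr 1; field_simp
    rw [e1] at h1
    calc _ ≤ _ := h1
      _ = p ^ (2 * M) + p ^ (2 * M) * (q / p) + p ^ (2 * M) * (q / p) ^ 2
          + 4 ^ M * (p ^ (2 * M) * (q / p) ^ (2 * M)) := by ring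
      _ = _ := by rw [e2, e3, e4]

lemma vec_ineq (M : ℕ) (hM : 1 ≤ M) (P Q c : ℝ) (hP : 0 ≤ P) (hQ : 0 ≤ Q) (hc : c ^ 2 ≤ P * Q) :
    (P + c / M + Q / (4 * M ^ 2)) ^ M ≤ P ^ M + P ^ (M - 1) * c + P ^ (M - 1) * Q + 4 ^ M * Q ^ M := by
  have hM' : (1 : ℝ) ≤ M := by exact_mod_cast hM
  obtain ⟨p, hp, rfl⟩ : ∃ p : ℝ, 0 ≤ p ∧ P = p ^ 2 := ⟨Real.sqrt P, Real.sqrt_nonneg _, by
    rw [Real.sq_sqrt hP]⟩
  obtain ⟨q, hq, rfl⟩ : ∃ q : ℝ, 0 ≤ q ∧ Q = q ^ 2 := ⟨Real.sqrt Q, Real.sqrt_nonneg _, by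
    rw [Real.sq_sqrt hQ]⟩
  have habs : |c| ≤ p * q := by
    apply abs_le_of_sq_le_sq _ (by positivity)
    linarith
  obtain ⟨l, hl0, hl1, hl⟩ : ∃ l : ℝ, 0 ≤ l ∧ l ≤ 1 ∧ c = (2 * l - 1) * (p * q) := by
    rcases (mul_nonneg hp hq).eq_or_lt with h | h
    · refine ⟨1 / 2, by norm_num, by norm_num, ?_⟩
      rw [← h] at habs
      have : c = 0 := abs_nonpos_iff.mp habs
      rw [this]; ring
    · refine ⟨(1 + c / (p * q)) / 2, ?_, ?_, ?_⟩
      · have : -1 ≤ c / (p * q) := by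
          rw [le_div_iff₀ h]; linarith only [(abs_le.mp habs).1]
        linarith only [this]
      · have : c / (p * q) ≤ 1 := by
          rw [div_le_iff₀ h]; linarith only [(abs_le.mp habs).2]
        linarith only [this]
      · have hpq : p * q ≠ 0 := h.ne'
        have h7 : 2 * ((1 + c / (p * q)) / 2) - 1 = c / (p * q) := by ring
        rw [h7, div_mul_cancel₀ _ hpq]
  have hconv := (convexOn_pow (𝕜 := ℝ) M).2 (x := (p + q / (2 * M)) ^ 2) (by simp only [Set.mem_Ici]; (clear * -; positivity))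
    (y := (p + (-q) / (2 * M)) ^ 2) (by simp only [Set.mem_Ici]; (clear * -; positivity)) hl0 (sub_nonneg.mpr hl1)
    (by ring)
  simp only [smul_eq_mul] at hconv
  have e0 : p ^ 2 + c / M + q ^ 2 / (4 * M ^ 2)
      = l * (p + q / (2 * M)) ^ 2 + (1 - l) * (p + (-q) / (2 * M)) ^ 2 := by
    rw [hl]; field_simp; ring
  have s1 := scalar_hom M hM p q hp
  have s2 := scalar_hom M hM p (-q) hp
  rw [← pow_mul, ← pow_mul] at hconv
  have e1 : (p ^ 2) ^ M = p ^ (2 * M) := by rw [← pow_mul]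
  have e2 : (p ^ 2) ^ (M - 1) = p ^ (2 * M - 2) := by rw [← pow_mul]; congr 1; (clear * - hM; omega)
  have e3 : (q ^ 2) ^ M = q ^ (2 * M) := by rw [← pow_mul]
  have e4 : (-q) ^ (2 * M) = q ^ (2 * M) := (even_two_mul M).neg_pow q
  have e5 : p ^ (2 * M - 1) = p ^ (2 * M - 2) * p := by
    rw [← pow_succ]; congr 1; omega
  rw [e0, e1, e2, e3]
  rw [e4] at s2
  calc _ ≤ _ := hconv
    _ ≤ l * (p ^ (2 * M) + p ^ (2 * M - 1) * q + p ^ (2 * M - 2) * q ^ 2 + 4 ^ M * q ^ (2 * M))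
        + (1 - l) * (p ^ (2 * M) + p ^ (2 * M - 1) * (-q) + p ^ (2 * M - 2) * (-q) ^ 2
          + 4 ^ M * q ^ (2 * M)) := by
        apply add_le_add
        · exact mul_le_mul_of_nonneg_left s1 hl0
        · exact mul_le_mul_of_nonneg_left s2 (by linarith only [hl1])
    _ = _ := by rw [hl, e5]; ring

/-- The averaged one-variable inequality, with noise `r` where `4 M r² = 1`. -/
lemma avg_ineq {U Y : Type*} (s : Finset U) (hs : s.Nonempty) (t : Finset Y) (M : ℕ) (hM : 1 ≤ M)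
    (r : ℝ) (hr : 4 * M * r ^ 2 = 1)
    (a : Y → ℝ) (b : U → Y → ℝ) (hb : ∀ y ∈ t, ∑ u ∈ s, b u y = 0) :
    (s.card : ℝ)⁻¹ * ∑ u ∈ s, (∑ y ∈ t, (a y + r * b u y) ^ 2) ^ M ≤
      (∑ y ∈ t, a y ^ 2 + (s.card : ℝ)⁻¹ * ∑ u ∈ s, ∑ y ∈ t, (b u y) ^ 2) ^ M
        + (4 * M) ^ M * ((s.card : ℝ)⁻¹ * ∑ u ∈ s, (∑ y ∈ t, (b u y) ^ 2) ^ M) := by
  have hM' : (1 : ℝ) ≤ M := by exact_mod_cast hM
  have hM0 : (M : ℝ) ≠ 0 := by (clear * - hM; positivity)
  set N : ℝ := (s.card : ℝ) with hN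
  have hNpos : 0 < N := by rw [hN]; exact_mod_cast hs.card_pos
  set P : ℝ := ∑ y ∈ t, a y ^ 2 with hP
  have hP0 : 0 ≤ P := Finset.sum_nonneg fun _ _ => sq_nonneg _
  set Q : U → ℝ := fun u => ∑ y ∈ t, (b u y) ^ 2 with hQ
  have hQ0 : ∀ u, 0 ≤ Q u := fun u => Finset.sum_nonneg fun _ _ => sq_nonneg _
  set c : U → ℝ := fun u => ∑ y ∈ t, a y * b u y with hc
  have hcs : ∀ u, c u ^ 2 ≤ P * Q u := fun u => Finset.sum_mul_sq_le_sq_mul_sq _ _ _
  have hcsum : ∑ u ∈ s, c u = 0 := by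
    simp only [hc]
    rw [Finset.sum_comm]
    refine Finset.sum_eq_zero fun y hy => ?_
    rw [← Finset.mul_sum, hb y hy, mul_zero]
  have e : ∀ u, ∑ y ∈ t, (a y + r * b u y) ^ 2
      = P + (2 * M * r * c u) / M + (M * Q u) / (4 * M ^ 2) := by
    intro u
    have e1 : (2 * M * r * c u) / M = 2 * r * c u := by (clear * - hM0; field_simp)
    have e2 : (M * Q u) / (4 * M ^ 2) = r ^ 2 * Q u := by
      have : r ^ 2 = 1 / (4 * M) := by field_simp; linarith only [hr]
      rw [this]; (clear * - hM0; field_simp)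
    rw [e1, e2]
    simp only [hP, hc, hQ, Finset.mul_sum, ← Finset.sum_add_distrib]
    refine Finset.sum_congr rfl fun y _ => ?_
    ring
  have step : ∑ u ∈ s, (∑ y ∈ t, (a y + r * b u y) ^ 2) ^ M
      ≤ ∑ u ∈ s, (P ^ M + P ^ (M - 1) * (2 * M * r * c u) + P ^ (M - 1) * (M * Q u)
          + 4 ^ M * (M * Q u) ^ M) := by
    refine Finset.sum_le_sum fun u _ => ?_
    rw [e u]
    apply vec_ineq M hM P (M * Q u) (2 * M * r * c u) hP0 (by have := hQ0 u; (clear * - hM; positivity))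
    have h1 := hcs u
    have h2 : (2 * M * r * c u) ^ 2 = (4 * M * r ^ 2) * (M * c u ^ 2) := by ring
    rw [h2, hr, one_mul]
    nlinarith only [h1]
  have e2 : ∑ u ∈ s, (P ^ M + P ^ (M - 1) * (2 * M * r * c u) + P ^ (M - 1) * (M * Q u)
          + 4 ^ M * (M * Q u) ^ M)
      = N * P ^ M + M * (P ^ (M - 1) * ∑ u ∈ s, Q u) + (4 * M) ^ M * ∑ u ∈ s, Q u ^ M := by
    have e3 : ∀ u ∈ s, P ^ M + P ^ (M - 1) * (2 * M * r * c u) + P ^ (M - 1) * (M * Q u)
          + 4 ^ M * (M * Q u) ^ M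
        = P ^ M + (P ^ (M - 1) * 2 * M * r) * c u + (P ^ (M - 1) * M) * Q u
          + (4 * M) ^ M * Q u ^ M := by
      intro u _
      rw [mul_pow (M : ℝ) (Q u), mul_pow (4 : ℝ) M]
      ring
    rw [Finset.sum_congr rfl e3, Finset.sum_add_distrib, Finset.sum_add_distrib,
      Finset.sum_add_distrib, ← Finset.mul_sum, hcsum, Finset.sum_const, nsmul_eq_mul, ← hN,
      ← Finset.mul_sum, ← Finset.mul_sum]
    ring
  rw [e2] at step
  have hQs : 0 ≤ N⁻¹ * ∑ u ∈ s, Q u :=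
    mul_nonneg (inv_nonneg.mpr hNpos.le) (Finset.sum_nonneg fun u _ => hQ0 u)
  have fin := add_pow_ge M hM P (N⁻¹ * ∑ u ∈ s, Q u) hP0 hQs
  have h1 := mul_le_mul_of_nonneg_left step (inv_nonneg.mpr hNpos.le)
  have e3 : N⁻¹ * (N * P ^ M + M * (P ^ (M - 1) * ∑ u ∈ s, Q u) + (4 * M) ^ M * ∑ u ∈ s, Q u ^ M)
      = P ^ M + M * (P ^ (M - 1) * (N⁻¹ * ∑ u ∈ s, Q u))
        + (4 * M) ^ M * (N⁻¹ * ∑ u ∈ s, Q u ^ M) := by
    (clear * - hNpos; field_simp)
  rw [e3] at h1
  linarith only [fin, h1]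

end Vale.Agent.P042.Sharp
end
end
end

section

section

section

/-!
Averaging operators over subgroups of a finite additive commutative group, as elements of the
commutative group algebra acting on real functions.
-/

set_option linter.unusedSectionVars false

namespace Vale.Agent.P042

open Finset

universe u v

variable {G : Type u} [AddCommGroup G]

/-- Translations acting on real functions. -/
def trans (G : Type u) [AddCommGroup G] : Multiplicative G →* Module.End ℝ (G → ℝ) where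
  toFun g :=
    { toFun := fun f x => f (x + g.toAdd)
      map_add' := fun f f' => rfl
      map_smul' := fun c f => rfl }
  map_one' := by
    ext f x
    simp
  map_mul' g h := by
    apply LinearMap.ext
    intro f
    funext x
    simp only [Module.End.mul_apply, LinearMap.coe_mk, AddHom.coe_mk, toAdd_mul]
    congr 1
    abel

/-- The group algebra acting on real functions. -/
noncomputable def act : AddMonoidAlgebra ℝ G →ₐ[ℝ] Module.End ℝ (G → ℝ) :=
  AddMonoidAlgebra.lift ℝ (Module.End ℝ (G → ℝ)) G (trans G)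

lemma act_single (g : G) (c : ℝ) (f : G → ℝ) (x : G) :
    act (AddMonoidAlgebra.single g c) f x = c * f (x + g) := by
  simp only [act, trans, AddMonoidAlgebra.lift_single, MonoidHom.coe_mk, OneHom.coe_mk, toAdd_ofAdd, LinearMap.smul_apply, LinearMap.coe_mk, AddHom.coe_mk, Pi.smul_apply, smul_eq_mul]

lemma act_mul (a b : AddMonoidAlgebra ℝ G) (f : G → ℝ) : act (a * b) f = act a (act b f) := by
  rw [map_mul]; rfl

lemma act_one (f : G → ℝ) : act 1 f = f := by
  rw [map_one]; rfl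

lemma act_add (a b : AddMonoidAlgebra ℝ G) (f : G → ℝ) (x : G) :
    act (a + b) f x = act a f x + act b f x := by
  rw [map_add]; rfl

lemma act_sub (a b : AddMonoidAlgebra ℝ G) (f : G → ℝ) (x : G) :
    act (a - b) f x = act a f x - act b f x := by
  rw [map_sub]; rfl

lemma act_smul (c : ℝ) (a : AddMonoidAlgebra ℝ G) (f : G → ℝ) (x : G) :
    act (c • a) f x = c * act a f x := by
  rw [map_smul]; rfl

lemma act_sum {κ : Type*} (s : Finset κ) (a : κ → AddMonoidAlgebra ℝ G) (f : G → ℝ) (x : G) :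
    act (∑ k ∈ s, a k) f x = ∑ k ∈ s, act (a k) f x := by
  rw [map_sum, LinearMap.sum_apply, Finset.sum_apply]

variable [Fintype G]

open Classical in
/-- elements of a subgroup as a finset -/
noncomputable def hset (H : AddSubgroup G) : Finset G := univ.filter (· ∈ H)

lemma mem_hset {H : AddSubgroup G} {g : G} : g ∈ hset H ↔ g ∈ H := by
  classical
  simp only [hset, mem_filter, mem_univ, true_and]

lemma card_hset (H : AddSubgroup G) : (hset H).card = Nat.card H := by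
  classical
  rw [← SetLike.coe_sort_coe, Nat.card_eq_fintype_card, Fintype.card_subtype]
  rfl

lemma hset_nonempty (H : AddSubgroup G) : (hset H).Nonempty :=
  ⟨0, mem_hset.mpr H.zero_mem⟩

lemma card_hset_pos (H : AddSubgroup G) : (0 : ℝ) < (hset H).card := by
  exact_mod_cast (hset_nonempty H).card_pos

/-- Averaging over a subgroup, as an element of the group algebra. -/
noncomputable def Eop (H : AddSubgroup G) : AddMonoidAlgebra ℝ G :=
  ∑ h ∈ hset H, AddMonoidAlgebra.single h (((hset H).card : ℝ)⁻¹)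

lemma act_Eop (H : AddSubgroup G) (f : G → ℝ) (x : G) :
    act (Eop H) f x = ((hset H).card : ℝ)⁻¹ * ∑ h ∈ hset H, f (x + h) := by
  rw [Eop, act_sum, Finset.mul_sum]
  exact Finset.sum_congr rfl fun h _ => act_single _ _ _ _

lemma act_Eop_eq_avg (H : AddSubgroup G) (f : G → ℝ) : act (Eop H) f = avg H f := by
  classical
  funext x
  rw [act_Eop, avg, card_hset, div_eq_inv_mul]
  congr 1
  rw [hset, Finset.sum_filter]

lemma Eop_mul_single {H : AddSubgroup G} {k : G} (hk : k ∈ H) :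
    Eop H * AddMonoidAlgebra.single k (1 : ℝ) = Eop H := by
  rw [Eop, Finset.sum_mul]
  simp only [AddMonoidAlgebra.single_mul_single, mul_one]
  refine Finset.sum_nbij' (fun h => h + k) (fun h => h - k) ?_ ?_ ?_ ?_ ?_
  · intro a ha; exact mem_hset.mpr (H.add_mem (mem_hset.mp ha) hk)
  · intro a ha; exact mem_hset.mpr (H.sub_mem (mem_hset.mp ha) hk)
  · intro a _; simp
  · intro a _; simp
  · intro a _; rfl

lemma Eop_mul_of_inv {L : AddSubgroup G} {a : AddMonoidAlgebra ℝ G}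
    (h : ∀ g ∈ L, AddMonoidAlgebra.single g (1 : ℝ) * a = a) : Eop L * a = a := by
  have hpos := card_hset_pos L
  rw [Eop, Finset.sum_mul]
  have h1 : ∀ g ∈ hset L, AddMonoidAlgebra.single g (((hset L).card : ℝ)⁻¹) * a
      = ((hset L).card : ℝ)⁻¹ • a := by
    intro g hg
    have h2 : AddMonoidAlgebra.single g (((hset L).card : ℝ)⁻¹)
        = ((hset L).card : ℝ)⁻¹ • AddMonoidAlgebra.single g (1 : ℝ) := by
      rw [AddMonoidAlgebra.smul_single, smul_eq_mul, mul_one]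
    rw [h2, smul_mul_assoc, h g (mem_hset.mp hg)]
  rw [Finset.sum_congr rfl h1, Finset.sum_const, ← Nat.cast_smul_eq_nsmul ℝ, smul_smul,
    mul_inv_cancel₀ hpos.ne', one_smul]

lemma Eop_mul_Eop_of_le {H L : AddSubgroup G} (h : H ≤ L) : Eop L * Eop H = Eop L := by
  rw [mul_comm]
  apply Eop_mul_of_inv
  intro g hg
  rw [mul_comm]
  exact Eop_mul_single (h hg)

lemma Eop_idem (H : AddSubgroup G) : Eop H * Eop H = Eop H := Eop_mul_Eop_of_le le_rfl

lemma Eop_sup (H K : AddSubgroup G) : Eop H * Eop K = Eop (H ⊔ K) := by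
  have h1 : Eop (H ⊔ K) * (Eop H * Eop K) = Eop (H ⊔ K) := by
    rw [← mul_assoc, Eop_mul_Eop_of_le le_sup_left, Eop_mul_Eop_of_le le_sup_right]
  rw [← h1]
  symm
  apply Eop_mul_of_inv
  let S : AddSubgroup G :=
    { carrier := {g | AddMonoidAlgebra.single g (1 : ℝ) * (Eop H * Eop K) = Eop H * Eop K}
      add_mem' := by
        intro a b ha hb
        simp only [Set.mem_ofPred_eq] at ha hb ⊢
        have : AddMonoidAlgebra.single (a + b) (1 : ℝ)
            = AddMonoidAlgebra.single a (1 : ℝ) * AddMonoidAlgebra.single b (1 : ℝ) := by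
          rw [AddMonoidAlgebra.single_mul_single, mul_one]
        rw [this, mul_assoc, hb, ha]
      zero_mem' := by
        simp only [Set.mem_ofPred_eq]
        rw [← AddMonoidAlgebra.one_def, one_mul]
      neg_mem' := by
        intro a ha
        simp only [Set.mem_ofPred_eq] at ha ⊢
        have h : AddMonoidAlgebra.single (-a) (1 : ℝ) * AddMonoidAlgebra.single a (1 : ℝ) = 1 := by
          rw [AddMonoidAlgebra.single_mul_single, mul_one, neg_add_cancel,
            ← AddMonoidAlgebra.one_def]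
        conv_lhs => rw [← ha]
        rw [← mul_assoc, h, one_mul] }
  have hS : H ⊔ K ≤ S := by
    apply sup_le
    · intro g hg
      change AddMonoidAlgebra.single g (1 : ℝ) * (Eop H * Eop K) = Eop H * Eop K
      rw [← mul_assoc, mul_comm _ (Eop H), Eop_mul_single hg]
    · intro g hg
      change AddMonoidAlgebra.single g (1 : ℝ) * (Eop H * Eop K) = Eop H * Eop K
      rw [mul_comm (Eop H), ← mul_assoc, mul_comm _ (Eop K), Eop_mul_single hg]
  intro g hg
  exact hS hg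

lemma act_fun_sum {κ : Type*} (s : Finset κ) (a : AddMonoidAlgebra ℝ G) (f : κ → G → ℝ) (x : G) :
    act a (fun z => ∑ k ∈ s, f k z) x = ∑ k ∈ s, act a (f k) x := by
  have h : (fun z => ∑ k ∈ s, f k z) = ∑ k ∈ s, f k := by
    funext z; rw [Finset.sum_apply]
  rw [h, map_sum, Finset.sum_apply]

lemma act_fun_add (a : AddMonoidAlgebra ℝ G) (f g : G → ℝ) (x : G) :
    act a (fun z => f z + g z) x = act a f x + act a g x := by
  have h : (fun z => f z + g z) = f + g := rfl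
  rw [h, map_add]; rfl

lemma act_fun_sub (a : AddMonoidAlgebra ℝ G) (f g : G → ℝ) (x : G) :
    act a (fun z => f z - g z) x = act a f x - act a g x := by
  have h : (fun z => f z - g z) = f - g := rfl
  rw [h, map_sub]; rfl

lemma act_fun_mul (a : AddMonoidAlgebra ℝ G) (c : ℝ) (f : G → ℝ) (x : G) :
    act a (fun z => c * f z) x = c * act a f x := by
  have h : (fun z => c * f z) = c • f := rfl
  rw [h, map_smul]; rfl

/-- every operator commutes with translations -/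
lemma act_shift (a : AddMonoidAlgebra ℝ G) (f : G → ℝ) (u x : G) :
    act a (fun z => f (z + u)) x = act a f (x + u) := by
  have h1 : (fun z => f (z + u)) = act (AddMonoidAlgebra.single u (1 : ℝ)) f := by
    funext z; rw [act_single, one_mul]
  rw [h1, ← act_mul, mul_comm, act_mul, act_single, one_mul]

lemma act_Eop_mono (H : AddSubgroup G) {f g : G → ℝ} (h : ∀ z, f z ≤ g z) (x : G) :
    act (Eop H) f x ≤ act (Eop H) g x := by
  rw [act_Eop, act_Eop]
  exact mul_le_mul_of_nonneg_left (Finset.sum_le_sum fun _ _ => h _)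
    (inv_nonneg.mpr (card_hset_pos H).le)

lemma act_Eop_const (H : AddSubgroup G) (c : ℝ) (x : G) : act (Eop H) (fun _ => c) x = c := by
  rw [act_Eop, Finset.sum_const, nsmul_eq_mul, ← mul_assoc, inv_mul_cancel₀ (card_hset_pos H).ne',
    one_mul]

lemma act_Eop_nonneg (H : AddSubgroup G) {f : G → ℝ} (h : ∀ z, 0 ≤ f z) (x : G) :
    0 ≤ act (Eop H) f x := by
  have := act_Eop_mono H h x
  rwa [act_Eop_const] at this

/-- invariance under translation by a subgroup -/
def Invt (H : AddSubgroup G) (f : G → ℝ) : Prop := ∀ h ∈ H, ∀ z, f (z + h) = f z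

lemma Invt.mono {H K : AddSubgroup G} (hHK : H ≤ K) {f : G → ℝ} (h : Invt K f) : Invt H f :=
  fun g hg z => h g (hHK hg) z

lemma Invt.mul {H : AddSubgroup G} {f g : G → ℝ} (hf : Invt H f) (hg : Invt H g) :
    Invt H (fun z => f z * g z) := by
  intro h hh z
  change f (z + h) * g (z + h) = f z * g z
  rw [hf h hh z, hg h hh z]

lemma invt_act (H : AddSubgroup G) (a : AddMonoidAlgebra ℝ G) (f : G → ℝ) :
    Invt H (act (a * Eop H) f) := by
  intro h hh z
  have h1 : act (AddMonoidAlgebra.single h (1 : ℝ)) (act (a * Eop H) f) z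
      = act (a * Eop H) f (z + h) := by rw [act_single, one_mul]
  rw [← h1, ← act_mul, mul_comm, mul_assoc, Eop_mul_single hh]

lemma invt_act_Eop (H : AddSubgroup G) (f : G → ℝ) : Invt H (act (Eop H) f) := by
  have := invt_act H 1 f
  rwa [one_mul] at this

lemma act_Eop_mul_invt {H : AddSubgroup G} {g : G → ℝ} (hg : Invt H g) (f : G → ℝ) (x : G) :
    act (Eop H) (fun z => f z * g z) x = act (Eop H) f x * g x := by
  rw [act_Eop, act_Eop, mul_assoc, Finset.sum_mul]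
  congr 1
  refine Finset.sum_congr rfl fun h hh => ?_
  rw [hg h (mem_hset.mp hh) x]

lemma act_Eop_invt {H : AddSubgroup G} {g : G → ℝ} (hg : Invt H g) : act (Eop H) g = g := by
  funext x
  have := act_Eop_mul_invt hg (fun _ => (1 : ℝ)) x
  rw [act_Eop_const, one_mul] at this
  simpa using this

/-- self-adjointness with respect to averaging over `L` -/
def SA (L : AddSubgroup G) (a : AddMonoidAlgebra ℝ G) : Prop :=
  ∀ (f g : G → ℝ) (x : G),
    act (Eop L) (fun z => f z * act a g z) x = act (Eop L) (fun z => act a f z * g z) x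

lemma SA_Eop {H L : AddSubgroup G} (hHL : H ≤ L) : SA L (Eop H) := by
  intro f g x
  have h1 : ∀ (f g : G → ℝ), act (Eop L) (fun z => f z * act (Eop H) g z) x
      = act (Eop L) (fun z => act (Eop H) f z * act (Eop H) g z) x := by
    intro f g
    conv_lhs => rw [← Eop_mul_Eop_of_le hHL, act_mul]
    have h2 : act (Eop H) (fun z => f z * act (Eop H) g z)
        = fun z => act (Eop H) f z * act (Eop H) g z := by
      funext z
      exact act_Eop_mul_invt (invt_act_Eop H g) f z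
    rw [h2]
  rw [h1 f g]
  have h3 := h1 g f
  simp only [mul_comm (g _)] at h3
  rw [h3]
  simp only [mul_comm]

lemma SA_one (L : AddSubgroup G) : SA L 1 := by
  intro f g x
  simp only [act_one]

lemma SA_mul {L : AddSubgroup G} {a b : AddMonoidAlgebra ℝ G} (ha : SA L a) (hb : SA L b) :
    SA L (a * b) := by
  intro f g x
  simp only [act_mul]
  rw [ha, hb]
  simp only [← act_mul, mul_comm b a]

lemma SA_sub {L : AddSubgroup G} {a b : AddMonoidAlgebra ℝ G} (ha : SA L a) (hb : SA L b) :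
    SA L (a - b) := by
  intro f g x
  simp only [act_sub, mul_sub, sub_mul]
  rw [act_fun_sub, act_fun_sub, ha, hb]

lemma SA_prod {κ : Type*} {L : AddSubgroup G} (s : Finset κ) (a : κ → AddMonoidAlgebra ℝ G)
    (h : ∀ k ∈ s, SA L (a k)) : SA L (∏ k ∈ s, a k) := by
  classical
  induction s using Finset.induction_on with
  | empty => rw [Finset.prod_empty]; exact SA_one L
  | insert i s hi ih =>
    rw [Finset.prod_insert hi]
    exact SA_mul (h i (Finset.mem_insert_self i s)) (ih fun k hk => h k (Finset.mem_insert_of_mem hk))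

variable {ι : Type v} [DecidableEq ι] (Hs : ι → AddSubgroup G)

/-- averaging over the coordinates in `V` -/
noncomputable def Aop (V : Finset ι) : AddMonoidAlgebra ℝ G := Eop (V.sup Hs)

/-- the complementary projection -/
noncomputable def Dop (V : Finset ι) : AddMonoidAlgebra ℝ G := ∏ i ∈ V, (1 - Eop (Hs i))

/-- the noise operator -/
noncomputable def Top (ρ : ℝ) (V : Finset ι) : AddMonoidAlgebra ℝ G :=
  ∏ i ∈ V, (Eop (Hs i) + ρ • (1 - Eop (Hs i)))

lemma act_Aop (V : Finset ι) (f : G → ℝ) : act (Aop Hs V) f = EE Hs V f :=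
  act_Eop_eq_avg _ _

lemma Aop_mul (V W : Finset ι) : Aop Hs V * Aop Hs W = Aop Hs (V ∪ W) := by
  rw [Aop, Aop, Eop_sup, Aop, Finset.sup_union]

lemma Eop_bot : Eop (⊥ : AddSubgroup G) = 1 := by
  have h : hset (⊥ : AddSubgroup G) = {0} := by
    ext g
    rw [mem_hset]
    simp only [AddSubgroup.mem_bot, mem_singleton]
  rw [Eop, h]
  simp [AddMonoidAlgebra.one_def]

lemma Aop_eq_prod (V : Finset ι) : Aop Hs V = ∏ i ∈ V, Eop (Hs i) := by
  induction V using Finset.induction_on with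
  | empty => simp only [Aop, sup_empty, Eop_bot, prod_empty]
  | insert i V hi ih =>
    rw [Finset.prod_insert hi, ← ih, Aop, Finset.sup_insert, ← Eop_sup, Aop]

lemma Dop_eq_sum (U : Finset ι) :
    Dop Hs U = ∑ V ∈ U.powerset, ((-1 : ℝ) ^ V.card) • Aop Hs V := by
  rw [Dop]
  have h : ∀ i ∈ U, (1 : AddMonoidAlgebra ℝ G) - Eop (Hs i) = (-Eop (Hs i)) + 1 := by
    intro i _; ring
  rw [Finset.prod_congr rfl h, Finset.prod_add]
  refine Finset.sum_congr rfl fun V _ => ?_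
  rw [Finset.prod_const_one, mul_one, Finset.prod_neg, Aop_eq_prod]
  rw [Algebra.smul_def, map_pow, map_neg, map_one]

lemma act_Dop (U : Finset ι) (f : G → ℝ) : act (Dop Hs U) f = DD Hs U f := by
  funext x
  rw [Dop_eq_sum, act_sum, DD]
  refine Finset.sum_congr rfl fun V _ => ?_
  rw [act_smul, act_Aop]

lemma act_gg [Fintype ι] (F : G → ℝ) (S U : Finset ι) :
    gg Hs F S U = act (Dop Hs U * Aop Hs (S ∪ U)ᶜ) F := by
  rw [gg, act_mul, act_Dop, act_Aop]

end Vale.Agent.P042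
end
end
end

section

section

section

/-!
Tensorised hypercontractive inequality.
-/

set_option linter.unusedSectionVars false

namespace Vale.Agent.P042

open Finset

universe u v

variable {G : Type u} [AddCommGroup G] [Fintype G]

variable {ι : Type v} [DecidableEq ι] (Hs : ι → AddSubgroup G)

lemma Aop_insert {j : ι} {J : Finset ι} (hj : j ∉ J) :
    Aop Hs (insert j J) = Aop Hs J * Eop (Hs j) := by
  rw [Aop_eq_prod, Aop_eq_prod, Finset.prod_insert hj, mul_comm]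

lemma Top_insert (ρ : ℝ) {j : ι} {J : Finset ι} (hj : j ∉ J) :
    Top Hs ρ (insert j J) = (Eop (Hs j) + ρ • (1 - Eop (Hs j))) * Top Hs ρ J := by
  rw [Top, Top, Finset.prod_insert hj]

lemma Dop_insert {j : ι} {J : Finset ι} (hj : j ∉ J) :
    Dop Hs (insert j J) = Dop Hs J * (1 - Eop (Hs j)) := by
  rw [Dop, Dop, Finset.prod_insert hj, mul_comm]

end Vale.Agent.P042
end
end
end

section

section

section

/-!
Orthogonal projections in the group algebra.
-/

set_option linter.unusedSectionVars false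

namespace Vale.Agent.P042

open Finset

universe u v

variable {G : Type u} [AddCommGroup G] [Fintype G]
variable {ι : Type v} [DecidableEq ι] (Hs : ι → AddSubgroup G)

/-- component projection -/
noncomputable def Pop (Z U : Finset ι) : AddMonoidAlgebra ℝ G := Dop Hs U * Aop Hs (Z \ U)

lemma one_sub_mul_Eop (H : AddSubgroup G) : (1 - Eop H) * Eop H = 0 := by
  rw [sub_mul, one_mul, Eop_idem, sub_self]

lemma one_sub_mul_one_sub (H : AddSubgroup G) : (1 - Eop H) * (1 - Eop H) = 1 - Eop H := by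
  have := one_sub_mul_Eop H
  rw [mul_sub, mul_one, this, sub_zero]

lemma Dop_mul_Aop_zero {U V : Finset ι} {i : ι} (hU : i ∈ U) (hV : i ∈ V) :
    Dop Hs U * Aop Hs V = 0 := by
  rw [Dop, Aop_eq_prod, ← Finset.prod_erase_mul _ _ hU, ← Finset.mul_prod_erase _ _ hV,
    mul_assoc, ← mul_assoc (1 - Eop (Hs i)), one_sub_mul_Eop, zero_mul, mul_zero]

lemma one_sub_mul_Dop {U : Finset ι} {i : ι} (hU : i ∈ U) :
    (1 - Eop (Hs i)) * Dop Hs U = Dop Hs U := by
  rw [Dop, ← Finset.mul_prod_erase _ _ hU, ← mul_assoc, one_sub_mul_one_sub]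

lemma Dop_mul_Dop (U V : Finset ι) : Dop Hs U * Dop Hs V = Dop Hs (U ∪ V) := by
  induction U using Finset.induction_on with
  | empty => rw [Dop, Finset.prod_empty, one_mul, Finset.empty_union]
  | insert i U hi ih =>
    rw [Dop_insert Hs hi, mul_comm (Dop Hs U), mul_assoc, ih, Finset.insert_union]
    by_cases h : i ∈ U ∪ V
    · rw [one_sub_mul_Dop Hs h, Finset.insert_eq_of_mem h]
    · rw [Dop_insert Hs h, mul_comm]

lemma Dop_idem (U : Finset ι) : Dop Hs U * Dop Hs U = Dop Hs U := by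
  rw [Dop_mul_Dop, Finset.union_self]

lemma Aop_idem (U : Finset ι) : Aop Hs U * Aop Hs U = Aop Hs U := by
  rw [Aop_mul, Finset.union_self]

lemma Pop_idem (Z U : Finset ι) : Pop Hs Z U * Pop Hs Z U = Pop Hs Z U := by
  rw [Pop, mul_mul_mul_comm, Dop_idem, Aop_idem]

lemma Pop_orth {Z U W : Finset ι} (hU : U ⊆ Z) (hW : W ⊆ Z) (h : U ≠ W) :
    Pop Hs Z U * Pop Hs Z W = 0 := by
  by_cases h1 : U ⊆ W
  · have h2 : ¬ W ⊆ U := fun h2 => h (Finset.Subset.antisymm h1 h2)
    obtain ⟨i, hiW, hiU⟩ := Finset.not_subset.mp h2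
    have h3 : Dop Hs W * Aop Hs (Z \ U) = 0 :=
      Dop_mul_Aop_zero Hs hiW (Finset.mem_sdiff.mpr ⟨hW hiW, hiU⟩)
    calc Pop Hs Z U * Pop Hs Z W
        = Dop Hs U * Aop Hs (Z \ W) * (Dop Hs W * Aop Hs (Z \ U)) := by rw [Pop, Pop]; ring
      _ = 0 := by rw [h3, mul_zero]
  · obtain ⟨i, hiU, hiW⟩ := Finset.not_subset.mp h1
    have h3 : Dop Hs U * Aop Hs (Z \ W) = 0 :=
      Dop_mul_Aop_zero Hs hiU (Finset.mem_sdiff.mpr ⟨hU hiU, hiW⟩)
    calc Pop Hs Z U * Pop Hs Z W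
        = Dop Hs U * Aop Hs (Z \ W) * (Dop Hs W * Aop Hs (Z \ U)) := by rw [Pop, Pop]; ring
      _ = 0 := by rw [h3, zero_mul]

lemma Dop_mul_Pop {Z U W : Finset ι} (hU : U ⊆ Z) :
    Dop Hs U * Pop Hs Z W = if U ⊆ W then Pop Hs Z W else 0 := by
  split_ifs with h
  · rw [Pop, ← mul_assoc, Dop_mul_Dop, Finset.union_eq_right.mpr h]
  · obtain ⟨i, hiU, hiW⟩ := Finset.not_subset.mp h
    rw [Pop, mul_comm (Dop Hs W), ← mul_assoc,
      Dop_mul_Aop_zero Hs hiU (Finset.mem_sdiff.mpr ⟨hU hiU, hiW⟩), zero_mul]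

lemma Top_mul_Dop (ρ : ℝ) (U : Finset ι) :
    Top Hs ρ U * Dop Hs U = ρ ^ U.card • Dop Hs U := by
  induction U using Finset.induction_on with
  | empty => simp only [Top, prod_empty, Dop, mul_one, card_empty, pow_zero, one_smul]
  | insert i U hi ih =>
    have h1 : (Eop (Hs i) + ρ • (1 - Eop (Hs i))) * (1 - Eop (Hs i)) = ρ • (1 - Eop (Hs i)) := by
      rw [add_mul, smul_mul_assoc, one_sub_mul_one_sub, mul_comm, one_sub_mul_Eop, zero_add]
    rw [Top_insert Hs ρ hi, Dop_insert Hs hi, mul_comm (Dop Hs U), mul_mul_mul_comm, h1, ih,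
      smul_mul_smul_comm, Finset.card_insert_of_notMem hi, pow_succ']

lemma Top_mul_Aop (ρ : ℝ) (U : Finset ι) : Top Hs ρ U * Aop Hs U = Aop Hs U := by
  induction U using Finset.induction_on with
  | empty => simp [Top]
  | insert i U hi ih =>
    have h1 : (Eop (Hs i) + ρ • (1 - Eop (Hs i))) * Eop (Hs i) = Eop (Hs i) := by
      rw [add_mul, smul_mul_assoc, one_sub_mul_Eop, smul_zero, add_zero, Eop_idem]
    rw [Top_insert Hs ρ hi, Aop_insert Hs hi, mul_comm (Aop Hs U), mul_mul_mul_comm, h1, ih]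

lemma Top_mul_Pop (ρ : ℝ) {Z U : Finset ι} (hU : U ⊆ Z) :
    Top Hs ρ Z * Pop Hs Z U = ρ ^ U.card • Pop Hs Z U := by
  have h1 : Top Hs ρ Z = Top Hs ρ U * Top Hs ρ (Z \ U) := by
    rw [Top, Top, Top, mul_comm, Finset.prod_sdiff hU]
  rw [h1, Pop, mul_mul_mul_comm, Top_mul_Dop, Top_mul_Aop, smul_mul_assoc]

lemma SA_Pop {Z U : Finset ι} (hU : U ⊆ Z) : SA (Z.sup Hs) (Pop Hs Z U) := by
  apply SA_mul
  · exact SA_prod U _ fun i hi => SA_sub (SA_one _) (SA_Eop (Finset.le_sup (f := Hs) (hU hi)))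
  · exact SA_Eop (Finset.sup_mono Finset.sdiff_subset)

/-- orthogonality of components -/
lemma orth {Z U W : Finset ι} (hU : U ⊆ Z) (hW : W ⊆ Z) (h : U ≠ W) (f : G → ℝ) (x : G) :
    act (Aop Hs Z) (fun z => act (Pop Hs Z U) f z * act (Pop Hs Z W) f z) x = 0 := by
  rw [Aop, SA_Pop Hs hW]
  simp only [← act_mul, mul_comm (Pop Hs Z W), Pop_orth Hs hU hW h, map_zero]
  have : (fun z => (0 : Module.End ℝ (G → ℝ)) f z * f z) = fun _ => (0 : ℝ) := by
    funext z; simp
  rw [this, act_Eop_const]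

lemma norm_sum {Z : Finset ι} (s : Finset (Finset ι)) (hs : ∀ W ∈ s, W ⊆ Z) (c : Finset ι → ℝ)
    (f : G → ℝ) (x : G) :
    act (Aop Hs Z) (fun z => (act (∑ W ∈ s, c W • Pop Hs Z W) f z) ^ 2) x
      = ∑ W ∈ s, (c W) ^ 2 * act (Aop Hs Z) (fun z => (act (Pop Hs Z W) f z) ^ 2) x := by
  have h1 : (fun z => (act (∑ W ∈ s, c W • Pop Hs Z W) f z) ^ 2)
      = fun z => ∑ W ∈ s, ∑ W' ∈ s, (c W * c W') *
          (act (Pop Hs Z W) f z * act (Pop Hs Z W') f z) := by
    funext z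
    rw [act_sum, sq, Finset.sum_mul_sum]
    refine Finset.sum_congr rfl fun W _ => Finset.sum_congr rfl fun W' _ => ?_
    rw [act_smul, act_smul]
    ring
  rw [h1, act_fun_sum]
  refine Finset.sum_congr rfl fun W hW => ?_
  rw [act_fun_sum, Finset.sum_eq_single_of_mem W hW]
  · rw [act_fun_mul, sq]
    simp only [sq]
  · intro W' hW' hne
    rw [act_fun_mul, orth Hs (hs W hW) (hs W' hW') (Ne.symm hne), mul_zero]

end Vale.Agent.P042
end
end
end

section

section

section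

/-!
Tensorised hypercontractive inequality, sharp noise version.
-/

set_option linter.unusedSectionVars false

namespace Vale.Agent.P042.Sharp

open Finset Vale.Agent.P042

universe u v

variable {G : Type u} [AddCommGroup G] [Fintype G]

/-- one-coordinate step -/
lemma one_step (m : ℕ) (hm : 1 ≤ m) (r : ℝ) (hr : 4 * m * r ^ 2 = 1) (H : AddSubgroup G)
    {Y : Type*} (t : Finset Y) (f : Y → G → ℝ) (z : G) :
    act (Eop H) (fun w => (∑ y ∈ t, (act (Eop H + r • (1 - Eop H)) (f y) w) ^ 2) ^ m) z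
      ≤ (∑ u ∈ hset H, ∑ y ∈ t, ((hset H).card : ℝ)⁻¹ * (f y (z + u)) ^ 2) ^ m
        + (4 * m) ^ m * act (Eop H) (fun w => (∑ y ∈ t, (act (1 - Eop H) (f y) w) ^ 2) ^ m) z := by
  have hN := card_hset_pos H
  have inv : ∀ y, ∀ u ∈ hset H, act (Eop H) (f y) (z + u) = act (Eop H) (f y) z :=
    fun y u hu => invt_act_Eop H (f y) u (mem_hset.mp hu) z
  have key := avg_ineq (hset H) (hset_nonempty H) t m hm r hr (fun y => act (Eop H) (f y) z)
    (fun u y => act (1 - Eop H) (f y) (z + u)) (by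
      intro y _
      have h1 : act (Eop H) (act (1 - Eop H) (f y)) z = 0 := by
        rw [← act_mul, mul_sub, mul_one, Eop_idem, sub_self, map_zero]; rfl
      rw [act_Eop] at h1
      rcases mul_eq_zero.mp h1 with h2 | h2
      · exact absurd h2 (inv_ne_zero hN.ne')
      · exact h2)
  have e1 : act (Eop H) (fun w => (∑ y ∈ t, (act (Eop H + r • (1 - Eop H)) (f y) w) ^ 2) ^ m) z
      = ((hset H).card : ℝ)⁻¹ * ∑ u ∈ hset H, (∑ y ∈ t, (act (Eop H) (f y) z
          + r * act (1 - Eop H) (f y) (z + u)) ^ 2) ^ m := by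
    rw [act_Eop]
    congr 1
    refine Finset.sum_congr rfl fun u hu => ?_
    congr 1
    refine Finset.sum_congr rfl fun y _ => ?_
    rw [act_add, act_smul, inv y u hu]
  have e2 : act (Eop H) (fun w => (∑ y ∈ t, (act (1 - Eop H) (f y) w) ^ 2) ^ m) z
      = ((hset H).card : ℝ)⁻¹ * ∑ u ∈ hset H, (∑ y ∈ t, (act (1 - Eop H) (f y) (z + u)) ^ 2) ^ m := by
    rw [act_Eop]
  have e3 : ∑ y ∈ t, (act (Eop H) (f y) z) ^ 2 + ((hset H).card : ℝ)⁻¹ * ∑ u ∈ hset H, ∑ y ∈ t,
        (act (1 - Eop H) (f y) (z + u)) ^ 2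
      = ∑ u ∈ hset H, ∑ y ∈ t, ((hset H).card : ℝ)⁻¹ * (f y (z + u)) ^ 2 := by
    rw [Finset.sum_comm, Finset.mul_sum, ← Finset.sum_add_distrib, Finset.sum_comm]
    refine Finset.sum_congr rfl fun y _ => ?_
    have e4 : ∀ u ∈ hset H, (act (1 - Eop H) (f y) (z + u)) ^ 2
        = (f y (z + u)) ^ 2 - 2 * act (Eop H) (f y) z * f y (z + u) + (act (Eop H) (f y) z) ^ 2 := by
      intro u hu
      rw [act_sub, act_one, inv y u hu]
      ring
    have e5 : ∑ u ∈ hset H, f y (z + u) = (hset H).card * act (Eop H) (f y) z := by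
      rw [act_Eop]
      (clear * - hN; field_simp)
    rw [Finset.sum_congr rfl e4, Finset.sum_add_distrib, Finset.sum_sub_distrib, ← Finset.mul_sum,
      e5, Finset.sum_const, nsmul_eq_mul, ← Finset.mul_sum]
    field_simp
    ring
  rw [e1, e2, ← e3]
  exact key

variable {ι : Type v} [DecidableEq ι] (Hs : ι → AddSubgroup G)

/-- The tensorised inequality. -/
theorem hyper (m : ℕ) (hm : 1 ≤ m) (r : ℝ) (hr : 4 * m * r ^ 2 = 1) (I : Finset ι) :
    ∀ (Y : Type u) (t : Finset Y) (f : Y → G → ℝ) (x : G),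
      act (Aop Hs I) (fun w => (∑ y ∈ t, (act (Top Hs r I) (f y) w) ^ 2) ^ m) x ≤
        ∑ U ∈ I.powerset, ((4 * m : ℝ) ^ m) ^ U.card * act (Aop Hs U)
          (fun z => (act (Aop Hs (I \ U)) (fun w => ∑ y ∈ t, (act (Dop Hs U) (f y) w) ^ 2) z) ^ m) x := by
  induction I using Finset.induction_on with
  | empty =>
    intro Y t f x
    have h1 : Aop Hs ∅ = 1 := by rw [Aop_eq_prod, Finset.prod_empty]
    have h2 : Top Hs r ∅ = 1 := by rw [Top, Finset.prod_empty]
    have h3 : Dop Hs ∅ = 1 := by rw [Dop, Finset.prod_empty]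
    rw [Finset.powerset_empty, Finset.sum_singleton, Finset.sdiff_self, h1, h2, h3,
      Finset.card_empty, pow_zero, one_mul]
    simp only [act_one]
    exact le_rfl
  | insert j J hj ih =>
    intro Y t f x
    have hN := card_hset_pos (Hs j)
    -- rewrite the left side
    have L1 : act (Aop Hs (insert j J))
          (fun w => (∑ y ∈ t, (act (Top Hs r (insert j J)) (f y) w) ^ 2) ^ m) x
        ≤ act (Aop Hs J) (fun z =>
            (∑ u ∈ hset (Hs j), ∑ y ∈ t, ((hset (Hs j)).card : ℝ)⁻¹ *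
              (act (Top Hs r J) (f y) (z + u)) ^ 2) ^ m) x
          + (4 * m) ^ m * act (Aop Hs J) (fun z => act (Eop (Hs j)) (fun w =>
              (∑ y ∈ t, (act (1 - Eop (Hs j)) (act (Top Hs r J) (f y)) w) ^ 2) ^ m) z) x := by
      rw [Aop_insert Hs hj, act_mul, ← act_fun_mul, ← act_fun_add]
      apply act_Eop_mono
      intro z
      rw [Top_insert Hs r hj]
      simp only [act_mul]
      exact one_step m hm r hr (Hs j) t (fun y => act (Top Hs r J) (f y)) z
    refine le_trans L1 ?_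
    rw [Finset.sum_powerset_insert hj]
    apply add_le_add
    · -- first term
      have key := ih (G × Y) ((hset (Hs j)) ×ˢ t)
        (fun p z => Real.sqrt ((hset (Hs j)).card : ℝ)⁻¹ * f p.2 (z + p.1)) x
      have hs : (Real.sqrt ((hset (Hs j)).card : ℝ)⁻¹) ^ 2 = ((hset (Hs j)).card : ℝ)⁻¹ :=
        Real.sq_sqrt (inv_nonneg.mpr hN.le)
      have hact : ∀ (a : AddMonoidAlgebra ℝ G) (p : G × Y) (z : G),
          (act a (fun z => Real.sqrt ((hset (Hs j)).card : ℝ)⁻¹ * f p.2 (z + p.1)) z) ^ 2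
            = ((hset (Hs j)).card : ℝ)⁻¹ * (act a (f p.2) (z + p.1)) ^ 2 := by
        intro a p z
        rw [act_fun_mul, act_shift, mul_pow, hs]
      simp only [hact, sum_product] at key
      refine le_trans key (le_of_eq ?_)
      refine Finset.sum_congr rfl fun U hU => ?_
      have hjU : j ∉ U := fun h => hj (Finset.mem_powerset.mp hU h)
      refine congrArg (fun φ => ((4 * m : ℝ) ^ m) ^ U.card * act (Aop Hs U) φ x) ?_
      funext z
      refine congrArg (fun r : ℝ => r ^ m) ?_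
      have h5 : insert j J \ U = insert j (J \ U) := Finset.insert_sdiff_of_notMem J hjU
      rw [h5, Aop_insert Hs (by simp [hj]), act_mul]
      refine congrArg (fun φ => act (Aop Hs (J \ U)) φ z) ?_
      funext w
      rw [act_Eop, Finset.mul_sum]
      refine Finset.sum_congr rfl fun u _ => ?_
      rw [Finset.mul_sum]
    · -- second term
      have e1 : ∀ (y : Y), act (1 - Eop (Hs j)) (act (Top Hs r J) (f y))
          = act (Top Hs r J) (act (1 - Eop (Hs j)) (f y)) := by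
        intro y
        rw [← act_mul, ← act_mul, mul_comm]
      simp only [e1]
      have e2 : act (Aop Hs J) (fun z => act (Eop (Hs j)) (fun w =>
              (∑ y ∈ t, (act (Top Hs r J) (act (1 - Eop (Hs j)) (f y)) w) ^ 2) ^ m) z) x
          = act (Eop (Hs j)) (fun z => act (Aop Hs J) (fun w =>
              (∑ y ∈ t, (act (Top Hs r J) (act (1 - Eop (Hs j)) (f y)) w) ^ 2) ^ m) z) x := by
        change act (Aop Hs J) (act (Eop (Hs j)) _) x = act (Eop (Hs j)) (act (Aop Hs J) _) x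
        rw [← act_mul, ← act_mul, mul_comm]
      rw [e2]
      refine le_trans (mul_le_mul_of_nonneg_left (act_Eop_mono (Hs j)
        (fun z => ih Y t (fun y => act (1 - Eop (Hs j)) (f y)) z) x) (by (clear * - hm; positivity))) ?_
      rw [act_fun_sum, Finset.mul_sum]
      refine le_of_eq (Finset.sum_congr rfl fun U hU => ?_)
      have hjU : j ∉ U := fun h => hj (Finset.mem_powerset.mp hU h)
      have h5 : insert j J \ insert j U = J \ U := by
        ext i
        simp only [Finset.mem_sdiff, Finset.mem_insert, not_or]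
        constructor
        · rintro ⟨h1 | h1, h2, h3⟩
          · exact absurd h1 h2
          · exact ⟨h1, h3⟩
        · rintro ⟨h1, h2⟩
          exact ⟨Or.inr h1, fun h => hj (h ▸ h1), h2⟩
      rw [act_fun_mul, h5, Aop_insert Hs hjU, Dop_insert Hs hjU, mul_comm (Aop Hs U),
        Finset.card_insert_of_notMem hjU, pow_succ', mul_assoc]
      simp only [act_mul]

end Vale.Agent.P042.Sharp
end
end
end

section

section

section

/-!
The functional `Phi` and the moment bound, for a down-closed family.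
-/

set_option linter.unusedSectionVars false

namespace Vale.Agent.P042.Sharp

open Finset Vale.Agent.P042

universe u v

variable {G : Type u} [AddCommGroup G] [Fintype G]
variable {ι : Type v} [Fintype ι] [DecidableEq ι] (Hs : ι → AddSubgroup G)

/-- the index family -/
def fam (Fm : Finset (Finset ι)) (S : Finset ι) : Finset (Finset ι) :=
  (Sᶜ).powerset.filter (fun U => S ∪ U ∈ Fm)

lemma mem_fam {Fm : Finset (Finset ι)} {S W : Finset ι} :
    W ∈ fam Fm S ↔ W ⊆ Sᶜ ∧ S ∪ W ∈ Fm := by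
  simp only [fam, mem_filter, mem_powerset]

/-- weighted sum of components -/
noncomputable def vop (σ : ℝ) (Fm : Finset (Finset ι)) (S : Finset ι) : AddMonoidAlgebra ℝ G :=
  ∑ W ∈ fam Fm S, σ ^ W.card • Pop Hs Sᶜ W

/-- weighted sum of the local second moments of the components -/
noncomputable def Phi (F : G → ℝ) (q : ℝ) (Fm : Finset (Finset ι)) (S : Finset ι) (x : G) : ℝ :=
  ∑ W ∈ fam Fm S, q ^ W.card * act (Aop Hs Sᶜ) (fun z => (act (Pop Hs Sᶜ W) F z) ^ 2) x

lemma Aop_nonneg (V : Finset ι) {f : G → ℝ} (h : ∀ z, 0 ≤ f z) (x : G) :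
    0 ≤ act (Aop Hs V) f x := act_Eop_nonneg _ h x

lemma Aop_mono (V : Finset ι) {f g : G → ℝ} (h : ∀ z, f z ≤ g z) (x : G) :
    act (Aop Hs V) f x ≤ act (Aop Hs V) g x := act_Eop_mono _ h x

lemma Phi_nonneg (F : G → ℝ) (q : ℝ) (hq : 0 ≤ q) (Fm : Finset (Finset ι)) (S : Finset ι) (x : G) :
    0 ≤ Phi Hs F q Fm S x :=
  Finset.sum_nonneg fun _ _ => mul_nonneg (by positivity) (Aop_nonneg Hs _ (fun _ => sq_nonneg _) x)

lemma Top_mul_vop (r σ q : ℝ) (h : r * σ = q) (Fm : Finset (Finset ι)) (S : Finset ι) :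
    Top Hs r Sᶜ * vop Hs σ Fm S = vop Hs q Fm S := by
  rw [vop, vop, Finset.mul_sum]
  refine Finset.sum_congr rfl fun W hW => ?_
  rw [mul_smul_comm, Top_mul_Pop Hs _ (mem_fam.mp hW).1, smul_smul, ← mul_pow, mul_comm σ, h]

lemma Dop_mul_vop' (σ : ℝ) (Fm : Finset (Finset ι)) {S U : Finset ι} (hU : U ⊆ Sᶜ) :
    Dop Hs U * vop Hs σ Fm S
      = ∑ W ∈ fam Fm S, (if U ⊆ W then σ ^ W.card else 0) • Pop Hs Sᶜ W := by
  rw [vop, Finset.mul_sum]
  refine Finset.sum_congr rfl fun W _ => ?_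
  rw [mul_smul_comm, Dop_mul_Pop Hs hU]
  split_ifs with h
  · rfl
  · rw [smul_zero, zero_smul]

lemma Dop_mul_vop (σ : ℝ) (Fm : Finset (Finset ι)) {S U : Finset ι} (hU : U ⊆ Sᶜ) :
    Dop Hs U * vop Hs σ Fm S = σ ^ U.card • (Dop Hs U * vop Hs σ Fm (S ∪ U)) := by
  have hdis : ∀ i ∈ U, i ∉ S := fun i hi => Finset.mem_compl.mp (hU hi)
  have h1 : Dop Hs U * vop Hs σ Fm S
      = ∑ W ∈ (fam Fm S).filter (fun W => U ⊆ W), σ ^ W.card • Pop Hs Sᶜ W := by
    rw [Dop_mul_vop' Hs σ Fm hU, Finset.sum_filter]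
    refine Finset.sum_congr rfl fun W _ => ?_
    split_ifs with h
    · rfl
    · rw [zero_smul]
  rw [h1, vop, Finset.mul_sum, Finset.smul_sum]
  symm
  refine Finset.sum_nbij' (fun W => U ∪ W) (fun W => W \ U) ?_ ?_ ?_ ?_ ?_
  · intro W hW
    obtain ⟨h2, h3⟩ := mem_fam.mp hW
    rw [Finset.mem_filter, mem_fam]
    have hUW : ∀ i ∈ W, i ∉ U ∧ i ∉ S := by
      intro i hi
      have := Finset.mem_compl.mp (h2 hi)
      rw [Finset.mem_union, not_or] at this
      exact ⟨this.2, this.1⟩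
    refine ⟨⟨?_, ?_⟩, Finset.subset_union_left⟩
    · apply Finset.union_subset hU
      intro i hi
      exact Finset.mem_compl.mpr (hUW i hi).2
    · rw [← Finset.union_assoc]
      exact h3
  · intro W hW
    rw [Finset.mem_filter, mem_fam] at hW
    obtain ⟨⟨h2, h3⟩, h4⟩ := hW
    rw [mem_fam]
    constructor
    · intro i hi
      rw [Finset.mem_sdiff] at hi
      rw [Finset.mem_compl, Finset.mem_union, not_or]
      exact ⟨Finset.mem_compl.mp (h2 hi.1), hi.2⟩
    · rw [Finset.union_assoc, Finset.union_sdiff_of_subset h4]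
      exact h3
  · intro W hW
    obtain ⟨h2, h3⟩ := mem_fam.mp hW
    ext i
    simp only [Finset.mem_sdiff, Finset.mem_union]
    constructor
    · rintro ⟨h | h, h'⟩
      · exact absurd h h'
      · exact h
    · intro h
      refine ⟨Or.inr h, fun h' => ?_⟩
      have := Finset.mem_compl.mp (h2 h)
      exact this (Finset.mem_union_right _ h')
  · intro W hW
    rw [Finset.mem_filter] at hW
    exact Finset.union_sdiff_of_subset hW.2
  · intro W hW
    obtain ⟨h2, h3⟩ := mem_fam.mp hW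
    have hUW : ∀ i ∈ W, i ∉ U ∧ i ∉ S := by
      intro i hi
      have := Finset.mem_compl.mp (h2 hi)
      rw [Finset.mem_union, not_or] at this
      exact ⟨this.2, this.1⟩
    have h4 : (S ∪ U)ᶜ \ W = Sᶜ \ (U ∪ W) := by
      ext i
      simp only [Finset.mem_sdiff, Finset.mem_compl, Finset.mem_union]
      (clear * -; tauto)
    rw [mul_smul_comm, smul_smul, Pop, Pop, ← mul_assoc, Dop_mul_Dop, h4,
      Finset.card_union_of_disjoint (Finset.disjoint_left.mpr fun i hi hi' => (hUW i hi').1 hi),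
      ← pow_add]

lemma Pop_mul_Aop {Z W V : Finset ι} (hVW : Disjoint V W) :
    Pop Hs Z W * Aop Hs V = Pop Hs (Z ∪ V) W := by
  rw [Pop, Pop, mul_assoc, Aop_mul, Finset.union_sdiff_distrib, Finset.sdiff_eq_self_of_disjoint hVW]

lemma A3 (F : G → ℝ) (σ q : ℝ) (hσq : σ ^ 2 ≤ q) (Fm : Finset (Finset ι))
    (hFm : ∀ S ∈ Fm, ∀ T, T ⊆ S → T ∈ Fm) {S V : Finset ι} (hV : V ⊆ S) (x : G) :
    act (Aop Hs Sᶜ) (fun z => (act (Aop Hs V * vop Hs σ Fm S) F z) ^ 2) x
      ≤ Phi Hs F q Fm (S \ V) x := by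
  have hq0 : 0 ≤ q := (sq_nonneg σ).trans hσq
  have h1 : act (Aop Hs V * vop Hs σ Fm S) F
      = act (∑ W ∈ fam Fm S, σ ^ W.card • Pop Hs Sᶜ W) (act (Aop Hs V) F) := by
    rw [mul_comm, act_mul, vop]
  rw [h1, norm_sum Hs (fam Fm S) (fun W hW => (mem_fam.mp hW).1) (fun W => σ ^ W.card)]
  have hcompl : (S \ V)ᶜ = Sᶜ ∪ V := by
    ext i
    simp only [Finset.mem_sdiff, Finset.mem_compl, Finset.mem_union]
    (clear * -; tauto)
  have hsub : fam Fm S ⊆ fam Fm (S \ V) := by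
    intro W hW
    obtain ⟨h2, h3⟩ := mem_fam.mp hW
    rw [mem_fam]
    refine ⟨fun i hi => ?_, ?_⟩
    · rw [hcompl]
      exact Finset.mem_union_left _ (h2 hi)
    · exact hFm _ h3 _ (Finset.union_subset_union_left Finset.sdiff_subset)
  rw [Phi]
  refine le_trans ?_ (Finset.sum_le_sum_of_subset_of_nonneg hsub fun W _ _ =>
    mul_nonneg (by (clear * - hq0; positivity)) (Aop_nonneg Hs _ (fun _ => sq_nonneg _) x))
  refine Finset.sum_le_sum fun W hW => ?_
  obtain ⟨h2, h3⟩ := mem_fam.mp hW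
  have hdis : Disjoint V W := by
    rw [Finset.disjoint_left]
    intro i hi hi'
    exact Finset.mem_compl.mp (h2 hi') (hV hi)
  have h4 : act (Pop Hs Sᶜ W) (act (Aop Hs V) F) = act (Pop Hs (S \ V)ᶜ W) F := by
    rw [← act_mul, Pop_mul_Aop Hs hdis, hcompl]
  rw [h4]
  have h5 : act (Aop Hs Sᶜ) (fun z => (act (Pop Hs (S \ V)ᶜ W) F z) ^ 2) x
      = act (Aop Hs (S \ V)ᶜ) (fun z => (act (Pop Hs (S \ V)ᶜ W) F z) ^ 2) x := by
    have h6 : act (Aop Hs V) (fun z => (act (Pop Hs (S \ V)ᶜ W) F z) ^ 2)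
        = (fun z => (act (Pop Hs (S \ V)ᶜ W) F z) ^ 2) := by
      apply act_Eop_invt
      intro h hh z
      have h7 : Invt ((V).sup Hs) (act (Pop Hs Sᶜ W * Aop Hs V) F) := invt_act _ _ _
      rw [Pop_mul_Aop Hs hdis, ← hcompl] at h7
      change (act (Pop Hs (S \ V)ᶜ W) F (z + h)) ^ 2 = (act (Pop Hs (S \ V)ᶜ W) F z) ^ 2
      rw [h7 h hh z]
    rw [hcompl, ← Aop_mul, act_mul]
    rw [hcompl] at h6
    rw [h6]
  rw [h5]
  apply mul_le_mul_of_nonneg_right _ (Aop_nonneg Hs _ (fun _ => sq_nonneg _) x)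
  rw [← pow_mul, mul_comm, pow_mul]
  exact pow_le_pow_left₀ (sq_nonneg _) hσq _

lemma A4 (F : G → ℝ) (σ q K : ℝ) (hσq : σ ^ 2 ≤ q) (Fm : Finset (Finset ι))
    (hFm : ∀ S ∈ Fm, ∀ T, T ⊆ S → T ∈ Fm)
    (hK : ∀ S x, Phi Hs F q Fm S x ≤ K * 4 ^ S.card) {S U : Finset ι} (hU : U ⊆ Sᶜ) (x : G) :
    act (Aop Hs (Sᶜ \ U)) (fun z => (act (Dop Hs U * vop Hs σ Fm S) F z) ^ 2) x
      ≤ (9 * σ ^ 2) ^ U.card * (K * 4 ^ S.card) := by
  have hq0 : 0 ≤ q := (sq_nonneg σ).trans hσq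
  have hK0 : 0 ≤ K := by
    have h1 := hK S x
    have h2 := Phi_nonneg Hs F q hq0 Fm S x
    by_contra h
    have : K * 4 ^ S.card < 0 := mul_neg_of_neg_of_pos (not_le.mp h) (by positivity)
    linarith
  have hdis : ∀ i ∈ U, i ∉ S := fun i hi => Finset.mem_compl.mp (hU hi)
  have hcomp : Sᶜ \ U = (S ∪ U)ᶜ := by
    ext i
    simp only [Finset.mem_sdiff, Finset.mem_compl, Finset.mem_union]
    (clear * -; tauto)
  -- pointwise Cauchy-Schwarz
  have hpt : ∀ z, (act (Dop Hs U * vop Hs σ Fm S) F z) ^ 2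
      ≤ (σ ^ 2) ^ U.card * (3 ^ U.card * ∑ V ∈ U.powerset,
          (2 ^ (U.card - V.card))⁻¹ * (act (Aop Hs V * vop Hs σ Fm (S ∪ U)) F z) ^ 2) := by
    intro z
    rw [Dop_mul_vop Hs σ Fm hU, act_smul, mul_pow, ← pow_mul, mul_comm U.card 2, pow_mul]
    apply mul_le_mul_of_nonneg_left _ (by positivity)
    rw [Dop_eq_sum, Finset.sum_mul, act_sum]
    have h3 : (3 : ℝ) ^ U.card = ∑ V ∈ U.powerset, (2 : ℝ) ^ (U.card - V.card) := by
      have := Finset.sum_pow_mul_eq_add_pow (1 : ℝ) 2 U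
      simp only [one_pow, one_mul] at this
      rw [this]
      norm_num
    rw [h3]
    apply Finset.sum_sq_le_sum_mul_sum_of_sq_le_mul
    · intro V _; positivity
    · intro V _; (clear * -; positivity)
    · intro V _
      rw [smul_mul_assoc, act_smul, mul_pow, ← pow_mul, mul_comm V.card 2, pow_mul, neg_one_sq,
        one_pow, one_mul, ← mul_assoc, mul_inv_cancel₀ (by positivity), one_mul]
  refine le_trans (Aop_mono Hs _ hpt x) ?_
  rw [act_fun_mul, act_fun_mul, act_fun_sum]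
  have hterm : ∑ V ∈ U.powerset, act (Aop Hs (Sᶜ \ U)) (fun z =>
        (2 ^ (U.card - V.card))⁻¹ * (act (Aop Hs V * vop Hs σ Fm (S ∪ U)) F z) ^ 2) x
      ≤ K * 4 ^ S.card * 3 ^ U.card := by
    have h3 : (3 : ℝ) ^ U.card = ∑ V ∈ U.powerset, (2 : ℝ) ^ (U.card - V.card) := by
      have := Finset.sum_pow_mul_eq_add_pow (1 : ℝ) 2 U
      simp only [one_pow, one_mul] at this
      rw [this]
      norm_num
    rw [h3, Finset.mul_sum]
    refine Finset.sum_le_sum fun V hV => ?_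
    rw [Finset.mem_powerset] at hV
    rw [act_fun_mul, hcomp]
    have h4 := A3 Hs F σ q hσq Fm hFm (S := S ∪ U) (V := V) (hV.trans Finset.subset_union_right) x
    have h5 := hK ((S ∪ U) \ V) x
    have hc : ((S ∪ U) \ V).card = S.card + (U.card - V.card) := by
      have h6 : (S ∪ U) \ V = S ∪ (U \ V) := by
        ext i
        simp only [Finset.mem_sdiff, Finset.mem_union]
        constructor
        · rintro ⟨h | h, h'⟩
          · exact Or.inl h
          · exact Or.inr ⟨h, h'⟩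
        · rintro (h | ⟨h, h'⟩)
          · exact ⟨Or.inl h, fun h' => hdis i (hV h') h⟩
          · exact ⟨Or.inr h, h'⟩
      rw [h6, Finset.card_union_of_disjoint, Finset.card_sdiff_of_subset hV]
      rw [Finset.disjoint_left]
      intro i hi hi'
      exact hdis i (Finset.mem_sdiff.mp hi').1 hi
    rw [hc] at h5
    rw [inv_mul_le_iff₀ (by positivity)]
    refine (h4.trans h5).trans (le_of_eq ?_)
    rw [pow_add, show (4 : ℝ) = 2 * 2 by norm_num, mul_pow, mul_pow]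
    ring
  have h9 : (σ ^ 2) ^ U.card * (3 ^ U.card * (K * 4 ^ S.card * 3 ^ U.card))
      = (9 * σ ^ 2) ^ U.card * (K * 4 ^ S.card) := by
    rw [mul_pow 9, show (9 : ℝ) = 3 * 3 by norm_num, mul_pow 3]
    ring
  rw [← h9]
  apply mul_le_mul_of_nonneg_left _ (by (clear * -; positivity))
  exact mul_le_mul_of_nonneg_left hterm (by positivity)

lemma A5 (F : G → ℝ) (σ q : ℝ) (hσq : 2 * σ ^ 2 ≤ q) (Fm : Finset (Finset ι)) (S : Finset ι)
    (x : G) :
    ∑ U ∈ (Sᶜ).powerset, act (Aop Hs Sᶜ) (fun z => (act (Dop Hs U * vop Hs σ Fm S) F z) ^ 2) x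
      ≤ Phi Hs F q Fm S x := by
  have h1 : ∀ U ∈ (Sᶜ).powerset,
      act (Aop Hs Sᶜ) (fun z => (act (Dop Hs U * vop Hs σ Fm S) F z) ^ 2) x
        = ∑ W ∈ fam Fm S, (if U ⊆ W then (1 : ℝ) else 0) *
            ((σ ^ 2) ^ W.card * act (Aop Hs Sᶜ) (fun z => (act (Pop Hs Sᶜ W) F z) ^ 2) x) := by
    intro U hU
    rw [Dop_mul_vop' Hs σ Fm (Finset.mem_powerset.mp hU),
      norm_sum Hs (fam Fm S) (fun W hW => (mem_fam.mp hW).1)
        (fun W => if U ⊆ W then σ ^ W.card else 0)]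
    refine Finset.sum_congr rfl fun W _ => ?_
    split_ifs with h
    · rw [one_mul, ← pow_mul, ← pow_mul, mul_comm W.card 2]
    · ring
  rw [Finset.sum_congr rfl h1, Finset.sum_comm, Phi]
  refine Finset.sum_le_sum fun W hW => ?_
  rw [← Finset.sum_mul, ← Finset.sum_filter, Finset.sum_const, nsmul_eq_mul, mul_one]
  have h2 : (Sᶜ).powerset.filter (fun U => U ⊆ W) = W.powerset := by
    ext U
    simp only [Finset.mem_filter, Finset.mem_powerset]
    constructor
    · exact fun h => h.2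
    · exact fun h => ⟨h.trans (mem_fam.mp hW).1, h⟩
  rw [h2, Finset.card_powerset, ← mul_assoc]
  apply mul_le_mul_of_nonneg_right _ (Aop_nonneg Hs _ (fun _ => sq_nonneg _) x)
  push_cast
  rw [← mul_pow]
  exact pow_le_pow_left₀ (by positivity) hσq _

/-- moment bound -/
lemma A6 (F : G → ℝ) (m : ℕ) (hm : 1 ≤ m) (r σ q K : ℝ) (hr : 4 * m * r ^ 2 = 1)
    (hrσ : r * σ = q) (hσq : 2 * σ ^ 2 ≤ q)
    (hcon : (4 * m : ℝ) ^ m * (9 * σ ^ 2) ^ (m - 1) ≤ 1)
    (Fm : Finset (Finset ι)) (hFm : ∀ S ∈ Fm, ∀ T, T ⊆ S → T ∈ Fm)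
    (hK : ∀ S x, Phi Hs F q Fm S x ≤ K * 4 ^ S.card) (S : Finset ι) (x : G) :
    act (Aop Hs Sᶜ) (fun z => (act (vop Hs q Fm S) F z) ^ (2 * m)) x ≤ (K * 4 ^ S.card) ^ m := by
  have hσq' : σ ^ 2 ≤ q := by nlinarith only [hσq]
  have hq0 : 0 ≤ q := (sq_nonneg σ).trans hσq'
  have hK0 : 0 ≤ K * 4 ^ S.card := (Phi_nonneg Hs F q hq0 Fm S x).trans (hK S x)
  have key := hyper Hs m hm r hr Sᶜ PUnit.{u+1} Finset.univ (fun _ => act (vop Hs σ Fm S) F) x
  simp only [univ_unique, ← act_mul, Top_mul_vop Hs r σ q hrσ, sum_singleton, ← pow_mul] at key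
  refine key.trans ?_
  have h3 : ∀ U ∈ (Sᶜ).powerset,
      (4 * m : ℝ) ^ (m * U.card) * act (Aop Hs U) (fun z => (act (Aop Hs (Sᶜ \ U))
          (fun w => (act (Dop Hs U * vop Hs σ Fm S) F w) ^ 2) z) ^ m) x
        ≤ (K * 4 ^ S.card) ^ (m - 1) *
            act (Aop Hs Sᶜ) (fun z => (act (Dop Hs U * vop Hs σ Fm S) F z) ^ 2) x := by
    intro U hU
    rw [Finset.mem_powerset] at hU
    have h4 : ∀ z, (act (Aop Hs (Sᶜ \ U))
          (fun w => (act (Dop Hs U * vop Hs σ Fm S) F w) ^ 2) z) ^ m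
        ≤ ((9 * σ ^ 2) ^ U.card * (K * 4 ^ S.card)) ^ (m - 1) * act (Aop Hs (Sᶜ \ U))
          (fun w => (act (Dop Hs U * vop Hs σ Fm S) F w) ^ 2) z := by
      intro z
      have h5 := A4 Hs F σ q K hσq' Fm hFm hK hU z
      have h6 : 0 ≤ act (Aop Hs (Sᶜ \ U))
          (fun w => (act (Dop Hs U * vop Hs σ Fm S) F w) ^ 2) z :=
        Aop_nonneg Hs _ (fun _ => sq_nonneg _) z
      have h7 : m = (m - 1) + 1 := by omega
      conv_lhs => rw [h7, pow_succ]
      exact mul_le_mul_of_nonneg_right (pow_le_pow_left₀ h6 h5 _) h6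
    have h5 := Aop_mono Hs U h4 x
    rw [act_fun_mul] at h5
    have h6 : act (Aop Hs U) (fun z => act (Aop Hs (Sᶜ \ U))
          (fun w => (act (Dop Hs U * vop Hs σ Fm S) F w) ^ 2) z) x
        = act (Aop Hs Sᶜ) (fun z => (act (Dop Hs U * vop Hs σ Fm S) F z) ^ 2) x := by
      change act (Aop Hs U) (act (Aop Hs (Sᶜ \ U)) _) x = _
      rw [← act_mul, Aop_mul, Finset.union_sdiff_of_subset hU]
    rw [h6] at h5
    refine (mul_le_mul_of_nonneg_left h5 (by positivity)).trans ?_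
    have h8 : (4 * m : ℝ) ^ (m * U.card) * (((9 * σ ^ 2) ^ U.card * (K * 4 ^ S.card)) ^ (m - 1) *
          act (Aop Hs Sᶜ) (fun z => (act (Dop Hs U * vop Hs σ Fm S) F z) ^ 2) x)
        = ((4 * m : ℝ) ^ m * (9 * σ ^ 2) ^ (m - 1)) ^ U.card * ((K * 4 ^ S.card) ^ (m - 1) *
          act (Aop Hs Sᶜ) (fun z => (act (Dop Hs U * vop Hs σ Fm S) F z) ^ 2) x) := by
      rw [mul_pow ((9 * σ ^ 2) ^ U.card), mul_pow ((4 * m : ℝ) ^ m), ← pow_mul, ← pow_mul,
        ← pow_mul, mul_comm U.card (m - 1)]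
      ring
    rw [h8]
    have h9 : ((4 * m : ℝ) ^ m * (9 * σ ^ 2) ^ (m - 1)) ^ U.card ≤ 1 :=
      pow_le_one₀ (by (clear * - hm; positivity)) hcon
    have h10 : 0 ≤ (K * 4 ^ S.card) ^ (m - 1) *
          act (Aop Hs Sᶜ) (fun z => (act (Dop Hs U * vop Hs σ Fm S) F z) ^ 2) x :=
      mul_nonneg (by (clear * - hK0; positivity)) (Aop_nonneg Hs _ (fun _ => sq_nonneg _) x)
    nlinarith only [h9, h10]
  refine (Finset.sum_le_sum h3).trans ?_
  rw [← Finset.mul_sum]
  have h8 : (K * 4 ^ S.card) ^ m = (K * 4 ^ S.card) ^ (m - 1) * (K * 4 ^ S.card) := by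
    rw [← pow_succ]; congr 1; omega
  rw [h8]
  apply mul_le_mul_of_nonneg_left _ (by (clear * - hK0; positivity))
  exact (A5 Hs F σ q hσq Fm S x).trans (hK S x)

lemma A7 (F : G → ℝ) (q : ℝ) (Fm : Finset (Finset ι)) (S : Finset ι) (x : G) :
    Phi Hs F q Fm S x = act (Aop Hs Sᶜ) (fun z => F z * act (vop Hs q Fm S) F z) x := by
  have h1 : (fun z => F z * act (vop Hs q Fm S) F z)
      = fun z => ∑ W ∈ fam Fm S, q ^ W.card * (F z * act (Pop Hs Sᶜ W) F z) := by
    funext z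
    rw [vop, act_sum, Finset.mul_sum]
    refine Finset.sum_congr rfl fun W _ => ?_
    rw [act_smul]
    ring
  rw [h1, act_fun_sum, Phi]
  refine Finset.sum_congr rfl fun W hW => ?_
  rw [act_fun_mul]
  congr 1
  have h2 := SA_Pop Hs (mem_fam.mp hW).1 F (act (Pop Hs Sᶜ W) F) x
  simp only [← act_mul, Pop_idem] at h2
  rw [Aop, h2]
  simp only [sq]

end Vale.Agent.P042.Sharp
end
end
end

section

section

section

/-!
The functional `Phi` and the moment bound.
-/

set_option linter.unusedSectionVars false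

namespace Vale.Agent.P042

open Finset

universe u v

variable {G : Type u} [AddCommGroup G] [Fintype G]
variable {ι : Type v} [Fintype ι] [DecidableEq ι] (Hs : ι → AddSubgroup G)

end Vale.Agent.P042
end
end
end

section

section

section

set_option autoImplicit false

/-!
# The random modulus lemma

Items `i ∈ Is` are kept independently with probability `π i`; each has a cost `ℓ i`.
-/

namespace Vale.Agent.P042

open Finset

section RM

variable {κ : Type*} [DecidableEq κ]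

/-- the probability of the random set being `R` -/
noncomputable def wtR (π : κ → ℝ) (S R : Finset κ) : ℝ :=
  (∏ i ∈ R, π i) * ∏ i ∈ S \ R, (1 - π i)

theorem wtR_nonneg (π : κ → ℝ) (S R : Finset κ) (hR : R ⊆ S)
    (h0 : ∀ i ∈ S, 0 ≤ π i) (h1 : ∀ i ∈ S, π i ≤ 1) : 0 ≤ wtR π S R := by
  unfold wtR
  apply mul_nonneg
  · exact Finset.prod_nonneg fun i hi => h0 i (hR hi)
  · exact Finset.prod_nonneg fun i hi => sub_nonneg.2 (h1 i (Finset.mem_sdiff.1 hi).1)

theorem sum_wtR (π : κ → ℝ) (S : Finset κ) : ∑ R ∈ S.powerset, wtR π S R = 1 := by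
  unfold wtR
  rw [← Finset.prod_add]
  simp

theorem sum_wtR_cost (π ℓ : κ → ℝ) (S : Finset κ) :
    ∑ R ∈ S.powerset, wtR π S R * ∑ i ∈ R, ℓ i = ∑ i ∈ S, π i * ℓ i := by
  induction S using Finset.induction_on with
  | empty => simp
  | insert a S ha ih =>
    rw [Finset.sum_powerset_insert ha, Finset.sum_insert ha, ← ih]
    have h1 : ∀ R ∈ S.powerset, wtR π (insert a S) R = (1 - π a) * wtR π S R := by
      intro R hR
      have haR : a ∉ R := fun h => ha (Finset.mem_powerset.1 hR h)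
      unfold wtR
      rw [Finset.insert_sdiff_of_notMem _ haR, Finset.prod_insert (by simp [ha])]
      ring
    have h2 : ∀ R ∈ S.powerset, wtR π (insert a S) (insert a R) = π a * wtR π S R := by
      intro R hR
      have haR : a ∉ R := fun h => ha (Finset.mem_powerset.1 hR h)
      unfold wtR
      rw [Finset.prod_insert haR]
      have : insert a S \ insert a R = S \ R := by
        ext x
        simp only [Finset.mem_sdiff, Finset.mem_insert]
        constructor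
        · rintro ⟨h1 | h1, h2⟩
          · exact absurd (Or.inl h1) h2
          · exact ⟨h1, fun h => h2 (Or.inr h)⟩
        · rintro ⟨h1, h2⟩
          refine ⟨Or.inr h1, ?_⟩
          rintro (h | h)
          · rw [h] at h1; exact ha h1
          · exact h2 h
      rw [this]
      ring
    have h3 : ∀ R ∈ S.powerset, ∑ i ∈ insert a R, ℓ i = ℓ a + ∑ i ∈ R, ℓ i := by
      intro R hR
      exact Finset.sum_insert (fun h => ha (Finset.mem_powerset.1 hR h))
    rw [Finset.sum_congr rfl fun R hR => by rw [h1 R hR],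
      Finset.sum_congr (s₁ := S.powerset) (f := fun R => wtR π (insert a S) (insert a R) *
        ∑ i ∈ insert a R, ℓ i) rfl fun R hR => by rw [h2 R hR, h3 R hR]]
    have h4 : ∑ R ∈ S.powerset, π a * wtR π S R * (ℓ a + ∑ i ∈ R, ℓ i) =
        π a * ℓ a * ∑ R ∈ S.powerset, wtR π S R +
          π a * ∑ R ∈ S.powerset, wtR π S R * ∑ i ∈ R, ℓ i := by
      rw [Finset.mul_sum, Finset.mul_sum, ← Finset.sum_add_distrib]
      refine Finset.sum_congr rfl fun R _ => ?_
      ring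
    have h5 : ∑ R ∈ S.powerset, (1 - π a) * wtR π S R * ∑ i ∈ R, ℓ i =
        (1 - π a) * ∑ R ∈ S.powerset, wtR π S R * ∑ i ∈ R, ℓ i := by
      rw [Finset.mul_sum]
      refine Finset.sum_congr rfl fun R _ => ?_
      ring
    rw [h4, h5, sum_wtR]
    ring

theorem markovR (π ℓ : κ → ℝ) (S : Finset κ) (X0 : ℝ) (hX0 : 0 < X0)
    (h0 : ∀ i ∈ S, 0 ≤ π i) (h1 : ∀ i ∈ S, π i ≤ 1) (hℓ : ∀ i ∈ S, 0 ≤ ℓ i)
    (hX : ∑ i ∈ S, π i * ℓ i ≤ X0) :
    1 / 2 ≤ ∑ R ∈ S.powerset.filter (fun R => ∑ i ∈ R, ℓ i ≤ 2 * X0), wtR π S R := by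
  have hs := Finset.sum_filter_add_sum_filter_not S.powerset
    (fun R => ∑ i ∈ R, ℓ i ≤ 2 * X0) (fun R => wtR π S R)
  rw [sum_wtR] at hs
  have hbad : ∑ R ∈ S.powerset.filter (fun R => ¬ ∑ i ∈ R, ℓ i ≤ 2 * X0), wtR π S R ≤
      (1 / (2 * X0)) * ∑ R ∈ S.powerset, wtR π S R * ∑ i ∈ R, ℓ i := by
    rw [Finset.mul_sum]
    refine (Finset.sum_le_sum (g := fun R => 1 / (2 * X0) * (wtR π S R * ∑ i ∈ R, ℓ i)) ?_).trans
      (Finset.sum_le_sum_of_subset_of_nonneg (Finset.filter_subset _ _) ?_)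
    · intro R hR
      rw [Finset.mem_filter, not_le] at hR
      have hw := wtR_nonneg π S R (Finset.mem_powerset.1 hR.1) h0 h1
      have : 1 ≤ 1 / (2 * X0) * ∑ i ∈ R, ℓ i := by
        rw [one_div, inv_mul_eq_div, one_le_div (by positivity)]
        exact hR.2.le
      calc wtR π S R = wtR π S R * 1 := (mul_one _).symm
        _ ≤ wtR π S R * (1 / (2 * X0) * ∑ i ∈ R, ℓ i) := mul_le_mul_of_nonneg_left this hw
        _ = _ := by ring
    · intro R hR _
      have hw := wtR_nonneg π S R (Finset.mem_powerset.1 hR) h0 h1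
      have : 0 ≤ ∑ i ∈ R, ℓ i :=
        Finset.sum_nonneg fun i hi => hℓ i (Finset.mem_powerset.1 hR hi)
      (clear * - hX0 hw this; positivity)
  rw [sum_wtR_cost] at hbad
  have h2 : (1 / (2 * X0)) * ∑ i ∈ S, π i * ℓ i ≤ 1 / 2 := by
    calc (1 / (2 * X0)) * ∑ i ∈ S, π i * ℓ i ≤ (1 / (2 * X0)) * X0 :=
          mul_le_mul_of_nonneg_left hX (by positivity)
      _ = 1 / 2 := by (clear * - hX0; field_simp)
  linarith

theorem random_modulus {J : Type*} (Is : Finset κ) (π ℓ : κ → ℝ) (ℓ0 X0 : ℝ)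
    (h0 : ∀ i ∈ Is, 0 ≤ π i) (h1 : ∀ i ∈ Is, π i ≤ 1) (hℓ : ∀ i ∈ Is, 0 ≤ ℓ i)
    (hℓ0 : 0 ≤ ℓ0) (hX0 : 0 < X0)
    (hX : ∑ i ∈ Is, π i * ℓ i ≤ X0)
    (Js : Finset J) (U : J → Finset κ) (Ψ : J → ℝ) (hU : ∀ j ∈ Js, U j ⊆ Is)
    (hUℓ : ∀ j ∈ Js, ∑ i ∈ U j, ℓ i ≤ ℓ0) (hΨ : ∀ j ∈ Js, 0 ≤ Ψ j) (B : ℝ)
    (hB : ∀ R ⊆ Is, ∑ i ∈ R, ℓ i ≤ ℓ0 + 2 * X0 →
      ∑ j ∈ Js.filter (fun j => U j ⊆ R), Ψ j ≤ B) :
    ∑ j ∈ Js, (∏ i ∈ U j, π i) * Ψ j ≤ 2 * B := by
  have hB0 : 0 ≤ B := by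
    refine le_trans ?_ (hB ∅ (Finset.empty_subset _) (by simp only [sum_empty]; positivity))
    exact Finset.sum_nonneg fun j hj => hΨ j (Finset.mem_filter.1 hj).1
  -- the good sets
  set G := Is.powerset.filter (fun R => ∑ i ∈ R, ℓ i ≤ ℓ0 + 2 * X0) with hG
  have hup : ∑ R ∈ G, wtR π Is R * ∑ j ∈ Js.filter (fun j => U j ⊆ R), Ψ j ≤ B := by
    calc ∑ R ∈ G, wtR π Is R * ∑ j ∈ Js.filter (fun j => U j ⊆ R), Ψ j
        ≤ ∑ R ∈ G, wtR π Is R * B := by
          refine Finset.sum_le_sum fun R hR => ?_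
          rw [hG, Finset.mem_filter, Finset.mem_powerset] at hR
          exact mul_le_mul_of_nonneg_left (hB R hR.1 hR.2) (wtR_nonneg π Is R hR.1 h0 h1)
      _ ≤ ∑ R ∈ Is.powerset, wtR π Is R * B := by
          refine Finset.sum_le_sum_of_subset_of_nonneg (Finset.filter_subset _ _) ?_
          intro R hR _
          exact mul_nonneg (wtR_nonneg π Is R (Finset.mem_powerset.1 hR) h0 h1) hB0
      _ = B := by rw [← Finset.sum_mul, sum_wtR, one_mul]
  have hlow : ∀ j ∈ Js, 1 / 2 * (∏ i ∈ U j, π i) ≤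
      ∑ R ∈ G.filter (fun R => U j ⊆ R), wtR π Is R := by
    intro j hj
    have hUj := hU j hj
    have hm := markovR π ℓ (Is \ U j) X0 hX0 (fun i hi => h0 i (Finset.mem_sdiff.1 hi).1)
      (fun i hi => h1 i (Finset.mem_sdiff.1 hi).1) (fun i hi => hℓ i (Finset.mem_sdiff.1 hi).1)
      (by
        refine le_trans ?_ hX
        refine Finset.sum_le_sum_of_subset_of_nonneg Finset.sdiff_subset ?_
        intro i hi _
        exact mul_nonneg (h0 i hi) (hℓ i hi))
    have hpi : 0 ≤ ∏ i ∈ U j, π i := Finset.prod_nonneg fun i hi => h0 i (hUj hi)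
    have h3 : (∏ i ∈ U j, π i) * ∑ R ∈ (Is \ U j).powerset.filter
        (fun R => ∑ i ∈ R, ℓ i ≤ 2 * X0), wtR π (Is \ U j) R =
        ∑ R ∈ ((Is \ U j).powerset.filter
          (fun R => ∑ i ∈ R, ℓ i ≤ 2 * X0)).image (fun R => U j ∪ R), wtR π Is R := by
      rw [Finset.sum_image, Finset.mul_sum]
      · refine Finset.sum_congr rfl fun R hR => ?_
        rw [Finset.mem_filter, Finset.mem_powerset] at hR
        have hd : Disjoint (U j) R := by
          rw [Finset.disjoint_left]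
          intro x hx hx'
          exact (Finset.mem_sdiff.1 (hR.1 hx')).2 hx
        unfold wtR
        rw [Finset.prod_union hd, sdiff_sdiff_left]
        simp only [Finset.sup_eq_union]
        ring
      · intro R hR R' hR' h
        simp only [Finset.coe_filter, Finset.mem_powerset, Set.mem_ofPred_eq] at hR hR'
        have hd : Disjoint (U j) R := by
          rw [Finset.disjoint_left]
          intro x hx hx'
          exact (Finset.mem_sdiff.1 (hR.1 hx')).2 hx
        have hd' : Disjoint (U j) R' := by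
          rw [Finset.disjoint_left]
          intro x hx hx'
          exact (Finset.mem_sdiff.1 (hR'.1 hx')).2 hx
        have e1 : (U j ∪ R) \ U j = R := Finset.union_sdiff_cancel_left hd
        have e2 : (U j ∪ R') \ U j = R' := Finset.union_sdiff_cancel_left hd'
        simp only at h
        rw [← e1, ← e2, h]
    calc 1 / 2 * (∏ i ∈ U j, π i) = (∏ i ∈ U j, π i) * (1 / 2) := mul_comm _ _
      _ ≤ (∏ i ∈ U j, π i) * ∑ R ∈ (Is \ U j).powerset.filter
          (fun R => ∑ i ∈ R, ℓ i ≤ 2 * X0), wtR π (Is \ U j) R :=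
          mul_le_mul_of_nonneg_left hm hpi
      _ = _ := h3
      _ ≤ _ := by
          refine Finset.sum_le_sum_of_subset_of_nonneg ?_ ?_
          · intro R hR
            rw [Finset.mem_image] at hR
            obtain ⟨R', hR', rfl⟩ := hR
            rw [Finset.mem_filter, Finset.mem_powerset] at hR'
            have hd : Disjoint (U j) R' := by
              rw [Finset.disjoint_left]
              intro x hx hx'
              exact (Finset.mem_sdiff.1 (hR'.1 hx')).2 hx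
            rw [hG, Finset.mem_filter, Finset.mem_filter, Finset.mem_powerset]
            refine ⟨⟨Finset.union_subset hUj (hR'.1.trans Finset.sdiff_subset), ?_⟩,
              Finset.subset_union_left⟩
            rw [Finset.sum_union hd]
            have := hUℓ j hj
            linarith only [hR', this]
          · intro R hR _
            rw [Finset.mem_filter, hG, Finset.mem_filter, Finset.mem_powerset] at hR
            exact wtR_nonneg π Is R hR.1.1 h0 h1
  have hswap : ∑ R ∈ G, wtR π Is R * ∑ j ∈ Js.filter (fun j => U j ⊆ R), Ψ j =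
      ∑ j ∈ Js, Ψ j * ∑ R ∈ G.filter (fun R => U j ⊆ R), wtR π Is R := by
    simp_rw [Finset.sum_filter, Finset.mul_sum]
    rw [Finset.sum_comm]
    refine Finset.sum_congr rfl fun j _ => Finset.sum_congr rfl fun R _ => ?_
    split_ifs <;> ring
  rw [hswap] at hup
  have hfin : ∑ j ∈ Js, Ψ j * (1 / 2 * (∏ i ∈ U j, π i)) ≤ B :=
    (Finset.sum_le_sum fun j hj => mul_le_mul_of_nonneg_left (hlow j hj) (hΨ j hj)).trans hup
  have : ∑ j ∈ Js, (∏ i ∈ U j, π i) * Ψ j = 2 * ∑ j ∈ Js, Ψ j * (1 / 2 * (∏ i ∈ U j, π i)) := by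
    rw [Finset.mul_sum]
    refine Finset.sum_congr rfl fun j _ => ?_
    ring
  rw [this]
  linarith only [hfin]

end RM

end Vale.Agent.P042
end
end
end

section

section

section

set_option autoImplicit false

namespace Vale.Agent.P042

open MeasureTheory intervalIntegral

lemma e_add (x y : ℝ) : e (x + y) = e x * e y := by
  unfold e
  rw [← Complex.exp_add]
  congr 1
  push_cast
  ring

lemma e_zero : e 0 = 1 := by
  simp [e]

lemma norm_e (x : ℝ) : ‖e x‖ = 1 := by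
  unfold e
  exact Complex.norm_exp_ofReal_mul_I _

lemma e_int (n : ℤ) : e (n : ℝ) = 1 := by
  unfold e
  rw [Complex.exp_eq_one_iff]
  refine ⟨n, ?_⟩
  push_cast
  ring

lemma conj_e (x : ℝ) : (starRingEnd ℂ) (e x) = e (-x) := by
  unfold e
  rw [← Complex.exp_conj]
  congr 1
  rw [map_mul, Complex.conj_ofReal, Complex.conj_I]
  push_cast
  ring

lemma continuous_e : Continuous e := by
  unfold e
  fun_prop

lemma integral_e (t : ℤ) : ∫ θ in (0:ℝ)..1, e (t * θ) = if t = 0 then 1 else 0 := by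
  split_ifs with ht
  · subst ht
    simp [e_zero]
  · have hne : ((2 * Real.pi * t : ℝ) : ℂ) * Complex.I ≠ 0 := by
      apply mul_ne_zero
      · norm_cast
        have : (t : ℝ) ≠ 0 := by exact_mod_cast ht
        have := Real.pi_ne_zero
        positivity
      · exact Complex.I_ne_zero
    have h1 : ∀ θ : ℝ, e (t * θ) = Complex.exp ((((2 * Real.pi * t : ℝ) : ℂ) * Complex.I) * θ) := by
      intro θ
      unfold e
      congr 1
      push_cast
      ring
    simp_rw [h1]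
    rw [integral_exp_mul_complex hne]
    have h2 : Complex.exp ((((2 * Real.pi * t : ℝ) : ℂ) * Complex.I) * ((1:ℝ):ℂ)) = 1 := by
      rw [Complex.exp_eq_one_iff]
      refine ⟨t, ?_⟩
      push_cast
      ring
    rw [h2]
    simp

/-- Fourier transform of a finitely supported function. -/
noncomputable def fts (s : Finset ℤ) (a : ℤ → ℂ) (θ : ℝ) : ℂ := ∑ x ∈ s, a x * e (-(x * θ))

lemma continuous_fts (s : Finset ℤ) (a : ℤ → ℂ) : Continuous (fts s a) := by
  unfold fts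
  apply continuous_finsetSum
  intro x _
  exact continuous_const.mul (continuous_e.comp (by fun_prop))

lemma normSq_fts (s : Finset ℤ) (a : ℤ → ℂ) (θ : ℝ) :
    ((‖fts s a θ‖ ^ 2 : ℝ) : ℂ) =
      ∑ x ∈ s, ∑ y ∈ s, a x * (starRingEnd ℂ) (a y) * e (((y - x : ℤ) : ℝ) * θ) := by
  have h1 : ((‖fts s a θ‖ ^ 2 : ℝ) : ℂ) = fts s a θ * (starRingEnd ℂ) (fts s a θ) := by
    rw [Complex.mul_conj, Complex.normSq_eq_norm_sq]
  rw [h1]
  unfold fts
  rw [map_sum, Finset.sum_mul_sum]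
  apply Finset.sum_congr rfl
  intro x _
  apply Finset.sum_congr rfl
  intro y _
  rw [map_mul, conj_e]
  have : e (((y - x : ℤ) : ℝ) * θ) = e (-(x * θ)) * e (- -(y * θ)) := by
    rw [← e_add]
    congr 1
    push_cast
    ring
  rw [this]
  ring

lemma integral_normSq_fts_mul (s : Finset ℤ) (a : ℤ → ℂ) (t : ℤ) :
    ∫ θ in (0:ℝ)..1, ((‖fts s a θ‖ ^ 2 : ℝ) : ℂ) * e (t * θ) =
      ∑ x ∈ s, ∑ y ∈ s, if x = y + t then a x * (starRingEnd ℂ) (a y) else 0 := by
  have h1 : ∀ θ : ℝ, ((‖fts s a θ‖ ^ 2 : ℝ) : ℂ) * e (t * θ) =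
      ∑ x ∈ s, ∑ y ∈ s, a x * (starRingEnd ℂ) (a y) * e (((y - x + t : ℤ) : ℝ) * θ) := by
    intro θ
    rw [normSq_fts, Finset.sum_mul]
    apply Finset.sum_congr rfl
    intro x _
    rw [Finset.sum_mul]
    apply Finset.sum_congr rfl
    intro y _
    rw [mul_assoc, ← e_add]
    congr 2
    push_cast
    ring
  simp_rw [h1]
  rw [intervalIntegral.integral_finsetSum]
  · apply Finset.sum_congr rfl
    intro x _
    rw [intervalIntegral.integral_finsetSum]
    · apply Finset.sum_congr rfl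
      intro y _
      rw [intervalIntegral.integral_const_mul, integral_e]
      by_cases h : x = y + t
      · have : y - x + t = 0 := by omega
        simp only [h, sub_add_cancel_left, neg_add_cancel, ↓reduceIte, mul_one]
      · have : ¬ (y - x + t = 0) := by omega
        simp only [this, ↓reduceIte, mul_zero, h]
    · intro y _
      apply Continuous.intervalIntegrable
      exact continuous_const.mul (continuous_e.comp (by fun_prop))
  · intro x _
    apply Continuous.intervalIntegrable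
    apply continuous_finsetSum
    intro y _
    exact continuous_const.mul (continuous_e.comp (by fun_prop))

lemma parseval (s : Finset ℤ) (a : ℤ → ℂ) :
    ∫ θ in (0:ℝ)..1, ‖fts s a θ‖ ^ 2 = ∑ x ∈ s, ‖a x‖ ^ 2 := by
  have h := integral_normSq_fts_mul s a 0
  have h2 : ∀ θ : ℝ, ((‖fts s a θ‖ ^ 2 : ℝ) : ℂ) * e (((0 : ℤ) : ℝ) * θ) = ((‖fts s a θ‖ ^ 2 : ℝ) : ℂ) := by
    intro θ
    simp [e_zero]
  simp_rw [h2] at h
  rw [intervalIntegral.integral_ofReal] at h
  have h3 : (∑ x ∈ s, ∑ y ∈ s, if x = y + 0 then a x * (starRingEnd ℂ) (a y) else 0) =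
      ((∑ x ∈ s, ‖a x‖ ^ 2 : ℝ) : ℂ) := by
    push_cast
    apply Finset.sum_congr rfl
    intro x hx
    simp only [add_zero]
    rw [Finset.sum_ite_eq]
    rw [if_pos hx, Complex.mul_conj, Complex.normSq_eq_norm_sq]
    push_cast
    rfl
  rw [h3] at h
  exact_mod_cast h

/-- the kernel -/
noncomputable def kk (N1 : ℕ) (β : ℝ) : ℂ := ∑ j ∈ Finset.Icc 1 N1, e (j * β)

lemma norm_e_sub_one_le (x : ℝ) : ‖e x - 1‖ ≤ 2 * Real.pi * |x| := by
  unfold e
  have h := Complex.norm_exp_I_mul_ofReal_sub_one (2 * Real.pi * x)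
  have h2 : Complex.exp (((2 * Real.pi * x : ℝ) : ℂ) * Complex.I) =
      Complex.exp (Complex.I * ((2 * Real.pi * x : ℝ) : ℂ)) := by
    rw [mul_comm]
  rw [h2, h]
  rw [Real.norm_eq_abs, abs_mul, abs_two]
  have h3 := Real.abs_sin_le_abs (x := (2 * Real.pi * x / 2))
  have h4 : |2 * Real.pi * x / 2| = Real.pi * |x| := by
    rw [show 2 * Real.pi * x / 2 = Real.pi * x by ring, abs_mul, abs_of_pos Real.pi_pos]
  rw [h4] at h3
  linarith only [h3]

lemma kk_lower (N1 : ℕ) (hN1 : 1 ≤ N1) (β : ℝ) (hβ : 8 * (N1 : ℝ) * |β| ≤ 1) :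
    (N1 : ℝ) / 2 ≤ ‖kk N1 β‖ := by
  have h1 : kk N1 β = e β * ∑ j ∈ Finset.range N1, e (j * β) := by
    unfold kk
    rw [Finset.mul_sum, Finset.range_eq_Ico, Finset.sum_Ico_eq_sum_range]
    rw [show Finset.Icc 1 N1 = Finset.Ico 1 (N1 + 1) by ext; simp only [Finset.mem_Icc, Finset.mem_Ico, Order.lt_add_one_iff]]
    rw [Finset.sum_Ico_eq_sum_range]
    simp only [Nat.add_sub_cancel, Nat.sub_zero]
    apply Finset.sum_congr rfl
    intro j _
    rw [← e_add]
    congr 1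
    push_cast
    ring
  rw [h1, norm_mul, norm_e, one_mul]
  have h2 : ‖(∑ j ∈ Finset.range N1, e (j * β)) - N1‖ ≤ (N1 : ℝ) / 2 := by
    have h3 : (∑ j ∈ Finset.range N1, e (j * β)) - N1 = ∑ j ∈ Finset.range N1, (e (j * β) - 1) := by
      rw [Finset.sum_sub_distrib]
      simp only [Finset.sum_const, Finset.card_range, nsmul_eq_mul, mul_one]
    rw [h3]
    calc ‖∑ j ∈ Finset.range N1, (e (j * β) - 1)‖ ≤ ∑ j ∈ Finset.range N1, ‖e (j * β) - 1‖ :=
          norm_sum_le _ _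
      _ ≤ ∑ j ∈ Finset.range N1, 2 * Real.pi * (j * |β|) := by
          apply Finset.sum_le_sum
          intro j _
          have := norm_e_sub_one_le (j * β)
          rw [abs_mul, Nat.abs_cast] at this
          exact this
      _ = 2 * Real.pi * |β| * ∑ j ∈ Finset.range N1, (j : ℝ) := by
          rw [Finset.mul_sum]
          apply Finset.sum_congr rfl
          intro j _
          ring
      _ = 2 * Real.pi * |β| * ((N1 : ℝ) * (N1 - 1) / 2) := by
          congr 1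
          have := Finset.sum_range_id_mul_two N1
          have h5 : ((∑ i ∈ Finset.range N1, i : ℕ) : ℝ) * 2 = N1 * ((N1 - 1 : ℕ) : ℝ) := by
            exact_mod_cast this
          rw [Nat.cast_sub hN1] at h5
          push_cast at h5
          linarith only [h5]
      _ ≤ (N1 : ℝ) / 2 := by
          have hpi := Real.pi_lt_four
          have hpi0 := Real.pi_pos
          have hN : (1 : ℝ) ≤ N1 := by exact_mod_cast hN1
          have hb := abs_nonneg β
          have h6 : Real.pi * (8 * (N1 : ℝ) * |β|) ≤ 4 * 1 := by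
            apply mul_le_mul hpi.le hβ (by positivity) (by norm_num)
          nlinarith only [hN, h6]
  have h4 : ‖(N1 : ℂ)‖ = N1 := by simp
  have h5 : ‖(N1 : ℂ)‖ ≤ ‖(∑ j ∈ Finset.range N1, e (j * β))‖ +
      ‖(∑ j ∈ Finset.range N1, e (j * β)) - N1‖ := by
    have := norm_sub_le (∑ j ∈ Finset.range N1, e (j * β)) ((∑ j ∈ Finset.range N1, e (j * β)) - N1)
    simpa only [RCLike.norm_natCast, ge_iff_le, sub_sub_cancel] using this
  rw [h4] at h5
  linarith only [h2, h5]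

lemma shift_sum (g : ℤ → ℂ) (N N1 j : ℕ) (hj : j ≤ N1)
    (hsupp : ∀ x : ℤ, x ∉ Finset.Icc (1 : ℤ) N → g x = 0) (φ : ℤ → ℂ) (hj1 : 1 ≤ j) :
    ∑ x ∈ Finset.Icc (1 : ℤ) N, g x * φ x =
      ∑ y ∈ Finset.Icc (-(N1 : ℤ)) N, g (y + j) * φ (y + j) := by
  have h1 : ∑ y ∈ Finset.Icc (-(N1 : ℤ)) N, g (y + j) * φ (y + j) =
      ∑ x ∈ (Finset.Icc (-(N1 : ℤ)) N).image (fun y => y + (j : ℤ)), g x * φ x := by
    rw [Finset.sum_image]
    intro a _ b _ h
    simpa using h
  rw [h1, Finset.image_add_right_Icc]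
  apply Finset.sum_subset
  · apply Finset.Icc_subset_Icc
    · have : (j : ℤ) ≤ N1 := by exact_mod_cast hj
      omega
    · omega
  · intro x _ hx
    rw [hsupp x hx, zero_mul]

lemma kk_mul_fts (g : ℤ → ℂ) (N N1 : ℕ) (hsupp : ∀ x : ℤ, x ∉ Finset.Icc (1 : ℤ) N → g x = 0)
    (r θ : ℝ) :
    kk N1 (θ - r) * fts (Finset.Icc (1 : ℤ) N) g θ =
      fts (Finset.Icc (-(N1 : ℤ)) N)
        (fun y => ∑ j ∈ Finset.Icc 1 N1, g (y + j) * e (-(j * r))) θ := by
  unfold kk fts
  rw [Finset.sum_mul]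
  simp_rw [Finset.sum_mul]
  rw [Finset.sum_comm]
  apply Finset.sum_congr rfl
  intro j hj
  rw [Finset.mem_Icc] at hj
  rw [shift_sum g N N1 j hj.2 hsupp (fun x => e (-(x * θ))) hj.1, Finset.mul_sum]
  apply Finset.sum_congr rfl
  intro y _
  have : e (j * (θ - r)) * e (-(((y + j : ℤ) : ℝ) * θ)) = e (-(j * r)) * e (-(y * θ)) := by
    rw [← e_add, ← e_add]
    congr 1
    push_cast
    ring
  calc e (j * (θ - r)) * (g (y + j) * e (-(((y + j : ℤ) : ℝ) * θ)))
      = g (y + j) * (e (j * (θ - r)) * e (-(((y + j : ℤ) : ℝ) * θ))) := by ring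
    _ = g (y + j) * (e (-(j * r)) * e (-(y * θ))) := by rw [this]
    _ = _ := by ring

lemma local_energy (g : ℤ → ℂ) (N N1 : ℕ) (hsupp : ∀ x : ℤ, x ∉ Finset.Icc (1 : ℤ) N → g x = 0)
    (r : ℝ) :
    ∫ θ in (0:ℝ)..1, ‖kk N1 (θ - r) * fts (Finset.Icc (1 : ℤ) N) g θ‖ ^ 2 =
      ∑ y ∈ Finset.Icc (-(N1 : ℤ)) N, ‖∑ x ∈ Finset.Ioc y (y + N1), g x * e (-(x * r))‖ ^ 2 := by
  simp_rw [kk_mul_fts g N N1 hsupp r]
  rw [parseval]
  apply Finset.sum_congr rfl
  intro y _
  congr 1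
  have h1 : ∑ x ∈ Finset.Ioc y (y + N1), g x * e (-(x * r)) =
      e (-(y * r)) * ∑ j ∈ Finset.Icc 1 N1, g (y + j) * e (-(j * r)) := by
    rw [Finset.mul_sum]
    symm
    apply Finset.sum_bij (fun (j : ℕ) _ => y + (j : ℤ))
    · intro j hj
      rw [Finset.mem_Icc] at hj
      rw [Finset.mem_Ioc]
      omega
    · intro a _ b _ h
      simpa using h
    · intro x hx
      rw [Finset.mem_Ioc] at hx
      refine ⟨(x - y).toNat, ?_, ?_⟩
      · rw [Finset.mem_Icc]
        omega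
      · omega
    · intro j _
      have : e (-(((y + j : ℤ) : ℝ) * r)) = e (-(y * r)) * e (-(j * r)) := by
        rw [← e_add]
        congr 1
        push_cast
        ring
      rw [this]
      ring
  rw [h1, norm_mul, norm_e, one_mul]

lemma continuous_kk (N1 : ℕ) : Continuous (kk N1) := by
  unfold kk
  apply continuous_finsetSum
  intro x _
  exact continuous_e.comp (by fun_prop)

lemma kk_periodic (N1 : ℕ) (β : ℝ) (z : ℤ) : kk N1 (β - z) = kk N1 β := by
  unfold kk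
  apply Finset.sum_congr rfl
  intro j _
  have : (j : ℝ) * (β - z) = j * β + ((-(j * z) : ℤ) : ℝ) := by
    push_cast
    ring
  rw [this, e_add, e_int, mul_one]

/-- MODULE C -/
theorem circle_method (g : ℤ → ℝ) (N M N1 Q : ℕ) (H : ℕ → ℤ) (δ0 : ℝ) (w : ℕ → ℝ)
    (hsupp : ∀ x : ℤ, x ∉ Finset.Icc (1 : ℤ) N → g x = 0)
    (hδ0 : 0 ≤ δ0) (hw : ∀ q, 0 ≤ w q)
    (hN1 : 1 ≤ N1) (hQ : 1 ≤ Q) (hN : 8 * Q * N1 ≤ N)
    (hm : ∀ θ : ℝ, ‖∑ n ∈ Finset.Icc 1 M, e (θ * H n)‖ ≤ δ0 * M ∨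
      ∃ q : ℕ, 1 ≤ q ∧ q ≤ Q ∧ ∃ a : ℤ, IsCoprime a (q : ℤ) ∧ |θ - a / q| ≤ Q / N ∧
        ‖∑ n ∈ Finset.Icc 1 M, e (θ * H n)‖ ≤ w q * M) :
    |∑ n ∈ Finset.Icc 1 M, ∑ x ∈ Finset.Icc (1 : ℤ) N, g x * g (x + H n)| ≤
      δ0 * M * ∑ x ∈ Finset.Icc (1 : ℤ) N, g x ^ 2 +
      4 * M * ∑ y ∈ Finset.Icc (-(N1 : ℤ)) N, ∑ q ∈ Finset.Icc 1 Q,
        ∑ a ∈ (Finset.range q).filter (Nat.Coprime q),
          w q * (‖∑ x ∈ Finset.Ioc y (y + N1), (g x : ℂ) * e (-(x * a / q))‖ ^ 2 / (N1 : ℝ) ^ 2) := by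
  set I := Finset.Icc (1 : ℤ) N with hI
  set gc : ℤ → ℂ := fun x => (g x : ℂ) with hgc
  have hsuppc : ∀ x : ℤ, x ∉ Finset.Icc (1 : ℤ) N → gc x = 0 := by
    intro x hx
    simp [hgc, hsupp x hx]
  set S : ℝ → ℂ := fun θ => ∑ n ∈ Finset.Icc 1 M, e (θ * H n) with hS
  have hScont : Continuous S := by
    apply continuous_finsetSum
    intro n _
    exact continuous_e.comp (by fun_prop)
  have hNpos : (0:ℝ) < N := by
    have : 1 ≤ N := le_trans (by nlinarith only [hQ, hN1]) hN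
    exact_mod_cast this
  have hN1pos : (0:ℝ) < N1 := by exact_mod_cast hN1
  -- the main identity
  have key : ((∑ n ∈ Finset.Icc 1 M, ∑ x ∈ I, g x * g (x + H n) : ℝ) : ℂ) =
      ∫ θ in (0:ℝ)..1, ((‖fts I gc θ‖ ^ 2 : ℝ) : ℂ) * S θ := by
    have h1 : ∀ θ : ℝ, ((‖fts I gc θ‖ ^ 2 : ℝ) : ℂ) * S θ =
        ∑ n ∈ Finset.Icc 1 M, ((‖fts I gc θ‖ ^ 2 : ℝ) : ℂ) * e ((H n : ℤ) * θ) := by
      intro θ
      rw [hS]
      simp only
      rw [Finset.mul_sum]
      apply Finset.sum_congr rfl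
      intro n _
      rw [mul_comm θ]
    simp_rw [h1]
    rw [intervalIntegral.integral_finsetSum]
    · push_cast
      apply Finset.sum_congr rfl
      intro n _
      have h2 := integral_normSq_fts_mul I gc (H n)
      push_cast at h2
      rw [h2]
      rw [Finset.sum_comm]
      apply Finset.sum_congr rfl
      intro y hy
      rw [Finset.sum_ite_eq']
      split_ifs with hmem
      · simp only [hgc, Complex.conj_ofReal]
        ring
      · have := hsupp (y + H n) hmem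
        simp [this]
    · intro n _
      apply Continuous.intervalIntegrable
      apply Continuous.mul
      · exact Complex.continuous_ofReal.comp ((continuous_fts I gc).norm.pow 2)
      · exact continuous_e.comp (by fun_prop)
  -- pointwise bound
  have hpt : ∀ θ : ℝ, ‖S θ‖ ≤ δ0 * M + M * ∑ q ∈ Finset.Icc 1 Q,
      ∑ a ∈ (Finset.range q).filter (Nat.Coprime q),
        w q * (4 / (N1 : ℝ) ^ 2 * ‖kk N1 (θ - a / q)‖ ^ 2) := by
    intro θ
    have hnn : ∀ q ∈ Finset.Icc 1 Q, ∀ a ∈ (Finset.range q).filter (Nat.Coprime q),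
        0 ≤ w q * (4 / (N1 : ℝ) ^ 2 * ‖kk N1 (θ - a / q)‖ ^ 2) := by
      intro q _ a _
      exact mul_nonneg (hw q) (by (clear * - hN1; positivity))
    rcases hm θ with h | ⟨q, hq1, hqQ, a, hcop, hθ, hle⟩
    · have : 0 ≤ (M : ℝ) * ∑ q ∈ Finset.Icc 1 Q, ∑ a ∈ (Finset.range q).filter (Nat.Coprime q),
        w q * (4 / (N1 : ℝ) ^ 2 * ‖kk N1 (θ - a / q)‖ ^ 2) := by
        apply mul_nonneg (by (clear * -; positivity))
        exact Finset.sum_nonneg (fun q hq => Finset.sum_nonneg (hnn q hq))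
      linarith only [this, h]
    · have hqpos : (0:ℝ) < q := by exact_mod_cast hq1
      have hqz : (q : ℤ) ≠ 0 := by omega
      -- reduce a mod q
      set a0 : ℕ := (a % q).toNat with ha0
      have hmodnn : 0 ≤ a % (q:ℤ) := Int.emod_nonneg a hqz
      have ha0' : (a0 : ℤ) = a % q := by
        rw [ha0]
        exact Int.toNat_of_nonneg hmodnn
      have ha0lt : a0 < q := by
        have : a % (q:ℤ) < q := Int.emod_lt_of_pos a (by omega)
        omega
      have hcop0 : Nat.Coprime q a0 := by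
        have h1 : IsCoprime (a0 : ℤ) (q : ℤ) := by
          rw [ha0']
          have := hcop
          rw [← Int.emod_add_mul_ediv a q] at this
          have h2 := (IsCoprime.add_mul_right_left_iff (x := a % (q:ℤ)) (y := (q:ℤ)) (z := a / q))
          have h3 : a % ↑q + ↑q * (a / ↑q) = a % ↑q + (a / ↑q) * ↑q := by ring
          rw [h3] at this
          exact h2.mp this
        rw [Nat.isCoprime_iff_coprime] at h1
        exact h1.symm
      have haq : (a : ℝ) / q = (a0 : ℝ) / q + ((a / (q:ℤ) : ℤ) : ℝ) := by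
        have h1 : (a : ℝ) = (a0 : ℝ) + q * ((a / (q:ℤ) : ℤ) : ℝ) := by
          have h2 : a = (a0 : ℤ) + q * (a / (q:ℤ)) := by
            rw [ha0']
            exact (Int.emod_add_mul_ediv a q).symm
          exact_mod_cast h2
        rw [h1]
        (clear * - hq1; field_simp)
      have hkk : (N1 : ℝ) / 2 ≤ ‖kk N1 (θ - a0 / q)‖ := by
        have h1 : kk N1 (θ - a0 / q) = kk N1 (θ - a / q) := by
          rw [haq, ← sub_sub, kk_periodic]
        rw [h1]
        apply kk_lower N1 hN1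
        have h2 : (8 : ℝ) * Q * N1 ≤ N := by exact_mod_cast hN
        calc 8 * (N1 : ℝ) * |θ - a / q| ≤ 8 * (N1 : ℝ) * (Q / N) := by
              apply mul_le_mul_of_nonneg_left hθ (by positivity)
          _ = (8 * Q * N1) / N := by ring
          _ ≤ 1 := by
              rw [div_le_one hNpos]
              exact h2
      have hone : 1 ≤ 4 / (N1 : ℝ) ^ 2 * ‖kk N1 (θ - a0 / q)‖ ^ 2 := by
        rw [div_mul_eq_mul_div, le_div_iff₀ (by positivity)]
        nlinarith [norm_nonneg (kk N1 (θ - a0 / q))]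
      have hterm : w q ≤ ∑ q ∈ Finset.Icc 1 Q, ∑ a ∈ (Finset.range q).filter (Nat.Coprime q),
        w q * (4 / (N1 : ℝ) ^ 2 * ‖kk N1 (θ - a / q)‖ ^ 2) := by
        calc w q ≤ w q * (4 / (N1 : ℝ) ^ 2 * ‖kk N1 (θ - a0 / q)‖ ^ 2) :=
              le_mul_of_one_le_right (hw q) hone
          _ ≤ ∑ a ∈ (Finset.range q).filter (Nat.Coprime q),
                w q * (4 / (N1 : ℝ) ^ 2 * ‖kk N1 (θ - a / q)‖ ^ 2) := by
              apply Finset.single_le_sum (f := fun (a : ℕ) => w q * (4 / (N1 : ℝ) ^ 2 * ‖kk N1 (θ - a / q)‖ ^ 2))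
              · exact hnn q (by rw [Finset.mem_Icc]; exact ⟨hq1, hqQ⟩)
              · rw [Finset.mem_filter, Finset.mem_range]
                exact ⟨ha0lt, hcop0⟩
          _ ≤ _ := by
              apply Finset.single_le_sum (f := fun q => ∑ a ∈ (Finset.range q).filter (Nat.Coprime q),
                w q * (4 / (N1 : ℝ) ^ 2 * ‖kk N1 (θ - a / q)‖ ^ 2))
              · intro q hq
                exact Finset.sum_nonneg (hnn q hq)
              · rw [Finset.mem_Icc]; exact ⟨hq1, hqQ⟩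
      have hM0 : (0:ℝ) ≤ M := by (clear * -; positivity)
      calc ‖S θ‖ ≤ w q * M := hle
        _ = M * w q := by ring
        _ ≤ M * _ := mul_le_mul_of_nonneg_left hterm hM0
        _ ≤ _ := by
            have : 0 ≤ δ0 * M := by (clear * - hδ0; positivity)
            linarith only [this]
  -- conclude
  have h1 : |∑ n ∈ Finset.Icc 1 M, ∑ x ∈ I, g x * g (x + H n)| ≤
      ∫ θ in (0:ℝ)..1, ‖fts I gc θ‖ ^ 2 * ‖S θ‖ := by
    have h2 : |∑ n ∈ Finset.Icc 1 M, ∑ x ∈ I, g x * g (x + H n)| =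
        ‖∫ θ in (0:ℝ)..1, ((‖fts I gc θ‖ ^ 2 : ℝ) : ℂ) * S θ‖ := by
      rw [← key, Complex.norm_real, Real.norm_eq_abs]
    rw [h2]
    have h3 := intervalIntegral.norm_integral_le_integral_norm (μ := volume)
      (f := fun θ => ((‖fts I gc θ‖ ^ 2 : ℝ) : ℂ) * S θ) (zero_le_one (α := ℝ))
    refine h3.trans (le_of_eq ?_)
    apply intervalIntegral.integral_congr
    intro θ _
    simp only [norm_mul, Complex.norm_real, Real.norm_eq_abs]
    rw [abs_of_nonneg (by (clear * -; positivity))]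
  have hcontft := (continuous_fts I gc)
  have h2 : ∫ θ in (0:ℝ)..1, ‖fts I gc θ‖ ^ 2 * ‖S θ‖ ≤
      ∫ θ in (0:ℝ)..1, (δ0 * M * ‖fts I gc θ‖ ^ 2 + ∑ q ∈ Finset.Icc 1 Q,
        ∑ a ∈ (Finset.range q).filter (Nat.Coprime q),
        (M * (w q * (4 / (N1 : ℝ) ^ 2))) * ‖kk N1 (θ - a / q) * fts I gc θ‖ ^ 2) := by
    apply intervalIntegral.integral_mono_on (zero_le_one)
    · apply Continuous.intervalIntegrable
      exact (hcontft.norm.pow 2).mul hScont.norm
    · apply Continuous.intervalIntegrable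
      apply Continuous.add
      · exact continuous_const.mul (hcontft.norm.pow 2)
      · apply continuous_finsetSum
        intro q _
        apply continuous_finsetSum
        intro a _
        apply continuous_const.mul
        apply Continuous.pow
        apply Continuous.norm
        exact ((continuous_kk N1).comp (by fun_prop)).mul hcontft
    · intro θ _
      have h3 := hpt θ
      have h4 : 0 ≤ ‖fts I gc θ‖ ^ 2 := by (clear * -; positivity)
      calc ‖fts I gc θ‖ ^ 2 * ‖S θ‖ ≤ ‖fts I gc θ‖ ^ 2 * _ := mul_le_mul_of_nonneg_left h3 h4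
        _ = _ := by
          rw [mul_add, Finset.mul_sum, Finset.mul_sum]
          congr 1
          · ring
          · apply Finset.sum_congr rfl
            intro q _
            rw [Finset.mul_sum, Finset.mul_sum]
            apply Finset.sum_congr rfl
            intro a _
            rw [norm_mul]
            ring
  refine h1.trans (h2.trans (le_of_eq ?_))
  have hc1 : ∀ (q : ℕ) (a : ℕ), Continuous (fun θ : ℝ =>
      (M * (w q * (4 / (N1 : ℝ) ^ 2))) * ‖kk N1 (θ - a / q) * fts I gc θ‖ ^ 2) := by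
    intro q a
    apply continuous_const.mul
    apply Continuous.pow
    apply Continuous.norm
    exact ((continuous_kk N1).comp (by fun_prop)).mul hcontft
  have hc2 : ∀ (q : ℕ), Continuous (fun θ : ℝ => ∑ a ∈ (Finset.range q).filter (Nat.Coprime q),
      (M * (w q * (4 / (N1 : ℝ) ^ 2))) * ‖kk N1 (θ - a / q) * fts I gc θ‖ ^ 2) := by
    intro q
    apply continuous_finsetSum
    intro a _
    exact hc1 q a
  have hc3 : Continuous (fun θ : ℝ => ∑ q ∈ Finset.Icc 1 Q,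
      ∑ a ∈ (Finset.range q).filter (Nat.Coprime q),
      (M * (w q * (4 / (N1 : ℝ) ^ 2))) * ‖kk N1 (θ - a / q) * fts I gc θ‖ ^ 2) := by
    apply continuous_finsetSum
    intro q _
    exact hc2 q
  rw [intervalIntegral.integral_add, intervalIntegral.integral_const_mul, parseval]
  · congr 1
    · congr 1
      apply Finset.sum_congr rfl
      intro x _
      simp [hgc]
    · rw [intervalIntegral.integral_finsetSum (fun q _ => (hc2 q).intervalIntegrable _ _)]
      have h5 : ∀ q ∈ Finset.Icc 1 Q, (∫ θ in (0:ℝ)..1, ∑ a ∈ (Finset.range q).filter (Nat.Coprime q),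
          (M * (w q * (4 / (N1 : ℝ) ^ 2))) * ‖kk N1 (θ - a / q) * fts I gc θ‖ ^ 2) =
          ∑ a ∈ (Finset.range q).filter (Nat.Coprime q), ∑ y ∈ Finset.Icc (-(N1 : ℤ)) N,
            4 * M * (w q * (‖∑ x ∈ Finset.Ioc y (y + N1), (g x : ℂ) * e (-(x * a / q))‖ ^ 2 / (N1 : ℝ) ^ 2)) := by
        intro q _
        rw [intervalIntegral.integral_finsetSum (fun a _ => (hc1 q a).intervalIntegrable _ _)]
        apply Finset.sum_congr rfl
        intro a _
        rw [intervalIntegral.integral_const_mul, local_energy gc N N1 hsuppc, Finset.mul_sum]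
        apply Finset.sum_congr rfl
        intro y _
        have h6 : ∀ x : ℤ, ((x : ℝ) * (a / q : ℝ)) = (x * a / q : ℝ) := by
          intro x
          ring
        simp_rw [h6]
        simp only [hgc]
        ring
      rw [Finset.sum_congr rfl h5]
      rw [Finset.mul_sum]
      have h7 : ∀ q ∈ Finset.Icc 1 Q, (∑ a ∈ (Finset.range q).filter (Nat.Coprime q), ∑ y ∈ Finset.Icc (-(N1 : ℤ)) N,
            4 * M * (w q * (‖∑ x ∈ Finset.Ioc y (y + N1), (g x : ℂ) * e (-(x * a / q))‖ ^ 2 / (N1 : ℝ) ^ 2))) =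
          ∑ y ∈ Finset.Icc (-(N1 : ℤ)) N, ∑ a ∈ (Finset.range q).filter (Nat.Coprime q),
            4 * M * (w q * (‖∑ x ∈ Finset.Ioc y (y + N1), (g x : ℂ) * e (-(x * a / q))‖ ^ 2 / (N1 : ℝ) ^ 2)) := by
        intro q _
        rw [Finset.sum_comm]
      rw [Finset.sum_congr rfl h7, Finset.sum_comm]
      apply Finset.sum_congr rfl
      intro y _
      rw [Finset.mul_sum]
      apply Finset.sum_congr rfl
      intro q _
      rw [Finset.mul_sum]
  · exact (continuous_const.mul (hcontft.norm.pow 2)).intervalIntegrable _ _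
  · exact hc3.intervalIntegrable _ _

end Vale.Agent.P042
end
end
end

section

section

section

set_option autoImplicit false

namespace Vale.Agent.P042

lemma e_eq_one_iff (x : ℝ) : e x = 1 ↔ ∃ n : ℤ, x = n := by
  unfold e
  rw [Complex.exp_eq_one_iff]
  constructor
  · rintro ⟨n, hn⟩
    refine ⟨n, ?_⟩
    have h1 : (2 * Real.pi * Complex.I) * (x : ℂ) = (2 * Real.pi * Complex.I) * (n : ℂ) := by
      push_cast at hn
      linear_combination hn
    have h2 : (2 * Real.pi * Complex.I : ℂ) ≠ 0 := Complex.two_pi_I_ne_zero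
    have h3 := mul_left_cancel₀ h2 h1
    exact_mod_cast h3
  · rintro ⟨n, hn⟩
    refine ⟨n, ?_⟩
    rw [hn]
    push_cast
    ring

lemma e_nat_mul (b : ℕ) (x : ℝ) : e (b * x) = e x ^ b := by
  induction b with
  | zero => simp [e_zero]
  | succ n ih =>
    rw [pow_succ, ← ih, ← e_add]
    congr 1
    push_cast
    ring

end Vale.Agent.P042
end
end
end

section

section

section

set_option autoImplicit false

namespace Vale.Agent.P042

/-- counting in an interval from counting in intervals of length `N1` -/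
lemma interval_count (A : Finset ℤ) (N1 : ℕ) (hN1 : 1 ≤ N1) (β : ℝ) (hβ : 0 ≤ β)
    (h : ∀ y : ℤ, ((A.filter (fun n => y < n ∧ n ≤ y + N1)).card : ℝ) ≤ β * N1) (y : ℤ) (l : ℕ) :
    ((A.filter (fun n => y < n ∧ n ≤ y + l)).card : ℝ) ≤ β * (l + N1) := by
  have hb : ∀ b : ℕ, ∀ y : ℤ, ((A.filter (fun n => y < n ∧ n ≤ y + (b * N1 : ℕ))).card : ℝ) ≤
      b * (β * N1) := by
    intro b
    induction b with
    | zero =>
      intro y
      have : A.filter (fun n => y < n ∧ n ≤ y + ((0 * N1 : ℕ) : ℤ)) = ∅ := by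
        rw [Finset.filter_eq_empty_iff]
        intro n _ h
        push_cast at h
        omega
      rw [this]
      simp
    | succ b ih =>
      intro y
      have hsub : A.filter (fun n => y < n ∧ n ≤ y + (((b + 1) * N1 : ℕ) : ℤ)) ⊆
          A.filter (fun n => y < n ∧ n ≤ y + (b * N1 : ℕ)) ∪
          A.filter (fun n => (y + (b * N1 : ℕ)) < n ∧ n ≤ (y + (b * N1 : ℕ)) + N1) := by
        intro n hn
        rw [Finset.mem_union, Finset.mem_filter, Finset.mem_filter]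
        rw [Finset.mem_filter] at hn
        obtain ⟨hnA, h1, h2⟩ := hn
        push_cast at h2 ⊢
        by_cases h3 : n ≤ y + b * N1
        · left; exact ⟨hnA, h1, h3⟩
        · right
          refine ⟨hnA, by omega, ?_⟩
          have : ((b : ℤ) + 1) * N1 = b * N1 + N1 := by ring
          omega
      have h1 := Finset.card_le_card hsub
      have h2 := Finset.card_union_le (A.filter (fun n => y < n ∧ n ≤ y + (b * N1 : ℕ)))
          (A.filter (fun n => (y + (b * N1 : ℕ)) < n ∧ n ≤ (y + (b * N1 : ℕ)) + N1))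
      have h3 := ih y
      have h4 := h (y + (b * N1 : ℕ))
      have h5 : ((A.filter (fun n => y < n ∧ n ≤ y + (((b + 1) * N1 : ℕ) : ℤ))).card : ℝ) ≤
          ((A.filter (fun n => y < n ∧ n ≤ y + (b * N1 : ℕ))).card : ℝ) +
          ((A.filter (fun n => (y + (b * N1 : ℕ)) < n ∧ n ≤ (y + (b * N1 : ℕ)) + N1)).card : ℝ) := by
        exact_mod_cast h1.trans h2
      push_cast at h3 h4 h5 ⊢
      linarith only [h3, h4, h5]
  have h1 : l ≤ (l / N1 + 1) * N1 := by
    have := Nat.div_add_mod l N1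
    have h2 := Nat.mod_lt l (by omega : N1 > 0)
    nlinarith only [this, h2]
  have h2 : (l / N1 + 1) * N1 ≤ l + N1 := by
    have := Nat.div_mul_le_self l N1
    nlinarith only [this]
  have hsub : A.filter (fun n => y < n ∧ n ≤ y + l) ⊆
      A.filter (fun n => y < n ∧ n ≤ y + (((l / N1 + 1) * N1 : ℕ) : ℤ)) := by
    intro n hn
    rw [Finset.mem_filter] at hn ⊢
    refine ⟨hn.1, hn.2.1, ?_⟩
    have : (l : ℤ) ≤ (((l / N1 + 1) * N1 : ℕ) : ℤ) := by exact_mod_cast h1
    omega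
  calc ((A.filter (fun n => y < n ∧ n ≤ y + l)).card : ℝ) ≤
      ((A.filter (fun n => y < n ∧ n ≤ y + (((l / N1 + 1) * N1 : ℕ) : ℤ))).card : ℝ) := by
        exact_mod_cast Finset.card_le_card hsub
    _ ≤ ((l / N1 + 1 : ℕ) : ℝ) * (β * N1) := hb _ y
    _ = β * (((l / N1 + 1) * N1 : ℕ) : ℝ) := by push_cast; ring
    _ ≤ β * (l + N1) := by
        apply mul_le_mul_of_nonneg_left _ hβ
        exact_mod_cast h2

/-- The exponential sum over an interval at a nontrivial fraction. -/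
lemma sum_interval_le (q a : ℕ) (hq : 2 ≤ q) (hcop : Nat.Coprime q a) (u v : ℤ) :
    ‖∑ x ∈ Finset.Ioc u v, e (-(x * a / q))‖ ≤ q := by
  have hq0 : (q : ℝ) ≠ 0 := by positivity
  set z : ℂ := e (-(a / q)) with hz
  have hzne : z ≠ 1 := by
    intro h
    rw [hz, e_eq_one_iff] at h
    obtain ⟨n, hn⟩ := h
    have h1 : (a : ℝ) = ((-n * q : ℤ) : ℝ) := by
      push_cast
      field_simp at hn
      linarith only [hn]
    have h2 : (a : ℤ) = -n * q := by exact_mod_cast h1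
    have h3 : (q : ℤ) ∣ a := ⟨-n, by rw [h2]; ring⟩
    have h4 : q ∣ a := by exact_mod_cast h3
    have h5 := Nat.Coprime.eq_one_of_dvd hcop h4
    omega
  have hzq : z ^ q = 1 := by
    rw [hz, ← e_nat_mul, e_eq_one_iff]
    refine ⟨-a, ?_⟩
    push_cast
    (clear * - hq0; field_simp)
  have hrange : ∀ n : ℕ, ‖∑ j ∈ Finset.range n, z ^ j‖ ≤ q := by
    intro n
    have h1 : ∑ j ∈ Finset.range n, z ^ j = ∑ j ∈ Finset.range (n % q), z ^ j := by
      rw [geom_sum_eq hzne, geom_sum_eq hzne]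
      congr 2
      conv_lhs => rw [← Nat.div_add_mod n q]
      rw [pow_add, pow_mul, hzq, one_pow, one_mul]
    rw [h1]
    calc ‖∑ j ∈ Finset.range (n % q), z ^ j‖ ≤ ∑ j ∈ Finset.range (n % q), ‖z ^ j‖ := norm_sum_le _ _
      _ = ∑ j ∈ Finset.range (n % q), 1 := by
          apply Finset.sum_congr rfl
          intro j _
          rw [norm_pow, hz, norm_e, one_pow]
      _ = ((n % q : ℕ) : ℝ) := by simp
      _ ≤ q := by
          exact_mod_cast (Nat.mod_lt n (by omega)).le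
  rcases le_or_gt v u with h | h
  · rw [Finset.Ioc_eq_empty (by omega)]
    simp only [Finset.sum_empty, norm_zero, Nat.cast_nonneg]
  · have h1 : ∑ x ∈ Finset.Ioc u v, e (-(x * a / q)) =
        e (-((u + 1) * a / q)) * ∑ j ∈ Finset.range (v - u).toNat, z ^ j := by
      rw [Finset.mul_sum]
      symm
      apply Finset.sum_bij (fun (j : ℕ) _ => u + 1 + (j : ℤ))
      · intro j hj
        rw [Finset.mem_range] at hj
        rw [Finset.mem_Ioc]
        omega
      · intro a _ b _ h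
        simpa only [add_right_inj, Nat.cast_inj] using h
      · intro x hx
        rw [Finset.mem_Ioc] at hx
        refine ⟨(x - u - 1).toNat, ?_, ?_⟩
        · rw [Finset.mem_range]
          (clear * - h hx; omega)
        · omega
      · intro j _
        rw [hz, ← e_nat_mul, ← e_add]
        congr 1
        push_cast
        ring
    rw [h1, norm_mul, norm_e, one_mul]
    exact hrange _

end Vale.Agent.P042
end
end
end

section

section

section

set_option autoImplicit false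

namespace Vale.Agent.P042

lemma corr_lower (A : Finset ℤ) (N T : ℕ) (α B : ℝ) (hA : A ⊆ Finset.Icc (1 : ℤ) N)
    (hα : (A.card : ℝ) = α * N) (hα0 : 0 ≤ α)
    (hB : ∀ y : ℤ, ((A.filter (fun n => y < n ∧ n ≤ y + T)).card : ℝ) ≤ B)
    (t : ℤ) (ht : |t| ≤ T) :
    ∑ x ∈ Finset.Icc (1 : ℤ) N,
      ((if x ∈ A then (1 : ℝ) else 0) - α * (if x ∈ Finset.Icc (1 : ℤ) N then 1 else 0)) *
      ((if x + t ∈ A then (1 : ℝ) else 0) - α * (if x + t ∈ Finset.Icc (1 : ℤ) N then 1 else 0)) +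
      (α ^ 2 * (N - T) - 2 * α * B) ≤
    ∑ x ∈ Finset.Icc (1 : ℤ) N, (if x ∈ A then (1 : ℝ) else 0) * (if x + t ∈ A then 1 else 0) := by
  set I := Finset.Icc (1 : ℤ) N with hI
  set f : ℤ → ℝ := fun x => if x ∈ A then 1 else 0 with hf
  set o : ℤ → ℝ := fun x => if x ∈ I then 1 else 0 with ho
  set g : ℤ → ℝ := fun x => f x - α * o x with hg
  have hfg : ∀ x, f x = g x + α * o x := by
    intro x
    simp [hg]
  have hgI : ∑ x ∈ I, g x = 0 := by
    simp only [hg]
    rw [Finset.sum_sub_distrib, ← Finset.mul_sum]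
    have h1 : ∑ x ∈ I, f x = A.card := by
      simp only [hf]
      rw [← Finset.sum_filter, Finset.sum_const, nsmul_eq_mul, mul_one]
      congr 2
      ext x
      simp only [Finset.mem_filter]
      constructor
      · exact fun h => h.2
      · exact fun h => ⟨hA h, h⟩
    have h2 : ∑ x ∈ I, o x = N := by
      simp only [ho]
      rw [← Finset.sum_filter, Finset.sum_const, nsmul_eq_mul, mul_one]
      rw [Finset.filter_true_of_mem (fun x hx => hx), hI]
      simp only [Int.card_Icc, add_sub_cancel_right, Int.toNat_natCast]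
    rw [h1, h2, hα]
    ring
  have hgout : ∀ x, x ∉ I → g x = 0 := by
    intro x hx
    have h1 : x ∉ A := fun h => hx (hA h)
    simp [hg, hf, ho, hx, h1]
  have hgle : ∀ x, g x ≤ f x := by
    intro x
    have : 0 ≤ α * o x := by
      simp only [ho]
      split_ifs <;> simp [hα0]
    simp only [hg]
    linarith only [this]
  have habs := abs_le.mp ht
  -- counting at the ends
  have hend : ∀ s : ℤ, |s| ≤ T → ∑ x ∈ I.filter (fun x => x + s ∉ I), g x ≤ B := by
    intro s hs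
    have habs := abs_le.mp hs
    have h1 : ∑ x ∈ I.filter (fun x => x + s ∉ I), g x ≤ ∑ x ∈ I.filter (fun x => x + s ∉ I), f x :=
      Finset.sum_le_sum (fun x _ => hgle x)
    refine h1.trans ?_
    have h2 : ∃ y : ℤ, ∀ x ∈ I, x + s ∉ I → y < x ∧ x ≤ y + T := by
      rcases le_or_gt 0 s with h | h
      · refine ⟨N - T, ?_⟩
        intro x hx hxs
        simp only [hI, Finset.mem_Icc] at hx hxs
        omega
      · refine ⟨0, ?_⟩
        intro x hx hxs
        simp only [hI, Finset.mem_Icc] at hx hxs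
        omega
    obtain ⟨y, hy⟩ := h2
    refine le_trans ?_ (hB y)
    simp only [hf]
    rw [← Finset.sum_filter, Finset.sum_const, nsmul_eq_mul, mul_one]
    have h3 : (I.filter (fun x => x + s ∉ I)).filter (fun x => x ∈ A) ⊆
        A.filter (fun n => y < n ∧ n ≤ y + T) := by
      intro x hx
      simp only [Finset.mem_filter] at hx ⊢
      exact ⟨hx.2, hy x hx.1.1 hx.1.2⟩
    exact_mod_cast Finset.card_le_card h3
  -- expand
  have hexp : ∑ x ∈ I, f x * f (x + t) = ∑ x ∈ I, g x * g (x + t) +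
      α * ∑ x ∈ I, g x * o (x + t) + α * ∑ x ∈ I, o x * g (x + t) +
      α ^ 2 * ∑ x ∈ I, o x * o (x + t) := by
    rw [Finset.mul_sum, Finset.mul_sum, Finset.mul_sum, ← Finset.sum_add_distrib,
      ← Finset.sum_add_distrib, ← Finset.sum_add_distrib]
    apply Finset.sum_congr rfl
    intro x _
    rw [hfg x, hfg (x + t)]
    ring
  have ha : -B ≤ ∑ x ∈ I, g x * o (x + t) := by
    have h1 : ∑ x ∈ I, g x * o (x + t) = ∑ x ∈ I, g x - ∑ x ∈ I.filter (fun x => x + t ∉ I), g x := by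
      rw [Finset.sum_filter, ← Finset.sum_sub_distrib]
      apply Finset.sum_congr rfl
      intro x _
      simp only [ho]
      split_ifs <;> (clear T B hα hα0 hB ht hA hfg hgI hgout hgle habs hend hexp; simp_all)
    rw [h1, hgI]
    have := hend t ht
    linarith only [this]
  have hb : -B ≤ ∑ x ∈ I, o x * g (x + t) := by
    have h1 : ∑ x ∈ I, o x * g (x + t) = ∑ x ∈ I, g (x + t) := by
      apply Finset.sum_congr rfl
      intro x hx
      simp [ho, hx]
    have h2 : ∑ x ∈ I, g (x + t) = ∑ z ∈ I.filter (fun z => z + (-t) ∈ I), g z := by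
      have h3 : ∑ x ∈ I, g (x + t) = ∑ z ∈ I.image (fun x => x + t), g z := by
        rw [Finset.sum_image]
        intro a _ b _ h
        simpa only [add_left_inj] using h
      rw [h3]
      symm
      apply Finset.sum_subset_zero_on_sdiff
      · intro z hz
        simp only [Finset.mem_filter] at hz
        rw [Finset.mem_image]
        exact ⟨z + -t, hz.2, by ring⟩
      · intro z hz
        simp only [Finset.mem_sdiff, Finset.mem_image, Finset.mem_filter, not_and] at hz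
        obtain ⟨⟨x, hx, rfl⟩, h4⟩ := hz
        apply hgout
        intro h5
        apply h4 h5
        have : x + t + -t = x := by ring
        rw [this]
        exact hx
      · intro z _
        rfl
    have h3 : ∑ z ∈ I.filter (fun z => z + (-t) ∈ I), g z =
        ∑ z ∈ I, g z - ∑ z ∈ I.filter (fun z => z + (-t) ∉ I), g z := by
      rw [← Finset.sum_filter_add_sum_filter_not I (fun z => z + (-t) ∈ I) g]
      ring
    rw [h1, h2, h3, hgI]
    have := hend (-t) (by rw [abs_neg]; exact ht)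
    linarith only [this]
  have hc : (N : ℝ) - T ≤ ∑ x ∈ I, o x * o (x + t) := by
    have h1 : ∑ x ∈ I, o x * o (x + t) = ((I.filter (fun x => x + t ∈ I)).card : ℝ) := by
      rw [Finset.card_filter]
      push_cast
      apply Finset.sum_congr rfl
      intro x hx
      simp [ho, hx]
    rw [h1]
    have h2 : Finset.Icc (1 + T : ℤ) N ⊆ I.filter (fun x => x + t ∈ I) ∨
        Finset.Icc (1 : ℤ) (N - T) ⊆ I.filter (fun x => x + t ∈ I) := by
      rcases le_or_gt 0 t with h | h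
      · right
        intro x hx
        simp only [hI, Finset.mem_filter, Finset.mem_Icc] at hx ⊢
        omega
      · left
        intro x hx
        simp only [hI, Finset.mem_filter, Finset.mem_Icc] at hx ⊢
        omega
    rcases h2 with h2 | h2
    · have h3 := Finset.card_le_card h2
      rw [Int.card_Icc] at h3
      have h4 : (N : ℤ) - T ≤ ((I.filter (fun x => x + t ∈ I)).card : ℤ) := by omega
      exact_mod_cast h4
    · have h3 := Finset.card_le_card h2
      rw [Int.card_Icc] at h3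
      have h4 : (N : ℤ) - T ≤ ((I.filter (fun x => x + t ∈ I)).card : ℤ) := by omega
      exact_mod_cast h4
  have hgoal : ∑ x ∈ I, g x * g (x + t) + (α ^ 2 * (N - T) - 2 * α * B) ≤ ∑ x ∈ I, f x * f (x + t) := by
    rw [hexp]
    nlinarith only [ha, hα0, hb, hc]
  exact hgoal

end Vale.Agent.P042
end
end
end

section

section

section

set_option autoImplicit false

namespace Vale.Agent.P042

open Polynomial

/-- The all-coefficient Weyl inverse statement in degree `k` with constant `C`. -/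
def WeylStmt (k C : ℕ) : Prop :=
  ∀ (p : ℝ[X]) (M : ℕ) (δ : ℝ), p.natDegree ≤ k → 1 ≤ M → 0 < δ → δ ≤ 1 →
    δ * M ≤ ‖∑ n ∈ Finset.range M, e (p.eval (n : ℝ))‖ →
    ∃ s : ℕ, 1 ≤ s ∧ (s : ℝ) ≤ (C / δ) ^ C ∧
      ∀ i, 1 ≤ i → i ≤ k → ∃ a : ℤ, |s * p.coeff i - a| ≤ (C / δ) ^ C / (M : ℝ) ^ i

lemma norm_e_one (x : ℝ) : ‖e x‖ = 1 := by
  unfold e
  exact Complex.norm_exp_ofReal_mul_I _

/-- arithmetic core: if `u` multiplies all coefficients of `H` near integers, then `u` is near a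
fraction with denominator dividing `R` -/
lemma arith_core {k R : ℕ} (hk : 1 ≤ k) {H : ℤ[X]} {M : ℕ} {B u K : ℝ} (hdeg : H.natDegree = k)
    (hlead : 0 < H.leadingCoeff) (hR : 1 ≤ R)
    (hg : ∀ g : ℤ, (∀ j : ℕ, 1 ≤ j → g ∣ H.coeff j) → g ∣ (R : ℤ))
    (hB : 1 ≤ B) (hcoef : ∀ j : ℕ, |(H.coeff j : ℝ)| ≤ B) (hK : 0 < K) (hM : 2 * K * B ^ 2 < M)
    (happ : ∀ j, 1 ≤ j → j ≤ k → ∃ a : ℤ, |u * (H.coeff j : ℝ) - a| ≤ K / (M : ℝ) ^ j) :
    ∃ (g : ℕ) (a : ℤ), 1 ≤ g ∧ g ≤ R ∧ |u - a / g| ≤ K / (H.leadingCoeff * (M : ℝ) ^ k) := by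
  have hM0 : (0 : ℝ) < M := lt_trans (by (clear * - hK hB; positivity)) hM
  have hM1 : (1 : ℝ) ≤ M := by
    have : 1 ≤ M := by
      have : (0 : ℕ) < M := by exact_mod_cast hM0
      omega
    exact_mod_cast this
  set b : ℤ := H.leadingCoeff with hb
  have hbk : H.coeff k = b := by rw [hb, leadingCoeff, hdeg]
  have hb0 : (0 : ℝ) < b := by exact_mod_cast hlead
  have hb1 : (1 : ℝ) ≤ b := by exact_mod_cast hlead
  have hbB : (b : ℝ) ≤ B := by
    have := hcoef k
    rw [hbk, abs_of_pos hb0] at this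
    exact this
  obtain ⟨pk, hpk⟩ := happ k hk le_rfl
  rw [hbk] at hpk
  -- divisibility
  have hdiv : ∀ j : ℕ, 1 ≤ j → b ∣ pk * H.coeff j := by
    intro j hj
    by_cases hjk : j ≤ k
    · obtain ⟨pj, hpj⟩ := happ j hj hjk
      have hKj : K / (M : ℝ) ^ j ≤ K / M := by
        apply div_le_div_of_nonneg_left hK.le hM0
        calc (M : ℝ) = (M : ℝ) ^ 1 := (pow_one _).symm
          _ ≤ (M : ℝ) ^ j := pow_le_pow_right₀ hM1 hj
      have hKk : K / (M : ℝ) ^ k ≤ K / M := by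
        apply div_le_div_of_nonneg_left hK.le hM0
        calc (M : ℝ) = (M : ℝ) ^ 1 := (pow_one _).symm
          _ ≤ (M : ℝ) ^ k := pow_le_pow_right₀ hM1 hk
      have h1 : |((pk * H.coeff j - b * pj : ℤ) : ℝ)| < 1 := by
        have e1 : ((pk * H.coeff j - b * pj : ℤ) : ℝ) =
            b * (u * (H.coeff j : ℝ) - pj) - (H.coeff j : ℝ) * (u * b - pk) := by
          push_cast; ring
        rw [e1]
        calc |b * (u * (H.coeff j : ℝ) - pj) - (H.coeff j : ℝ) * (u * b - pk)|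
            ≤ |b * (u * (H.coeff j : ℝ) - pj)| + |(H.coeff j : ℝ) * (u * b - pk)| := abs_sub _ _
          _ = b * |u * (H.coeff j : ℝ) - pj| + |(H.coeff j : ℝ)| * |u * b - pk| := by
            rw [abs_mul, abs_mul, abs_of_pos hb0]
          _ ≤ B * (K / M) + B * (K / M) := by
            gcongr
            · exact hpj.trans hKj
            · exact hcoef j
            · exact hpk.trans hKk
          _ = 2 * K * B / M := by ring
          _ ≤ 2 * K * B ^ 2 / M := by
            have : B ≤ B ^ 2 := by nlinarith only [hB]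
            (clear * - this hK hM0; gcongr)
          _ < 1 := by rwa [div_lt_one hM0]
      have h2 : |(pk * H.coeff j - b * pj : ℤ)| < 1 := by exact_mod_cast h1
      have h3 := Int.abs_lt_one_iff.mp h2
      exact ⟨pj, by linarith only [h3]⟩
    · rw [coeff_eq_zero_of_natDegree_lt (by omega)]
      simp only [mul_zero, dvd_zero]
  -- reduce the fraction
  set d : ℤ := (Int.gcd b pk : ℤ) with hd
  have hd0 : 0 < d := by
    rw [hd]
    exact_mod_cast Int.gcd_pos_of_ne_zero_left _ (by intro h; rw [h] at hb0; simp at hb0)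
  obtain ⟨b', hb'⟩ : d ∣ b := Int.gcd_dvd_left _ _
  obtain ⟨p', hp'⟩ : d ∣ pk := Int.gcd_dvd_right _ _
  have hcop : IsCoprime b' p' := by
    rw [Int.isCoprime_iff_gcd_eq_one]
    have h1 : Int.gcd (d * b') (d * p') = d.natAbs * Int.gcd b' p' := Int.gcd_mul_left _ _ _
    rw [← hb', ← hp'] at h1
    have h2 : d.natAbs = Int.gcd b pk := by rw [hd]; simp only [Int.natAbs_natCast]
    rw [h2] at h1
    have h3 : 0 < Int.gcd b pk := by rw [hd] at hd0; exact_mod_cast hd0
    exact Nat.eq_of_mul_eq_mul_left h3 (by rw [mul_one]; exact h1.symm)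
  have hb'0 : 0 < b' := by
    have : 0 < d * b' := by rw [← hb']; exact hlead
    exact (mul_pos_iff_of_pos_left hd0).mp this
  have hb'R : b' ∣ (R : ℤ) := by
    apply hg
    intro j hj
    have h1 := hdiv j hj
    rw [hb', hp', mul_assoc] at h1
    have h2 : b' ∣ p' * H.coeff j := Int.dvd_of_mul_dvd_mul_left (ne_of_gt hd0) h1
    exact hcop.dvd_of_dvd_mul_left h2
  have hb'le : b' ≤ R := Int.le_of_dvd (by exact_mod_cast hR) hb'R
  refine ⟨b'.toNat, p', by (clear * - hb'0; omega), by omega, ?_⟩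
  have hcast : ((b'.toNat : ℕ) : ℝ) = (b' : ℝ) := by
    have : ((b'.toNat : ℕ) : ℤ) = b' := Int.toNat_of_nonneg hb'0.le
    exact_mod_cast congrArg (Int.cast : ℤ → ℝ) this
  rw [hcast]
  have hd0' : (0 : ℝ) < d := by exact_mod_cast hd0
  have hb'0' : (0 : ℝ) < b' := by exact_mod_cast hb'0
  have e2 : (b : ℝ) = d * b' := by exact_mod_cast congrArg (Int.cast : ℤ → ℝ) hb'
  have e3 : (pk : ℝ) = d * p' := by exact_mod_cast congrArg (Int.cast : ℤ → ℝ) hp'
  have e4 : u - (p' : ℝ) / b' = (u * b - pk) / b := by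
    rw [e2, e3]; (clear * - hb'0 hd0; field_simp)
  rw [e4, abs_div, abs_of_pos hb0, div_le_div_iff₀ hb0 (by (clear * - hlead hM0; positivity))]
  calc |u * b - pk| * (b * (M : ℝ) ^ k) ≤ K / (M : ℝ) ^ k * (b * (M : ℝ) ^ k) := by (clear * - hpk hlead hM0; gcongr)
    _ = K * b := by (clear * - hM0 hlead hK; field_simp)

theorem weyl_poly_of {k C : ℕ} (hk : 1 ≤ k) (hC : 1 ≤ C) (hW : WeylStmt k C) :
    ∃ E : ℕ, 1 ≤ E ∧ ∀ R : ℕ, 1 ≤ R → ∃ K : ℕ, 1 ≤ K ∧
    ∀ (H : ℤ[X]) (M : ℕ) (δ θ B : ℝ), H.natDegree = k → 0 < H.leadingCoeff →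
    (∀ g : ℤ, (∀ j : ℕ, 1 ≤ j → g ∣ H.coeff j) → g ∣ (R : ℤ)) →
    0 < δ → δ ≤ 1 → 1 ≤ B → (∀ j : ℕ, |(H.coeff j : ℝ)| ≤ B) → (K * B / δ) ^ E ≤ M →
    δ * M ≤ ‖∑ n ∈ Finset.Icc 1 M, e (θ * ((H.eval (n : ℤ) : ℤ) : ℝ))‖ →
    ∃ (q : ℕ) (a : ℤ), 1 ≤ q ∧ (q : ℝ) ≤ (K / δ) ^ E ∧
      |θ - a / q| ≤ (K / δ) ^ E / (H.leadingCoeff * (M : ℝ) ^ k) := by
  refine ⟨C + 2, by omega, fun R hR => ⟨4 * C * R, Nat.mul_pos (Nat.mul_pos (by norm_num) hC) hR, ?_⟩⟩
  intro H M δ θ B hdeg hlead hg hδ hδ1 hB hcoef hMbig hsum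
  have hC1 : (1 : ℝ) ≤ C := by exact_mod_cast hC
  have hR1 : (1 : ℝ) ≤ R := by exact_mod_cast hR
  set Z : ℝ := ((4 * C * R : ℕ) : ℝ) / δ with hZ
  have hZeq : Z = 4 * C * R / δ := by rw [hZ]; push_cast; ring
  have hZ4 : 4 / δ ≤ Z := by
    rw [hZeq]
    have : (4 : ℝ) ≤ 4 * C * R := by nlinarith only [hC1, hR1]
    (clear * - this hδ; gcongr)
  have hδinv : 1 ≤ 1 / δ := by rw [le_div_iff₀ hδ]; linarith only [hδ1]
  have hZ1 : 1 ≤ Z := by
    have : 4 / δ = 4 * (1 / δ) := by ring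
    rw [this] at hZ4; linarith only [hZ4, hδinv]
  have hZB : ((4 * C * R : ℕ) : ℝ) * B / δ = Z * B := by rw [hZ]; ring
  rw [hZB] at hMbig
  have hM4 : 4 / δ ≤ M := by
    calc 4 / δ ≤ Z := hZ4
      _ ≤ Z * B := by nlinarith only [hB, hZ1]
      _ = (Z * B) ^ 1 := (pow_one _).symm
      _ ≤ (Z * B) ^ (C + 2) := pow_le_pow_right₀ (by nlinarith only [hB, hZ1]) (by omega)
      _ ≤ M := hMbig
  have hM0 : (0 : ℝ) < M := lt_of_lt_of_le (by (clear * - hδ; positivity)) hM4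
  have hMnat : 1 ≤ M := by
    have : 0 < M := by exact_mod_cast hM0
    omega
  -- the real polynomial
  set p : ℝ[X] := Polynomial.C θ * (H.map (Int.castRingHom ℝ)) with hp
  have hpeval : ∀ n : ℕ, p.eval (n : ℝ) = θ * ((H.eval (n : ℤ) : ℤ) : ℝ) := by
    intro n
    rw [hp, eval_mul, eval_C, eval_natCast_map]
    simp
  have hpcoeff : ∀ j, p.coeff j = θ * (H.coeff j : ℝ) := by
    intro j
    rw [hp, coeff_C_mul, coeff_map]
    simp
  have hpdeg : p.natDegree ≤ k := by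
    calc p.natDegree ≤ (H.map (Int.castRingHom ℝ)).natDegree := natDegree_C_mul_le _ _
      _ ≤ H.natDegree := natDegree_map_le
      _ = k := hdeg
  -- change of range
  have hrange : δ / 2 * M ≤ ‖∑ n ∈ Finset.range M, e (p.eval (n : ℝ))‖ := by
    have h1 : ∑ n ∈ Finset.Icc 1 M, e (θ * ((H.eval (n : ℤ) : ℤ) : ℝ)) =
        ∑ n ∈ Finset.range M, e (p.eval (n : ℝ)) + e (p.eval (M : ℝ)) - e (p.eval ((0 : ℕ) : ℝ)) := by
      have h2 : Finset.Icc 1 M = Finset.Ico 1 (M + 1) := by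
        ext x; simp only [Finset.mem_Icc, Finset.mem_Ico]; omega
      rw [h2, ← Finset.sum_range_succ (fun n : ℕ => e (p.eval (n : ℝ))),
        Finset.sum_Ico_eq_sub _ (by omega : 1 ≤ M + 1), Finset.sum_range_one]
      have h3 : ∀ n : ℕ, e (θ * ((H.eval (n : ℤ) : ℤ) : ℝ)) = e (p.eval (n : ℝ)) := by
        intro n; rw [hpeval]
      simp_rw [h3]
    have h4 : ‖∑ n ∈ Finset.Icc 1 M, e (θ * ((H.eval (n : ℤ) : ℤ) : ℝ))‖ ≤
        ‖∑ n ∈ Finset.range M, e (p.eval (n : ℝ))‖ + 2 := by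
      rw [h1]
      calc _ ≤ ‖∑ n ∈ Finset.range M, e (p.eval (n : ℝ)) + e (p.eval (M : ℝ))‖ +
            ‖e (p.eval ((0 : ℕ) : ℝ))‖ := norm_sub_le _ _
        _ ≤ ‖∑ n ∈ Finset.range M, e (p.eval (n : ℝ))‖ + ‖e (p.eval (M : ℝ))‖ +
            ‖e (p.eval ((0 : ℕ) : ℝ))‖ := by gcongr; exact norm_add_le _ _
        _ = _ := by rw [norm_e_one, norm_e_one]; ring
    have h5 : 2 ≤ δ / 2 * M := by
      rw [div_le_iff₀ hδ] at hM4; nlinarith only [hM4]
    linarith only [hsum, h4, h5]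
  obtain ⟨s, hs1, hs2, hs3⟩ := hW p M (δ / 2) hpdeg hMnat (by (clear * - hδ; positivity)) (by linarith only [hδ1]) hrange
  have hs0 : (0 : ℝ) < s := by exact_mod_cast hs1
  set K : ℝ := ((C : ℝ) / (δ / 2)) ^ C with hK
  have hK0 : 0 < K := by
    rw [hK]; have : (0 : ℝ) < C := by linarith only [hC1]
    positivity
  have hKR : K * R ≤ Z ^ C := by
    have h1 : (C : ℝ) / (δ / 2) * R ≤ Z := by
      rw [hZeq]
      have : (C : ℝ) / (δ / 2) * R = 2 * C * R / δ := by field_simp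
      rw [this]
      gcongr
      nlinarith only []
    calc K * R ≤ K * (R : ℝ) ^ C := by
          gcongr
          calc (R : ℝ) = (R : ℝ) ^ 1 := (pow_one _).symm
            _ ≤ (R : ℝ) ^ C := pow_le_pow_right₀ hR1 hC
      _ = ((C : ℝ) / (δ / 2) * R) ^ C := by rw [hK, mul_pow]
      _ ≤ Z ^ C := by
        have : (0 : ℝ) ≤ (C : ℝ) / (δ / 2) * R := by positivity
        (clear * - hC hδ hR h1; gcongr)
  have hKZ : K ≤ Z ^ C := le_trans (by nlinarith only [hR1, hs2]) hKR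
  have hZpow : Z ^ C ≤ Z ^ (C + 2) := pow_le_pow_right₀ hZ1 (by omega)
  have hbig : 2 * K * B ^ 2 < M := by
    have h1 : 2 * K * B ^ 2 < (Z * B) ^ (C + 2) := by
      have hB2 : B ^ 2 ≤ B ^ (C + 2) := pow_le_pow_right₀ hB (by omega)
      have hZ4' : 4 ≤ Z := by
        have : 4 / δ = 4 * (1 / δ) := by ring
        rw [this] at hZ4; linarith only [hZ4, hδinv]
      calc 2 * K * B ^ 2 ≤ 2 * Z ^ C * B ^ (C + 2) := by (clear * - hKZ hB2 hB hC hR hδ; gcongr)
        _ < Z ^ 2 * Z ^ C * B ^ (C + 2) := by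
          have : (2 : ℝ) < Z ^ 2 := by nlinarith only [hZ4']
          (clear * - this hC hR hδ hB; gcongr)
        _ = (Z * B) ^ (C + 2) := by ring
    linarith only [hMbig, h1]
  obtain ⟨g, a, hg1, hgR, hga⟩ := arith_core (u := s * θ) hk hdeg hlead hR hg hB hcoef hK0 hbig (by
    intro j hj hjk
    obtain ⟨a, ha⟩ := hs3 j hj hjk
    refine ⟨a, ?_⟩
    rw [hpcoeff] at ha
    rw [mul_assoc]
    exact ha)
  have hg0 : (0 : ℝ) < g := by exact_mod_cast hg1
  have hgR' : (g : ℝ) ≤ R := by exact_mod_cast hgR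
  refine ⟨s * g, a, Nat.mul_pos hs1 hg1, ?_, ?_⟩
  · push_cast
    calc (s : ℝ) * g ≤ K * R := by (clear * - hs2 hgR' hg1 hC hδ; gcongr)
      _ ≤ Z ^ C := hKR
      _ ≤ Z ^ (C + 2) := hZpow
  · have hlead' : (0 : ℝ) < (H.leadingCoeff : ℝ) := by exact_mod_cast hlead
    have e1 : θ - (a : ℝ) / ((s * g : ℕ) : ℝ) = (s * θ - a / g) / s := by
      push_cast; (clear * - hg1 hs1; field_simp)
    rw [e1, abs_div, abs_of_pos hs0]
    have hs1' : (1 : ℝ) ≤ s := by exact_mod_cast hs1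
    calc |s * θ - a / g| / s ≤ |s * θ - a / g| := div_le_self (abs_nonneg _) hs1'
      _ ≤ K / (H.leadingCoeff * (M : ℝ) ^ k) := hga
      _ ≤ Z ^ (C + 2) / (H.leadingCoeff * (M : ℝ) ^ k) := by
        gcongr
        exact hKZ.trans hZpow

end Vale.Agent.P042
end
end
end

section

section

section

namespace Vale.Agent.P042

open Finset Polynomial

lemma norm_sum_shift_le (f : ℕ → ℂ) (hf : ∀ n, ‖f n‖ ≤ 1) (L t : ℕ) :
    ‖∑ n ∈ range L, f n - ∑ n ∈ range L, f (n + t)‖ ≤ 2 * t := by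
  have h1 : ∑ n ∈ range (t + L), f n = ∑ n ∈ range t, f n + ∑ n ∈ range L, f (t + n) :=
    Finset.sum_range_add f t L
  have h2 : ∑ n ∈ range (L + t), f n = ∑ n ∈ range L, f n + ∑ n ∈ range t, f (L + n) :=
    Finset.sum_range_add f L t
  have h3 : ∑ n ∈ range L, f n - ∑ n ∈ range L, f (n + t) =
      ∑ n ∈ range t, f n - ∑ n ∈ range t, f (L + n) := by
    have h4 : ∑ n ∈ range L, f (n + t) = ∑ n ∈ range L, f (t + n) :=
      Finset.sum_congr rfl fun n _ => by rw [add_comm]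
    rw [add_comm t L] at h1
    rw [h4]
    linear_combination h1 - h2
  rw [h3]
  have h5 : ‖∑ n ∈ range t, f n‖ ≤ t := by
    refine (norm_sum_le _ _).trans ?_
    refine (Finset.sum_le_sum fun n _ => hf n).trans (by simp only [sum_const, card_range, nsmul_eq_mul, mul_one, Std.le_refl])
  have h6 : ‖∑ n ∈ range t, f (L + n)‖ ≤ t := by
    refine (norm_sum_le _ _).trans ?_
    refine (Finset.sum_le_sum fun n _ => hf (L + n)).trans (by simp only [sum_const, card_range, nsmul_eq_mul, mul_one, Std.le_refl])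
  refine (norm_sub_le _ _).trans (by linarith only [h5, h6])

lemma exists_prog (f : ℕ → ℂ) (hf : ∀ n, ‖f n‖ ≤ 1) (L M H s : ℕ) (hLM : L ≤ M)
    (Q : ℝ) (hQ : 0 < Q) (hS : (M : ℝ) ≤ Q * ‖∑ n ∈ range L, f n‖)
    (hH : 4 * Q * (s * H) < M) (hH1 : 1 ≤ H) :
    ∃ r < L, (H : ℝ) ≤ 2 * Q * ‖∑ m ∈ range H, f (r + s * m)‖ := by
  by_contra hcon
  push Not at hcon
  have h1 : ‖(H : ℂ) * ∑ n ∈ range L, f n - ∑ n ∈ range L, ∑ m ∈ range H, f (n + s * m)‖
      ≤ H * (2 * (s * H)) := by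
    have e1 : (H : ℂ) * ∑ n ∈ range L, f n - ∑ n ∈ range L, ∑ m ∈ range H, f (n + s * m) =
        ∑ m ∈ range H, (∑ n ∈ range L, f n - ∑ n ∈ range L, f (n + s * m)) := by
      rw [Finset.sum_sub_distrib, Finset.sum_comm]
      simp only [sum_const, card_range, nsmul_eq_mul]
    rw [e1]
    refine (norm_sum_le _ _).trans ?_
    calc ∑ m ∈ range H, ‖∑ n ∈ range L, f n - ∑ n ∈ range L, f (n + s * m)‖
        ≤ ∑ m ∈ range H, (2 * ((s : ℝ) * H)) := by
          refine Finset.sum_le_sum fun m hm => ?_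
          rw [Finset.mem_range] at hm
          refine (norm_sum_shift_le f hf L (s * m)).trans ?_
          have : (m : ℝ) ≤ H := by exact_mod_cast hm.le
          push_cast
          have hs0 : (0 : ℝ) ≤ s := Nat.cast_nonneg s
          nlinarith only [this]
      _ = _ := by simp only [sum_const, card_range, nsmul_eq_mul]
  have hHpos : (0 : ℝ) < H := by exact_mod_cast hH1
  have h2 : ‖∑ n ∈ range L, ∑ m ∈ range H, f (n + s * m)‖ * (2 * Q) ≤ M * H := by
    calc ‖∑ n ∈ range L, ∑ m ∈ range H, f (n + s * m)‖ * (2 * Q)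
        ≤ (∑ n ∈ range L, ‖∑ m ∈ range H, f (n + s * m)‖) * (2 * Q) :=
          mul_le_mul_of_nonneg_right (norm_sum_le _ _) (by positivity)
      _ = ∑ n ∈ range L, 2 * Q * ‖∑ m ∈ range H, f (n + s * m)‖ := by
          rw [Finset.sum_mul]
          exact Finset.sum_congr rfl fun n _ => by ring
      _ ≤ ∑ n ∈ range L, (H : ℝ) :=
          Finset.sum_le_sum fun n hn => (hcon n (Finset.mem_range.1 hn)).le
      _ = L * H := by simp only [sum_const, card_range, nsmul_eq_mul]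
      _ ≤ M * H := mul_le_mul_of_nonneg_right (by exact_mod_cast hLM) hHpos.le
  have h3 : ‖(H : ℂ) * ∑ n ∈ range L, f n‖ ≤
      ‖∑ n ∈ range L, ∑ m ∈ range H, f (n + s * m)‖ + H * (2 * (s * H)) := by
    have := norm_add_le ((H : ℂ) * ∑ n ∈ range L, f n -
      ∑ n ∈ range L, ∑ m ∈ range H, f (n + s * m)) (∑ n ∈ range L, ∑ m ∈ range H, f (n + s * m))
    rw [sub_add_cancel] at this
    linarith only [h1, this]
  rw [norm_mul] at h3
  have h4 : ‖(H : ℂ)‖ = H := by simp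
  rw [h4] at h3
  -- H*M ≤ Q*H*‖S‖
  have h5 : (H : ℝ) * M ≤ H * (Q * ‖∑ n ∈ range L, f n‖) := mul_le_mul_of_nonneg_left hS hHpos.le
  have h6 : (H : ℝ) * (Q * ‖∑ n ∈ range L, f n‖) ≤
      Q * (‖∑ n ∈ range L, ∑ m ∈ range H, f (n + s * m)‖ + H * (2 * (s * H))) := by
    calc (H : ℝ) * (Q * ‖∑ n ∈ range L, f n‖) = Q * (H * ‖∑ n ∈ range L, f n‖) := by ring
      _ ≤ _ := mul_le_mul_of_nonneg_left h3 hQ.le
  have h7 : (H : ℝ) * (4 * Q * (s * H)) < H * M := mul_lt_mul_of_pos_left hH hHpos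
  linarith

/-- the lower order part, restricted to a progression -/
noncomputable def GG (g : ℝ[X]) (k r s : ℕ) : ℝ[X] :=
  (taylor (r : ℝ) (g - monomial (k + 1) (g.coeff (k + 1)))).comp (C (s : ℝ) * X)

lemma GG_eval (g : ℝ[X]) (k r s : ℕ) (m : ℝ) :
    (GG g k r s).eval m = g.eval (r + s * m) - g.coeff (k + 1) * (r + s * m) ^ (k + 1) := by
  unfold GG
  rw [eval_comp, taylor_eval]
  simp only [eval_mul, eval_C, eval_X, eval_sub, eval_monomial]
  rw [add_comm (s * m : ℝ)]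

lemma low_natDegree (g : ℝ[X]) (k : ℕ) (hg : g.natDegree ≤ k + 1) :
    (g - monomial (k + 1) (g.coeff (k + 1))).natDegree ≤ k := by
  rw [natDegree_le_iff_coeff_eq_zero]
  intro N hN
  rw [coeff_sub, coeff_monomial]
  rcases eq_or_ne (k + 1) N with h | h
  · subst h; simp
  · rw [if_neg h, coeff_eq_zero_of_natDegree_lt (by omega)]; simp

lemma GG_natDegree (g : ℝ[X]) (k r s : ℕ) (hg : g.natDegree ≤ k + 1) :
    (GG g k r s).natDegree ≤ k := by
  unfold GG
  refine (natDegree_comp_le).trans ?_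
  rw [natDegree_taylor]
  have h1 : (C (s : ℝ) * X).natDegree ≤ 1 := by
    refine (natDegree_C_mul_le _ _).trans (by simp)
  calc _ ≤ k * 1 := Nat.mul_le_mul (low_natDegree g k hg) h1
    _ = k := by simp

lemma GG_coeff (g : ℝ[X]) (k r s i : ℕ) :
    (GG g k r s).coeff i =
      (taylor (r : ℝ) (g - monomial (k + 1) (g.coeff (k + 1)))).coeff i * (s : ℝ) ^ i := by
  unfold GG
  rw [comp_C_mul_X_coeff]

lemma low_coeff (g : ℝ[X]) (k r i : ℕ) (hg : g.natDegree ≤ k + 1) :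
    (g - monomial (k + 1) (g.coeff (k + 1))).coeff i =
      ∑ j ∈ Finset.range (k + 1), (j.choose i : ℝ) * (-(r : ℝ)) ^ (j - i) *
        (taylor (r : ℝ) (g - monomial (k + 1) (g.coeff (k + 1)))).coeff j := by
  have h := taylor_coeff_sum (-(r : ℝ))
    (taylor (r : ℝ) (g - monomial (k + 1) (g.coeff (k + 1)))) k i
    (by rw [natDegree_taylor]; exact low_natDegree g k hg)
  rw [← h, taylor_taylor]
  simp

lemma pow_diff (k a b : ℕ) (hab : a ≤ b) : b ^ (k + 1) - a ^ (k + 1) ≤ (b - a) * ((k + 1) * b ^ k) := by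
  induction k with
  | zero => simp only [zero_add, pow_one, pow_zero, mul_one, Std.le_refl]
  | succ k ih =>
    have e1 : b ^ (k + 1 + 1) - a ^ (k + 1 + 1) ≤ b * (b ^ (k + 1) - a ^ (k + 1)) +
        (b - a) * a ^ (k + 1) := by
      zify [Nat.pow_le_pow_left hab (k + 1 + 1), Nat.pow_le_pow_left hab (k + 1), hab]
      apply le_of_eq
      ring
    have e2 : a ^ (k + 1) ≤ b ^ (k + 1) := Nat.pow_le_pow_left hab _
    calc b ^ (k + 1 + 1) - a ^ (k + 1 + 1)
        ≤ b * (b ^ (k + 1) - a ^ (k + 1)) + (b - a) * a ^ (k + 1) := e1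
      _ ≤ b * ((b - a) * ((k + 1) * b ^ k)) + (b - a) * b ^ (k + 1) :=
          Nat.add_le_add (Nat.mul_le_mul_left _ ih) (Nat.mul_le_mul_left _ e2)
      _ = (b - a) * ((k + 1 + 1) * b ^ (k + 1)) := by ring

lemma prog_reduce (g : ℝ[X]) (k r s M H : ℕ) (E : ℝ) (hs : 1 ≤ s) (hr : r ≤ M) (hsH : s * H ≤ M)
    (hE : nz (s * g.coeff (k + 1)) * ((k + 1) * (2 * M) ^ k * H) ≤ E) :
    ‖∑ m ∈ range H, ee (g.eval ((r + s * m : ℕ) : ℝ))‖ ≤ ‖SS (GG g k r s) H‖ + H * (2 * Real.pi * E) := by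
  set β := g.coeff (k + 1) with hβ
  have key : ∀ m ∈ range H,
      ‖ee (g.eval ((r + s * m : ℕ) : ℝ)) - ee (β * r ^ (k + 1)) * ee ((GG g k r s).eval (m : ℝ))‖
        ≤ 2 * Real.pi * E := by
    intro m hm
    rw [Finset.mem_range] at hm
    have hdvd : s ∣ (r + s * m) ^ (k + 1) - r ^ (k + 1) := by
      have h1 : (r + s * m) - r ∣ (r + s * m) ^ (k + 1) - r ^ (k + 1) :=
        Nat.sub_dvd_pow_sub_pow _ _ _
      exact (Dvd.intro m (by rw [Nat.add_sub_cancel_left])).trans h1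
    obtain ⟨w, hw⟩ := hdvd
    have hle : r ^ (k + 1) ≤ (r + s * m) ^ (k + 1) := Nat.pow_le_pow_left (by omega) _
    have hwr : ((r + s * m : ℕ) : ℝ) ^ (k + 1) = r ^ (k + 1) + s * w := by
      have : (r + s * m) ^ (k + 1) = r ^ (k + 1) + s * w := by omega
      exact_mod_cast this
    have hev : g.eval ((r + s * m : ℕ) : ℝ) =
        (GG g k r s).eval (m : ℝ) + β * ((r + s * m : ℕ) : ℝ) ^ (k + 1) := by
      rw [GG_eval]
      push_cast
      ring
    have hround : |s * β - round (s * β)| = nz (s * β) := (nz_eq _).symm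
    have e1 : ee (g.eval ((r + s * m : ℕ) : ℝ)) = ee (β * r ^ (k + 1)) *
        ee ((GG g k r s).eval (m : ℝ)) * ee ((s * β - round (s * β)) * w) := by
      rw [hev, hwr, ← ee_add, ← ee_add]
      have : (GG g k r s).eval (m : ℝ) + β * (r ^ (k + 1) + s * w) =
          (β * r ^ (k + 1) + (GG g k r s).eval (m : ℝ) + (s * β - round (s * β)) * w) +
            ((round (s * β) * w : ℤ) : ℝ) := by
        push_cast; ring
      rw [this, ee_add_int]
    rw [e1]
    have e2 : ee (β * r ^ (k + 1)) *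
        ee ((GG g k r s).eval (m : ℝ)) * ee ((s * β - round (s * β)) * w) -
        ee (β * r ^ (k + 1)) * ee ((GG g k r s).eval (m : ℝ)) =
        ee (β * r ^ (k + 1)) * ee ((GG g k r s).eval (m : ℝ)) *
          (ee ((s * β - round (s * β)) * w) - ee 0) := by rw [ee_zero]; ring
    rw [e2, norm_mul, norm_mul, norm_ee, norm_ee, one_mul, one_mul]
    refine (norm_ee_sub_le _ _).trans ?_
    rw [sub_zero, abs_mul, hround, Nat.abs_cast]
    apply mul_le_mul_of_nonneg_left _ (by positivity)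
    refine le_trans ?_ hE
    apply mul_le_mul_of_nonneg_left _ (nz_nonneg _)
    -- w ≤ (k+1)(2M)^k H
    have hpd := pow_diff k r (r + s * m) (by omega)
    rw [hw, Nat.add_sub_cancel_left, mul_assoc] at hpd
    have h3 : w ≤ m * ((k + 1) * (r + s * m) ^ k) := Nat.le_of_mul_le_mul_left hpd hs
    have h4 : r + s * m ≤ 2 * M := by
      have : s * m ≤ s * H := Nat.mul_le_mul_left _ hm.le
      omega
    have h5 : w ≤ H * ((k + 1) * (2 * M) ^ k) :=
      h3.trans (Nat.mul_le_mul hm.le (Nat.mul_le_mul_left _ (Nat.pow_le_pow_left h4 _)))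
    calc (w : ℝ) ≤ ((H * ((k + 1) * (2 * M) ^ k) : ℕ) : ℝ) := by exact_mod_cast h5
      _ = (k + 1) * (2 * M) ^ k * H := by push_cast; ring
  have h1 : ‖∑ m ∈ range H, ee (g.eval ((r + s * m : ℕ) : ℝ)) -
      ee (β * r ^ (k + 1)) * SS (GG g k r s) H‖ ≤ H * (2 * Real.pi * E) := by
    unfold SS
    rw [Finset.mul_sum, ← Finset.sum_sub_distrib]
    refine (norm_sum_le _ _).trans ?_
    refine (Finset.sum_le_sum key).trans (by simp only [sum_const, card_range, nsmul_eq_mul, Std.le_refl])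
  have h2 := norm_sub_norm_le (∑ m ∈ range H, ee (g.eval ((r + s * m : ℕ) : ℝ)))
    (ee (β * r ^ (k + 1)) * SS (GG g k r s) H)
  rw [norm_mul, norm_ee, one_mul] at h2
  linarith only [h1, h2]

lemma recover (g : ℝ[X]) (k r s1 s0 M H : ℕ) (Q : ℝ) (hQ : 2 ≤ Q) (C0 C1 D : ℕ)
    (hg : g.natDegree ≤ k + 1)
    (hs0 : 1 ≤ s0) (hs0Q : (s0 : ℝ) ≤ Q ^ C0) (hr : r ≤ M) (hM : 1 ≤ M)
    (hH : (M : ℝ) ≤ Q ^ D * H)
    (h1 : ∀ i, 1 ≤ i → i ≤ k → nz (s1 * (GG g k r s0).coeff i) * (H : ℝ) ^ i ≤ Q ^ C1)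
    (i : ℕ) (hi : 1 ≤ i) (hik : i ≤ k) :
    nz ((s1 * s0 ^ k : ℕ) * g.coeff i) * (M : ℝ) ^ i ≤ Q ^ (2 * k + 1 + C0 * k + C1 + D * k) := by
  have hQ0 : (0 : ℝ) < Q := by linarith only [hQ]
  have hQ1 : (1 : ℝ) ≤ Q := by linarith only [hQ]
  have hM0 : (0 : ℝ) < M := by exact_mod_cast hM
  have hH0 : (0 : ℝ) < H := by
    by_contra hcon
    have : (H : ℝ) = 0 := le_antisymm (not_lt.1 hcon) (Nat.cast_nonneg _)
    rw [this, mul_zero] at hH
    linarith only [hH, hM0]
  set T := taylor (r : ℝ) (g - monomial (k + 1) (g.coeff (k + 1))) with hT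
  have hT1 : ∀ j, 1 ≤ j → j ≤ k → nz ((s1 * s0 ^ k : ℕ) * T.coeff j) * (M : ℝ) ^ j ≤
      Q ^ (C0 * k + C1 + D * k) := by
    intro j hj hjk
    have h2 := h1 j hj hjk
    rw [GG_coeff] at h2
    have e1 : ((s1 * s0 ^ k : ℕ) : ℝ) * T.coeff j =
        ((s0 ^ (k - j) : ℕ) : ℝ) * (s1 * (T.coeff j * (s0 : ℝ) ^ j)) := by
      have : (s0 : ℝ) ^ k = s0 ^ (k - j) * s0 ^ j := by rw [← pow_add]; congr 1; omega
      push_cast
      rw [this]
      ring
    have h3 : nz (((s1 * s0 ^ k : ℕ) : ℝ) * T.coeff j) ≤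
        (s0 : ℝ) ^ (k - j) * nz (s1 * (T.coeff j * (s0 : ℝ) ^ j)) := by
      rw [e1]
      refine (nz_nat_mul_le _ _).trans (le_of_eq ?_)
      push_cast
      rfl
    have h4 : (s0 : ℝ) ^ (k - j) ≤ Q ^ (C0 * k) := by
      calc (s0 : ℝ) ^ (k - j) ≤ (s0 : ℝ) ^ k :=
            pow_le_pow_right₀ (by exact_mod_cast hs0) (by omega)
        _ ≤ (Q ^ C0) ^ k := pow_le_pow_left₀ (by positivity) hs0Q _
        _ = Q ^ (C0 * k) := by rw [← pow_mul]
    have h5 : (M : ℝ) ^ j ≤ Q ^ (D * k) * (H : ℝ) ^ j := by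
      calc (M : ℝ) ^ j ≤ (Q ^ D * H) ^ j := pow_le_pow_left₀ hM0.le hH _
        _ = Q ^ (D * j) * (H : ℝ) ^ j := by rw [mul_pow, ← pow_mul]
        _ ≤ Q ^ (D * k) * (H : ℝ) ^ j := by
            apply mul_le_mul_of_nonneg_right _ (by (clear * - hH0; positivity))
            exact pow_le_pow_right₀ hQ1 (Nat.mul_le_mul_left _ hjk)
    have hnn := nz_nonneg (s1 * (T.coeff j * (s0 : ℝ) ^ j))
    calc nz ((s1 * s0 ^ k : ℕ) * T.coeff j) * (M : ℝ) ^ j
        ≤ ((s0 : ℝ) ^ (k - j) * nz (s1 * (T.coeff j * (s0 : ℝ) ^ j))) *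
            (Q ^ (D * k) * (H : ℝ) ^ j) :=
          mul_le_mul h3 h5 (by positivity) (by (clear * - hs0 hnn; positivity))
      _ = (s0 : ℝ) ^ (k - j) * (Q ^ (D * k) * (nz (s1 * (T.coeff j * (s0 : ℝ) ^ j)) *
            (H : ℝ) ^ j)) := by ring
      _ ≤ Q ^ (C0 * k) * (Q ^ (D * k) * Q ^ C1) := by
          apply mul_le_mul h4 _ (by (clear * - hQ hnn hH0; positivity)) (by positivity)
          exact mul_le_mul_of_nonneg_left h2 (by positivity)
      _ = Q ^ (C0 * k + C1 + D * k) := by rw [← pow_add, ← pow_add]; congr 1; ring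
  have hgi : g.coeff i = (g - monomial (k + 1) (g.coeff (k + 1))).coeff i := by
    rw [coeff_sub, coeff_monomial, if_neg (by omega), sub_zero]
  rw [hgi, low_coeff g k r i hg, ← hT, Finset.mul_sum]
  have h6 : nz (∑ j ∈ range (k + 1), ((s1 * s0 ^ k : ℕ) : ℝ) *
      ((j.choose i : ℝ) * (-(r : ℝ)) ^ (j - i) * T.coeff j)) * (M : ℝ) ^ i ≤
      ∑ j ∈ range (k + 1), (2 : ℝ) ^ k * Q ^ (C0 * k + C1 + D * k) := by
    refine (mul_le_mul_of_nonneg_right (nz_sum_le _ _) (by positivity)).trans ?_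
    rw [Finset.sum_mul]
    refine Finset.sum_le_sum fun j hj => ?_
    rw [Finset.mem_range] at hj
    rcases Nat.lt_or_ge j i with hji | hji
    · rw [Nat.choose_eq_zero_of_lt hji]
      have : nz (((s1 * s0 ^ k : ℕ) : ℝ) * (((0 : ℕ) : ℝ) * (-(r : ℝ)) ^ (j - i) * T.coeff j)) = 0 := by
        simp only [nz, Nat.cast_mul, Nat.cast_pow, CharP.cast_eq_zero, zero_mul, mul_zero, QuotientAddGroup.mk_zero, norm_zero]
      rw [this, zero_mul]
      positivity
    · have e2 : ((s1 * s0 ^ k : ℕ) : ℝ) * ((j.choose i : ℝ) * (-(r : ℝ)) ^ (j - i) * T.coeff j) =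
          (((j.choose i : ℤ) * (-(r : ℤ)) ^ (j - i) : ℤ) : ℝ) *
            (((s1 * s0 ^ k : ℕ) : ℝ) * T.coeff j) := by
        push_cast
        ring
      rw [e2]
      have h7 : |(((j.choose i : ℤ) * (-(r : ℤ)) ^ (j - i) : ℤ) : ℝ)| ≤ 2 ^ k * (M : ℝ) ^ (j - i) := by
        push_cast
        rw [abs_mul, abs_pow, abs_neg, Nat.abs_cast, Nat.abs_cast]
        apply mul_le_mul _ _ (by (clear * -; positivity)) (by positivity)
        · have h8 : j.choose i ≤ 2 ^ j := Nat.choose_le_two_pow j i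
          have h9 : 2 ^ j ≤ 2 ^ k := Nat.pow_le_pow_right (by norm_num) (by omega)
          exact_mod_cast h8.trans h9
        · exact pow_le_pow_left₀ (by (clear * -; positivity)) (by exact_mod_cast hr) _
      have hnn := nz_nonneg (((s1 * s0 ^ k : ℕ) : ℝ) * T.coeff j)
      calc nz ((((j.choose i : ℤ) * (-(r : ℤ)) ^ (j - i) : ℤ) : ℝ) *
            (((s1 * s0 ^ k : ℕ) : ℝ) * T.coeff j)) * (M : ℝ) ^ i
          ≤ ((2 ^ k * (M : ℝ) ^ (j - i)) * nz (((s1 * s0 ^ k : ℕ) : ℝ) * T.coeff j)) *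
              (M : ℝ) ^ i := by
            apply mul_le_mul_of_nonneg_right _ (by (clear * - hM; positivity))
            exact (nz_int_mul_le _ _).trans (mul_le_mul_of_nonneg_right h7 hnn)
        _ = 2 ^ k * (nz (((s1 * s0 ^ k : ℕ) : ℝ) * T.coeff j) * (M : ℝ) ^ j) := by
            have : (M : ℝ) ^ j = M ^ (j - i) * M ^ i := by rw [← pow_add]; congr 1; omega
            rw [this]; ring
        _ ≤ 2 ^ k * Q ^ (C0 * k + C1 + D * k) := by
            apply mul_le_mul_of_nonneg_left _ (by positivity)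
            exact hT1 j (by omega) (by omega)
  refine h6.trans ?_
  rw [Finset.sum_const, Finset.card_range, nsmul_eq_mul]
  have h10 : ((k + 1 : ℕ) : ℝ) ≤ Q ^ (k + 1) := by
    have h1 : k + 1 ≤ 2 ^ (k + 1) := Nat.lt_two_pow_self.le
    calc ((k + 1 : ℕ) : ℝ) ≤ 2 ^ (k + 1) := by exact_mod_cast h1
      _ ≤ Q ^ (k + 1) := pow_le_pow_left₀ (by norm_num) hQ _
  have h11 : (2 : ℝ) ^ k ≤ Q ^ k := pow_le_pow_left₀ (by norm_num) hQ _
  calc ((k + 1 : ℕ) : ℝ) * (2 ^ k * Q ^ (C0 * k + C1 + D * k))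
      ≤ Q ^ (k + 1) * (Q ^ k * Q ^ (C0 * k + C1 + D * k)) := by
        apply mul_le_mul h10 _ (by positivity) (by positivity)
        exact mul_le_mul_of_nonneg_right h11 (by positivity)
    _ = _ := by rw [← pow_add, ← pow_add]; congr 1; ring

/-- Weyl inverse theorem, all coefficients, normalised form. -/
theorem weylB (k : ℕ) : ∃ C : ℕ, ∀ (g : ℝ[X]), g.natDegree ≤ k → ∀ (Q : ℝ), 2 ≤ Q →
    ∀ (M L : ℕ), L ≤ M → 1 ≤ M → (M : ℝ) ≤ Q * ‖SS g L‖ →
    ∃ s : ℕ, 1 ≤ s ∧ (s : ℝ) ≤ Q ^ C ∧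
      ∀ i, 1 ≤ i → i ≤ k → nz (s * g.coeff i) * (M : ℝ) ^ i ≤ Q ^ C := by
  induction k with
  | zero =>
    refine ⟨0, fun g _ Q _ M L _ _ _ => ⟨1, le_refl _, by simp, fun i h1 h2 => by omega⟩⟩
  | succ k ih =>
    obtain ⟨C1, hC1⟩ := ih
    obtain ⟨C0, hC0⟩ := weylA k
    set D : ℕ := C0 + 2 * k + 8 with hD
    set E1 : ℕ := 2 * k + 1 + C0 * k + 3 * C1 + (D + 1) * k with hE1
    set C' : ℕ := D * (k + 1) + E1 + 2 * C0 + 3 * C1 + C0 * k with hC'
    refine ⟨C', fun g hg Q hQ M L hL hM hS => ?_⟩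
    have hQ0 : (0 : ℝ) < Q := by linarith only [hQ]
    have hQ1 : (1 : ℝ) ≤ Q := by linarith only [hQ]
    have hM0 : (0 : ℝ) < M := by exact_mod_cast hM
    have powle : ∀ {x y : ℕ}, x ≤ y → Q ^ x ≤ Q ^ y := fun h => pow_le_pow_right₀ hQ1 h
    rcases lt_or_ge (M : ℝ) (Q ^ D) with hsmall | hlarge
    · refine ⟨1, le_refl _, ?_, fun i hi hik => ?_⟩
      · simp only [Nat.cast_one]
        exact one_le_pow₀ hQ1
      · calc nz ((1 : ℕ) * g.coeff i) * (M : ℝ) ^ i
            ≤ 1 * (M : ℝ) ^ i := by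
              apply mul_le_mul_of_nonneg_right _ (by (clear * - hM; positivity))
              exact (nz_le_half _).trans (by norm_num)
          _ ≤ 1 * (Q ^ D) ^ i := by
              apply mul_le_mul_of_nonneg_left _ (by norm_num)
              exact pow_le_pow_left₀ hM0.le hsmall.le _
          _ = Q ^ (D * i) := by rw [one_mul, ← pow_mul]
          _ ≤ Q ^ C' := powle (by
              have : D * i ≤ D * (k + 1) := Nat.mul_le_mul_left _ hik
              (clear * - this; omega))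
    obtain ⟨s0, hs0, hs0Q, hs0c⟩ := hC0 g hg Q hQ M L hL hM hS
    set H : ℕ := ⌊(M : ℝ) / Q ^ D⌋₊ with hH
    have hQD : (0 : ℝ) < Q ^ D := by positivity
    have hx1 : 1 ≤ (M : ℝ) / Q ^ D := by rw [le_div_iff₀ hQD]; linarith only [hlarge]
    have hH1 : 1 ≤ H := by rw [hH]; exact Nat.le_floor (by simpa only [Nat.cast_one] using hx1)
    have hHle : (H : ℝ) * Q ^ D ≤ M := by
      have : (H : ℝ) ≤ M / Q ^ D := Nat.floor_le (by positivity)
      rwa [le_div_iff₀ hQD] at this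
    have hHge : (M : ℝ) ≤ Q ^ (D + 1) * H := by
      have h1 : (M : ℝ) / Q ^ D < H + 1 := Nat.lt_floor_add_one _
      rw [div_lt_iff₀ hQD] at h1
      have h2 : (1 : ℝ) ≤ H := by exact_mod_cast hH1
      calc (M : ℝ) ≤ (H + 1) * Q ^ D := h1.le
        _ ≤ (H * Q) * Q ^ D := by
            apply mul_le_mul_of_nonneg_right _ hQD.le
            nlinarith only [h2, hQ]
        _ = Q ^ (D + 1) * H := by ring
    have hHpos : (0 : ℝ) < H := by exact_mod_cast hH1
    have h8 : (8 : ℝ) ≤ Q ^ 3 := by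
      calc (8 : ℝ) = 2 ^ 3 := by norm_num
        _ ≤ Q ^ 3 := pow_le_pow_left₀ (by norm_num) hQ 3
    have h32 : (32 : ℝ) ≤ Q ^ 5 := by
      calc (32 : ℝ) = 2 ^ 5 := by norm_num
        _ ≤ Q ^ 5 := pow_le_pow_left₀ (by norm_num) hQ 5
    -- progression
    have hcond : 4 * Q * ((s0 : ℝ) * H) < M := by
      calc 4 * Q * ((s0 : ℝ) * H) < 8 * Q * (Q ^ C0 * H) := by
            have : (s0 : ℝ) * H ≤ Q ^ C0 * H := mul_le_mul_of_nonneg_right hs0Q hHpos.le
            have h3 : 0 < Q * (Q ^ C0 * H) := by (clear * - hQ hH1; positivity)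
            nlinarith only [h3, this, hQ0]
        _ ≤ Q ^ 3 * Q * (Q ^ C0 * H) := by
            apply mul_le_mul_of_nonneg_right _ (by (clear * - hQ hH1; positivity))
            exact mul_le_mul_of_nonneg_right h8 hQ0.le
        _ = Q ^ (C0 + 4) * H := by ring
        _ ≤ Q ^ D * H := mul_le_mul_of_nonneg_right (powle (by omega)) hHpos.le
        _ ≤ M := by linarith only [hHle]
    obtain ⟨r, hrL, hr⟩ := exists_prog (fun n => ee (g.eval (n : ℝ))) (fun n => (norm_ee _).le)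
      L M H s0 hL Q hQ0 hS hcond hH1
    have hsH : s0 * H ≤ M := by
      have : (s0 : ℝ) * H ≤ M := by
        have h3 : (0 : ℝ) ≤ (s0 : ℝ) * H := by (clear * - hs0 hH1; positivity)
        nlinarith only [hcond, hQ]
      exact_mod_cast this
    set E : ℝ := (k + 1) * 2 ^ k * Q ^ C0 * (H / M) with hE
    have hEbound : nz (s0 * g.coeff (k + 1)) * ((k + 1) * (2 * (M : ℝ)) ^ k * H) ≤ E := by
      have e1 : nz (s0 * g.coeff (k + 1)) * ((k + 1) * (2 * (M : ℝ)) ^ k * H) =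
          (nz (s0 * g.coeff (k + 1)) * (M : ℝ) ^ (k + 1)) * ((k + 1) * 2 ^ k * (H / M)) := by
        rw [mul_pow]
        field_simp
        ring
      rw [e1]
      calc (nz (s0 * g.coeff (k + 1)) * (M : ℝ) ^ (k + 1)) * ((k + 1) * 2 ^ k * (H / M))
          ≤ Q ^ C0 * ((k + 1) * 2 ^ k * (H / M)) :=
            mul_le_mul_of_nonneg_right hs0c (by (clear * - hH1 hM; positivity))
        _ = E := by rw [hE]; ring
    have hred := prog_reduce g k r s0 M H E hs0 (by (clear * - hL hrL; omega)) hsH hEbound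
    have hEsmall : 4 * Q * (2 * Real.pi * E) ≤ 1 := by
      have h3 : (H : ℝ) / M ≤ 1 / Q ^ D := by
        rw [div_le_div_iff₀ hM0 hQD]
        linarith only [hHle]
      have h4 : ((k : ℝ) + 1) ≤ Q ^ (k + 1) := by
        have h1 : k + 1 ≤ 2 ^ (k + 1) := Nat.lt_two_pow_self.le
        calc ((k : ℝ) + 1) ≤ 2 ^ (k + 1) := by exact_mod_cast h1
          _ ≤ Q ^ (k + 1) := pow_le_pow_left₀ (by norm_num) hQ _
      have h5 : (2 : ℝ) ^ k ≤ Q ^ k := pow_le_pow_left₀ (by norm_num) hQ _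
      have h6 : E ≤ Q ^ (2 * k + 1 + C0) * (1 / Q ^ D) := by
        rw [hE]
        apply mul_le_mul _ h3 (by (clear * - hH1 hM; positivity)) (by positivity)
        calc ((k : ℝ) + 1) * 2 ^ k * Q ^ C0 ≤ Q ^ (k + 1) * Q ^ k * Q ^ C0 := by
              apply mul_le_mul_of_nonneg_right _ (by positivity)
              exact mul_le_mul h4 h5 (by positivity) (by positivity)
          _ = _ := by rw [← pow_add, ← pow_add]; congr 1; ring
      have h7 : Real.pi ≤ 4 := Real.pi_le_four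
      have hEnn : 0 ≤ E := by rw [hE]; (clear * - hQ hH1 hM; positivity)
      calc 4 * Q * (2 * Real.pi * E) = (8 * Real.pi) * (Q * E) := by ring
        _ ≤ (8 * 4) * (Q * E) := by
            apply mul_le_mul_of_nonneg_right _ (by (clear * - hQ hH1 hM; positivity))
            linarith only [h7]
        _ ≤ Q ^ 5 * (Q * (Q ^ (2 * k + 1 + C0) * (1 / Q ^ D))) := by
            apply mul_le_mul _ _ (by (clear * - hQ hH1 hM; positivity)) (by positivity)
            · linarith only [h32]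
            · exact mul_le_mul_of_nonneg_left h6 hQ0.le
        _ = Q ^ (2 * k + 7 + C0) / Q ^ D := by
            rw [mul_one_div]
            rw [← mul_div_assoc, ← mul_div_assoc]
            congr 1
            ring
        _ ≤ 1 := by
            rw [div_le_one hQD]
            exact powle (by (clear * -; omega))
    have hSG : (H : ℝ) ≤ Q ^ 3 * ‖SS (GG g k r s0) H‖ := by
      have h3 : (H : ℝ) ≤ 2 * Q * (‖SS (GG g k r s0) H‖ + H * (2 * Real.pi * E)) :=
        hr.trans (mul_le_mul_of_nonneg_left hred (by positivity))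
      have h4 : (H : ℝ) * (4 * Q * (2 * Real.pi * E)) ≤ H * 1 :=
        mul_le_mul_of_nonneg_left hEsmall hHpos.le
      have h5 : (H : ℝ) ≤ 4 * Q * ‖SS (GG g k r s0) H‖ := by nlinarith only [h3, h4]
      have h6 : 4 * Q ≤ Q ^ 3 := by
        have h7 : 0 ≤ (Q - 2) * (Q + 2) * Q := by
          apply mul_nonneg (mul_nonneg _ _) <;> linarith only [hQ]
        nlinarith only [h7]
      exact h5.trans (mul_le_mul_of_nonneg_right h6 (norm_nonneg _))
    have hQ3 : (2 : ℝ) ≤ Q ^ 3 := by linarith only [h8]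
    obtain ⟨s1, hs1, hs1Q, hs1c⟩ := hC1 (GG g k r s0) (GG_natDegree g k r s0 hg) (Q ^ 3) hQ3
      H H (le_refl _) hH1 hSG
    rw [← pow_mul] at hs1Q
    have hs1c' : ∀ i, 1 ≤ i → i ≤ k → nz (s1 * (GG g k r s0).coeff i) * (H : ℝ) ^ i ≤
        Q ^ (3 * C1) := by
      intro i h1 h2
      have := hs1c i h1 h2
      rwa [← pow_mul] at this
    have hrec := recover g k r s1 s0 M H Q hQ C0 (3 * C1) (D + 1) hg hs0 hs0Q (by omega) hM
      hHge hs1c'
    have hs0k : (s0 : ℝ) ^ k ≤ Q ^ (C0 * k) := by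
      rw [pow_mul]
      exact pow_le_pow_left₀ (by positivity) hs0Q _
    refine ⟨s1 * s0 ^ k * s0, ?_, ?_, ?_⟩
    · have : 0 < s1 * s0 ^ k * s0 := by (clear * - hs1 hs0; positivity)
      exact this
    · push_cast
      calc (s1 : ℝ) * s0 ^ k * s0 ≤ Q ^ (3 * C1) * Q ^ (C0 * k) * Q ^ C0 := by
            apply mul_le_mul _ hs0Q (by positivity) (by positivity)
            exact mul_le_mul hs1Q hs0k (by positivity) (by positivity)
        _ = Q ^ (3 * C1 + C0 * k + C0) := by rw [← pow_add, ← pow_add]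
        _ ≤ Q ^ C' := powle (by (clear * -; omega))
    · intro i hi hik
      rcases Nat.lt_or_ge i (k + 1) with hlt | hge
      · have h3 := hrec i hi (by omega)
        have e1 : ((s1 * s0 ^ k * s0 : ℕ) : ℝ) * g.coeff i =
            (s0 : ℝ) * (((s1 * s0 ^ k : ℕ) : ℝ) * g.coeff i) := by push_cast; ring
        rw [e1]
        calc nz ((s0 : ℝ) * (((s1 * s0 ^ k : ℕ) : ℝ) * g.coeff i)) * (M : ℝ) ^ i
            ≤ ((s0 : ℝ) * nz (((s1 * s0 ^ k : ℕ) : ℝ) * g.coeff i)) * (M : ℝ) ^ i :=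
              mul_le_mul_of_nonneg_right (nz_nat_mul_le _ _) (by positivity)
          _ = (s0 : ℝ) * (nz (((s1 * s0 ^ k : ℕ) : ℝ) * g.coeff i) * (M : ℝ) ^ i) := by ring
          _ ≤ Q ^ C0 * Q ^ E1 := by
              apply mul_le_mul hs0Q h3 _ (by positivity)
              have := nz_nonneg (((s1 * s0 ^ k : ℕ) : ℝ) * g.coeff i)
              (clear * - this hM; positivity)
          _ = Q ^ (C0 + E1) := by rw [← pow_add]
          _ ≤ Q ^ C' := powle (by omega)
      · have hik' : i = k + 1 := by omega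
        subst hik'
        have e1 : ((s1 * s0 ^ k * s0 : ℕ) : ℝ) * g.coeff (k + 1) =
            ((s1 * s0 ^ k : ℕ) : ℝ) * ((s0 : ℝ) * g.coeff (k + 1)) := by push_cast; ring
        rw [e1]
        calc nz (((s1 * s0 ^ k : ℕ) : ℝ) * ((s0 : ℝ) * g.coeff (k + 1))) * (M : ℝ) ^ (k + 1)
            ≤ (((s1 * s0 ^ k : ℕ) : ℝ) * nz ((s0 : ℝ) * g.coeff (k + 1))) * (M : ℝ) ^ (k + 1) :=
              mul_le_mul_of_nonneg_right (nz_nat_mul_le _ _) (by positivity)
          _ = ((s1 * s0 ^ k : ℕ) : ℝ) * (nz ((s0 : ℝ) * g.coeff (k + 1)) * (M : ℝ) ^ (k + 1)) := by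
              ring
          _ ≤ (Q ^ (3 * C1) * Q ^ (C0 * k)) * Q ^ C0 := by
              apply mul_le_mul _ hs0c _ (by positivity)
              · push_cast
                exact mul_le_mul hs1Q hs0k (by positivity) (by positivity)
              · have := nz_nonneg ((s0 : ℝ) * g.coeff (k + 1))
                (clear * - this hM; positivity)
          _ = Q ^ (3 * C1 + C0 * k + C0) := by rw [← pow_add, ← pow_add]
          _ ≤ Q ^ C' := powle (by omega)

/-- Weyl inverse theorem: a polynomial exponential sum over an initial segment of length `L ≤ M`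
which is at least `δ M` in absolute value forces all coefficients to be major arc. -/
theorem weyl_inverse' (k : ℕ) : ∃ C : ℕ, 1 ≤ C ∧ ∀ (p : ℝ[X]), p.natDegree ≤ k →
    ∀ (M L : ℕ), L ≤ M → 1 ≤ M → ∀ (δ : ℝ), 0 < δ → δ ≤ 1 →
    δ * M ≤ ‖∑ n ∈ range L, ee (p.eval (n : ℝ))‖ →
    ∃ s : ℕ, 1 ≤ s ∧ (s : ℝ) ≤ (C / δ) ^ C ∧
      ∀ i, 1 ≤ i → i ≤ k → ∃ a : ℤ, |(s : ℝ) * p.coeff i - a| ≤ (C / δ) ^ C / (M : ℝ) ^ i := by
  obtain ⟨C0, hC0⟩ := weylB k
  refine ⟨C0 + 2, by omega, fun p hp M L hLM hM δ hδ hδ1 h => ?_⟩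
  have hM0 : (0 : ℝ) < M := by exact_mod_cast hM
  have hQ : (2 : ℝ) ≤ 2 / δ := by
    rw [le_div_iff₀ hδ]; linarith only [hδ1]
  have hS : (M : ℝ) ≤ 2 / δ * ‖SS p L‖ := by
    have h1 : δ * M ≤ ‖SS p L‖ := h
    have h2 : 2 / δ * (δ * M) ≤ 2 / δ * ‖SS p L‖ := mul_le_mul_of_nonneg_left h1 (by positivity)
    have h3 : 2 / δ * (δ * M) = 2 * M := by field_simp
    linarith only [h2, h3]
  obtain ⟨s, hs1, hsQ, hsc⟩ := hC0 p hp (2 / δ) hQ M L hLM hM hS
  have hbase : 2 / δ ≤ ((C0 + 2 : ℕ) : ℝ) / δ := by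
    apply div_le_div_of_nonneg_right _ hδ.le
    push_cast
    have : (0 : ℝ) ≤ C0 := Nat.cast_nonneg _
    linarith only []
  have hpow : (2 / δ) ^ C0 ≤ (((C0 + 2 : ℕ) : ℝ) / δ) ^ (C0 + 2) := by
    calc (2 / δ) ^ C0 ≤ (2 / δ) ^ (C0 + 2) := pow_le_pow_right₀ (by linarith only [hQ]) (by omega)
      _ ≤ _ := pow_le_pow_left₀ (by positivity) hbase _
  refine ⟨s, hs1, hsQ.trans hpow, fun i hi hik => ⟨round ((s : ℝ) * p.coeff i), ?_⟩⟩
  rw [← nz_eq, le_div_iff₀ (by positivity)]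
  exact (hsc i hi hik).trans hpow

/-- Weyl inverse theorem, as in the blueprint. -/
theorem weyl_inverse (k : ℕ) : ∃ C : ℕ, 1 ≤ C ∧ ∀ (p : ℝ[X]), p.natDegree ≤ k →
    ∀ (M : ℕ), 1 ≤ M → ∀ (δ : ℝ), 0 < δ → δ ≤ 1 →
    δ * M ≤ ‖∑ n ∈ range M, ee (p.eval (n : ℝ))‖ →
    ∃ s : ℕ, 1 ≤ s ∧ (s : ℝ) ≤ (C / δ) ^ C ∧
      ∀ i, 1 ≤ i → i ≤ k → ∃ a : ℤ, |(s : ℝ) * p.coeff i - a| ≤ (C / δ) ^ C / (M : ℝ) ^ i := by
  obtain ⟨C, h1, hC⟩ := weyl_inverse' k
  exact ⟨C, h1, fun p hp M hM δ hδ hδ1 h => hC p hp M M (le_refl _) hM δ hδ hδ1 h⟩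

end Vale.Agent.P042
end
end
end

section

section

section

/-!
The abstract level inequality.
-/

set_option linter.unusedSectionVars false

namespace Vale.Agent.P042

open Finset

section aux

universe u v

variable {G : Type u} [AddCommGroup G] [Fintype G]
variable {ι : Type v} [Fintype ι] [DecidableEq ι] (Hs : ι → AddSubgroup G)

lemma weighted_pow {κ : Type*} (s : Finset κ) (F u : κ → ℝ) (hF : ∀ k ∈ s, 0 ≤ F k) (n : ℕ)
    (hn : Even n) (hn1 : 1 ≤ n) :
    (∑ k ∈ s, F k * u k) ^ n ≤ (∑ k ∈ s, F k) ^ (n - 1) * ∑ k ∈ s, F k * u k ^ n := by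
  rcases (Finset.sum_nonneg hF).eq_or_lt with h | h
  · have h0 : ∀ k ∈ s, F k = 0 := (Finset.sum_eq_zero_iff_of_nonneg hF).mp h.symm
    have h1 : ∑ k ∈ s, F k * u k = 0 := Finset.sum_eq_zero fun k hk => by rw [h0 k hk, zero_mul]
    have h2 : ∑ k ∈ s, F k * u k ^ n = 0 :=
      Finset.sum_eq_zero fun k hk => by rw [h0 k hk, zero_mul]
    rw [h1, h2, mul_zero, zero_pow (by omega)]
  · have key := Real.pow_arith_mean_le_arith_mean_pow_of_even s
      (fun k => F k / ∑ j ∈ s, F j) u (fun k hk => div_nonneg (hF k hk) h.le)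
      (by rw [← Finset.sum_div, div_self h.ne']) hn
    have e1 : ∑ k ∈ s, F k / (∑ j ∈ s, F j) * u k = (∑ k ∈ s, F k * u k) / ∑ j ∈ s, F j := by
      rw [Finset.sum_div]
      exact Finset.sum_congr rfl fun k _ => by ring
    have e2 : ∑ k ∈ s, F k / (∑ j ∈ s, F j) * u k ^ n
        = (∑ k ∈ s, F k * u k ^ n) / ∑ j ∈ s, F j := by
      rw [Finset.sum_div]
      exact Finset.sum_congr rfl fun k _ => by ring
    rw [e1, e2, div_pow, div_le_div_iff₀ (by (clear * - h; positivity)) h] at key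
    have e3 : (∑ j ∈ s, F j) ^ n = (∑ j ∈ s, F j) ^ (n - 1) * ∑ j ∈ s, F j := by
      rw [← pow_succ]; congr 1; omega
    rw [e3] at key
    have : (∑ k ∈ s, F k * u k) ^ n * (∑ j ∈ s, F j)
        ≤ ((∑ k ∈ s, F k) ^ (n - 1) * ∑ k ∈ s, F k * u k ^ n) * (∑ j ∈ s, F j) := by
      linarith only [key]
    exact le_of_mul_le_mul_right this h

/-- Hoelder inequality with respect to the averages -/
lemma holder (H : AddSubgroup G) (F u : G → ℝ) (hF : ∀ x, 0 ≤ F x) (n : ℕ) (hn : Even n)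
    (hn1 : 1 ≤ n) (x : G) :
    (act (Eop H) (fun z => F z * u z) x) ^ n
      ≤ (act (Eop H) F x) ^ (n - 1) * act (Eop H) (fun z => F z * u z ^ n) x := by
  rw [act_Eop, act_Eop, act_Eop, mul_pow, mul_pow]
  have key := weighted_pow (hset H) (fun h => F (x + h)) (fun h => u (x + h)) (fun h _ => hF _) n
    hn hn1
  have hN := card_hset_pos H
  have e : (((hset H).card : ℝ)⁻¹) ^ n = (((hset H).card : ℝ)⁻¹) ^ (n - 1) * ((hset H).card : ℝ)⁻¹ := by
    rw [← pow_succ]; congr 1; omega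
  calc (((hset H).card : ℝ)⁻¹) ^ n * (∑ h ∈ hset H, F (x + h) * u (x + h)) ^ n
      ≤ (((hset H).card : ℝ)⁻¹) ^ n * ((∑ h ∈ hset H, F (x + h)) ^ (n - 1)
          * ∑ h ∈ hset H, F (x + h) * u (x + h) ^ n) :=
        mul_le_mul_of_nonneg_left key (by (clear * - hN; positivity))
    _ = _ := by rw [e]; ring

lemma final_scalar (m : ℕ) (hm : 1 ≤ m) (a b : ℝ) (ha : 0 ≤ a) (hb : 0 < b)
    (hbm : 1 ≤ b * Real.exp (2 * m))
    (h : a ^ (2 * m) ≤ b ^ (2 * m - 1) * (a ^ m + b ^ (2 * m))) : a ≤ 36 * b ^ 2 := by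
  have hm0 : m ≠ 0 := by omega
  rcases le_or_gt (a ^ m) (b ^ (2 * m)) with h1 | h1
  · rw [pow_mul] at h1
    have := (pow_le_pow_iff_left₀ ha (by positivity) hm0).mp h1
    linarith
  · have hapos : 0 < a ^ m := lt_of_le_of_lt (by positivity) h1
    have h2 : a ^ m * a ^ m ≤ (2 * b ^ (2 * m - 1)) * a ^ m := by
      have e1 : a ^ (2 * m) = a ^ m * a ^ m := by rw [← pow_add]; congr 1; omega
      rw [e1] at h
      refine h.trans ?_
      have : 0 < b ^ (2 * m - 1) := by positivity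
      nlinarith only [h1, this]
    have h3 : a ^ m ≤ 2 * b ^ (2 * m - 1) := le_of_mul_le_mul_right h2 hapos
    have e2 : b ^ (2 * m) = b ^ (2 * m - 1) * b := by
      rw [← pow_succ]; congr 1; omega
    have h4 : 2 * b ^ (2 * m - 1) ≤ 2 * (b ^ (2 * m) * Real.exp (2 * m)) := by
      rw [e2]
      have : 0 < b ^ (2 * m - 1) := by positivity
      nlinarith only [hbm, hapos, h3]
    have e3 : b ^ (2 * m) * Real.exp (2 * m) = (b ^ 2 * Real.exp 2) ^ m := by
      rw [mul_pow, ← pow_mul, ← Real.exp_nat_mul]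
      congr 2
      ring
    have h5 : (2 : ℝ) ≤ 2 ^ m := by
      calc (2 : ℝ) = 2 ^ 1 := (pow_one 2).symm
        _ ≤ 2 ^ m := pow_le_pow_right₀ (by norm_num) hm
    have h6 : a ^ m ≤ (2 * (b ^ 2 * Real.exp 2)) ^ m := by
      rw [mul_pow]
      rw [e3] at h4
      have : 0 < (b ^ 2 * Real.exp 2) ^ m := by (clear * - hb; positivity)
      nlinarith only [h3, h4, hapos, h5]
    have h7 := (pow_le_pow_iff_left₀ ha (by positivity) hm0).mp h6
    have h8 : Real.exp 2 ≤ 18 := by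
      have e4 : Real.exp 2 = Real.exp 1 * Real.exp 1 := by
        rw [← Real.exp_add]; norm_num
      have := Real.exp_one_lt_d9
      have h9 := Real.exp_pos 1
      rw [e4]
      nlinarith only [this, h9]
    have : b ^ 2 * Real.exp 2 ≤ b ^ 2 * 18 := mul_le_mul_of_nonneg_left h8 (by positivity)
    linarith only [h7, this]

end aux

end Vale.Agent.P042
end
end
end

section

section

section

/-!
The sharp level inequality for a down-closed family.
-/

set_option linter.unusedSectionVars false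

namespace Vale.Agent.P042.Sharp

open Finset Vale.Agent.P042

section aux

universe u v

variable {G : Type u} [AddCommGroup G] [Fintype G]
variable {ι : Type v} [Fintype ι] [DecidableEq ι] (Hs : ι → AddSubgroup G)

/-- supremum bound of the components -/
lemma sup_bound (F : G → ℝ) (β : ℝ) (Fm : Finset (Finset ι)) (hFm : ∀ S ∈ Fm, ∀ T, T ⊆ S → T ∈ Fm)
    (hF : ∀ x, 0 ≤ F x)
    (h2 : ∀ S ∈ Fm, ∀ x, act (Aop Hs Sᶜ) F x ≤ 2 ^ S.card * β)
    {S W : Finset ι} (hW : W ∈ fam Fm S) (z : G) :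
    |act (Pop Hs Sᶜ W) F z| ≤ 2 ^ S.card * 3 ^ W.card * β := by
  obtain ⟨hWS, hc⟩ := mem_fam.mp hW
  have hdis : ∀ i ∈ W, i ∉ S := fun i hi => Finset.mem_compl.mp (hWS hi)
  have h3 : (3 : ℝ) ^ W.card = ∑ V ∈ W.powerset, (2 : ℝ) ^ (W.card - V.card) := by
    have := Finset.sum_pow_mul_eq_add_pow (1 : ℝ) 2 W
    simp only [one_pow, one_mul] at this
    rw [this]
    norm_num
  rw [Pop, Dop_eq_sum, Finset.sum_mul, act_sum, h3, Finset.mul_sum, Finset.sum_mul]
  refine (Finset.abs_sum_le_sum_abs _ _).trans (Finset.sum_le_sum fun V hV => ?_)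
  rw [Finset.mem_powerset] at hV
  rw [smul_mul_assoc, act_smul, abs_mul, abs_pow, abs_neg, abs_one, one_pow, one_mul, Aop_mul]
  have hcomp : V ∪ Sᶜ \ W = (S ∪ (W \ V))ᶜ := by
    ext i
    simp only [Finset.mem_sdiff, Finset.mem_compl, Finset.mem_union]
    constructor
    · rintro (h | ⟨h, h'⟩)
      · rintro (h1 | ⟨h1, h1'⟩)
        · exact hdis i (hV h) h1
        · exact h1' h
      · rintro (h1 | ⟨h1, h1'⟩)
        · exact h h1
        · exact h' h1
    · intro h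
      by_cases h1 : i ∈ V
      · exact Or.inl h1
      · refine Or.inr ⟨fun h2 => h (Or.inl h2), fun h2 => h (Or.inr ⟨h2, h1⟩)⟩
  have hcard : (S ∪ (W \ V)).card = S.card + (W.card - V.card) := by
    rw [Finset.card_union_of_disjoint, Finset.card_sdiff_of_subset hV]
    rw [Finset.disjoint_left]
    intro i hi hi'
    exact hdis i (Finset.mem_sdiff.mp hi').1 hi
  rw [hcomp, abs_of_nonneg (Aop_nonneg Hs _ hF z)]
  have h5 := h2 (S ∪ (W \ V))
    (hFm _ hc _ (Finset.union_subset_union_right Finset.sdiff_subset)) z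
  rw [hcard, pow_add] at h5
  exact h5

/-- transfer from the majorant to the uniform measure -/
lemma transfer (S : Finset ι) (ν : G → ℝ) (ε : ℝ) (hε0 : 0 ≤ ε) (N : ℕ)
    (R : ℕ → Finset ι → Prop)
    (hν : ∀ T : Finset ι, R N T → ∀ x, |act (Aop Hs Tᶜ) ν x - 1| ≤ ε)
    (s : Finset (Finset ι)) (c b : Finset ι → ℝ) (g : Finset ι → G → ℝ)
    (hc : ∀ W ∈ s, 0 ≤ c W) (hs : ∀ W ∈ s, ∀ k T, S ⊆ T → R k T → R (k + 1) (T ∪ W))
    (hg : ∀ W ∈ s, Invt ((Sᶜ \ W).sup Hs) (g W)) (hb : ∀ W ∈ s, ∀ z, |g W z| ≤ b W) (x : G) :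
    ∀ (n k : ℕ) (T : Finset ι) (φ : G → ℝ) (B : ℝ), 0 ≤ B → S ⊆ T → k + n = N → R k T →
      Invt ((Tᶜ).sup Hs) φ → (∀ z, |φ z| ≤ B) →
      |act (Aop Hs Sᶜ) (fun z => (ν z - 1) * φ z * (∑ W ∈ s, c W * g W z) ^ n) x|
        ≤ ε * B * (∑ W ∈ s, c W * b W) ^ n := by
  intro n
  induction n with
  | zero =>
    intro k T φ B hB hT hk hR hφ hφB
    rw [add_zero] at hk
    subst hk
    simp only [pow_zero, mul_one]
    have hT' : Tᶜ ⊆ Sᶜ := Finset.compl_subset_compl.mpr hT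
    have h1 : Aop Hs Sᶜ = Aop Hs Sᶜ * Aop Hs Tᶜ := by
      rw [Aop_mul, Finset.union_eq_left.mpr hT']
    rw [h1, act_mul]
    have h2 : act (Aop Hs Tᶜ) (fun z => (ν z - 1) * φ z)
        = fun z => (act (Aop Hs Tᶜ) ν z - 1) * φ z := by
      funext z
      rw [Aop, act_Eop_mul_invt hφ, act_fun_sub, act_Eop_const]
    rw [h2, abs_le]
    have h3 : ∀ z, |(act (Aop Hs Tᶜ) ν z - 1) * φ z| ≤ ε * B := by
      intro z
      rw [abs_mul]
      exact mul_le_mul (hν T hR z) (hφB z) (abs_nonneg _) hε0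
    constructor
    · have := Aop_mono Hs Sᶜ (f := fun _ => -(ε * B))
        (g := fun z => (act (Aop Hs Tᶜ) ν z - 1) * φ z) (fun z => (abs_le.mp (h3 z)).1) x
      rwa [Aop, act_Eop_const] at this
    · have := Aop_mono Hs Sᶜ (g := fun _ => (ε * B))
        (f := fun z => (act (Aop Hs Tᶜ) ν z - 1) * φ z) (fun z => (abs_le.mp (h3 z)).2) x
      rw [Aop, act_Eop_const] at this
      exact this
  | succ n ih =>
    intro k T φ B hB hT hk hR hφ hφB
    have h1 : (fun z => (ν z - 1) * φ z * (∑ W ∈ s, c W * g W z) ^ (n + 1))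
        = fun z => ∑ W ∈ s, c W *
            ((ν z - 1) * (φ z * g W z) * (∑ W ∈ s, c W * g W z) ^ n) := by
      funext z
      have : (ν z - 1) * φ z * (∑ W ∈ s, c W * g W z) ^ (n + 1)
          = ((ν z - 1) * φ z * (∑ W ∈ s, c W * g W z) ^ n) * ∑ W ∈ s, c W * g W z := by
        rw [pow_succ]; ring
      rw [this, Finset.mul_sum]
      refine Finset.sum_congr rfl fun W _ => ?_
      ring
    rw [h1, act_fun_sum, pow_succ, ← mul_assoc, Finset.mul_sum]
    refine (Finset.abs_sum_le_sum_abs _ _).trans (Finset.sum_le_sum fun W hW => ?_)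
    rw [act_fun_mul, abs_mul, abs_of_nonneg (hc W hW)]
    have hb0 : 0 ≤ b W := (abs_nonneg _).trans (hb W hW x)
    have h3 := ih (k + 1) (T ∪ W) (fun z => φ z * g W z) (B * b W) (mul_nonneg hB hb0)
      (hT.trans Finset.subset_union_left) (by omega) (hs W hW k T hT hR)
      (by
        apply Invt.mul
        · apply hφ.mono
          apply Finset.sup_mono
          intro i hi
          rw [Finset.mem_compl, Finset.mem_union, not_or] at hi
          exact Finset.mem_compl.mpr hi.1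
        · apply (hg W hW).mono
          apply Finset.sup_mono
          intro i hi
          rw [Finset.mem_compl, Finset.mem_union, not_or] at hi
          exact Finset.mem_sdiff.mpr ⟨Finset.mem_compl.mpr fun h => hi.1 (hT h), hi.2⟩)
      (fun z => by
        rw [abs_mul]
        exact mul_le_mul (hφB z) (hb W hW z) (abs_nonneg _) hB)
    calc c W * |act (Aop Hs Sᶜ) (fun z => (ν z - 1) * (φ z * g W z) *
            (∑ W ∈ s, c W * g W z) ^ n) x|
        ≤ c W * (ε * (B * b W) * (∑ W ∈ s, c W * b W) ^ n) :=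
          mul_le_mul_of_nonneg_left h3 (hc W hW)
      _ = _ := by ring

lemma const_bound (m : ℕ) (hm : 2 ≤ m) (q σ : ℝ) (hq0 : 0 ≤ q) (hq : 36 * m * q ≤ 1)
    (hσ2 : σ ^ 2 = 4 * m * q ^ 2) : (4 * m : ℝ) ^ m * (9 * σ ^ 2) ^ (m - 1) ≤ 1 := by
  have hm' : (2 : ℝ) ≤ m := by exact_mod_cast hm
  have h1 : 9 * σ ^ 2 ≤ (4 * (m : ℝ))⁻¹ * (1 / 9) := by
    rw [hσ2]
    have h3 : (4 * (m : ℝ))⁻¹ * (1 / 9) = 36 * m * (1 / (36 * m)) ^ 2 := by
      field_simp; norm_num
    rw [h3]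
    have h4 : q ≤ 1 / (36 * m) := by
      rw [le_div_iff₀ (by linarith only [hm'])]; linarith only [hq]
    have h5 : q ^ 2 ≤ (1 / (36 * (m : ℝ))) ^ 2 := pow_le_pow_left₀ hq0 h4 2
    have h6 : 9 * (4 * m * q ^ 2) = 36 * m * q ^ 2 := by ring
    rw [h6]
    exact mul_le_mul_of_nonneg_left h5 (by linarith only [])
  have h2' : (9 * σ ^ 2) ^ (m - 1) ≤ ((4 * (m : ℝ))⁻¹ * (1 / 9)) ^ (m - 1) :=
    pow_le_pow_left₀ (by (clear * -; positivity)) h1 _
  have h3 : (4 * m : ℝ) ^ m * ((4 * (m : ℝ))⁻¹ * (1 / 9)) ^ (m - 1)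
      = (4 * m) * (1 / 9) ^ (m - 1) := by
    have h6 : (4 * m : ℝ) ^ m = (4 * m) ^ (m - 1) * (4 * m) := by
      rw [← pow_succ]; congr 1; omega
    have h9 : (4 * (m : ℝ)) ^ (m - 1) * (4 * (m : ℝ))⁻¹ ^ (m - 1) = 1 := by
      rw [← mul_pow, mul_inv_cancel₀ (by positivity), one_pow]
    rw [h6, mul_pow (4 * (m : ℝ))⁻¹ (1 / 9)]
    calc (4 * (m : ℝ)) ^ (m - 1) * (4 * m) * ((4 * (m : ℝ))⁻¹ ^ (m - 1) * (1 / 9) ^ (m - 1))
        = ((4 * (m : ℝ)) ^ (m - 1) * (4 * (m : ℝ))⁻¹ ^ (m - 1)) * ((4 * m) * (1 / 9) ^ (m - 1)) := by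
          ring
      _ = _ := by rw [h9, one_mul]
  have h4 : (4 * m : ℝ) * (1 / 9) ^ (m - 1) ≤ 1 := by
    obtain ⟨k, rfl⟩ : ∃ k, m = k + 2 := ⟨m - 2, by omega⟩
    have h5 : ∀ k : ℕ, (4 * ((k : ℝ) + 2)) ≤ 9 ^ (k + 1) := by
      intro k
      induction k with
      | zero => norm_num
      | succ k ih =>
        rw [pow_succ]
        push_cast
        linarith only [ih]
    have h7 := h5 k
    have h8 : k + 2 - 1 = k + 1 := by omega
    rw [h8, one_div, inv_pow]
    push_cast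
    rw [mul_inv_le_iff₀ (by positivity)]
    linarith only [h7]
  calc (4 * m : ℝ) ^ m * (9 * σ ^ 2) ^ (m - 1)
      ≤ (4 * m : ℝ) ^ m * ((4 * (m : ℝ))⁻¹ * (1 / 9)) ^ (m - 1) :=
        mul_le_mul_of_nonneg_left h2' (by positivity)
    _ ≤ 1 := by rw [h3]; exact h4

/-- the key inequality at a maximiser -/
lemma key_at_max {G : Type u} {ι : Type v} [AddCommGroup G] [Fintype G] [Fintype ι]
    [DecidableEq ι]
    (Hs : ι → AddSubgroup G) (F ν : G → ℝ) (Fm : Finset (Finset ι))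
    (hFm : ∀ S ∈ Fm, ∀ T, T ⊆ S → T ∈ Fm) (m : ℕ) (β ε q K : ℝ)
    (hm : 2 ≤ m) (hq0 : 0 ≤ q) (hq3 : 3 * q ≤ 1) (hε0 : 0 ≤ ε)
    (hβ : 0 < β)
    (hF : ∀ x, 0 ≤ F x) (hFν : ∀ x, F x ≤ ν x)
    (h2 : ∀ S ∈ Fm, ∀ x, act (Aop Hs Sᶜ) F x ≤ 2 ^ S.card * β)
    (hν : ∀ 𝒯 : Fin (2 * m + 1) → Finset ι, (∀ i, 𝒯 i ∈ Fm) →
      ∀ x, |act (Aop Hs (Finset.univ.sup 𝒯)ᶜ) ν x - 1| ≤ ε)
    (hε : ε * (Fm.card : ℝ) ^ (2 * m) ≤ 1)
    (S : Finset ι) (x0 : G) (hSF : S ∈ Fm)
    (hKeq : Phi Hs F q Fm S x0 = K * 4 ^ S.card)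
    (hmom : act (Aop Hs Sᶜ) (fun z => (act (vop Hs q Fm S) F z) ^ (2 * m)) x0
      ≤ (K * 4 ^ S.card) ^ m) :
    (K * 4 ^ S.card) ^ (2 * m)
      ≤ (2 ^ S.card * β) ^ (2 * m - 1) * ((K * 4 ^ S.card) ^ m + (2 ^ S.card * β) ^ (2 * m)) := by
  have hphi := A7 Hs F q Fm S x0
  have hhol := holder (Sᶜ.sup Hs) F (act (vop Hs q Fm S) F) hF (2 * m) (even_two_mul m)
    (by omega) x0
  have hb0 : 0 < 2 ^ S.card * β := by positivity
  have htr := transfer Hs S ν ε hε0 (2 * m + 1)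
    (fun k T => ∃ L : Fin k → Finset ι, (∀ i, L i ∈ Fm) ∧ T = Finset.univ.sup L)
    (fun T hT x => by
      obtain ⟨L, hL, rfl⟩ := hT
      exact hν L hL x) (fam Fm S)
    (fun W => q ^ W.card) (fun W => 2 ^ S.card * 3 ^ W.card * β)
    (fun W => act (Pop Hs Sᶜ W) F) (fun W _ => by (clear * - hq0; positivity))
    (fun W hW k T hST hT => by
      obtain ⟨L, hL, rfl⟩ := hT
      refine ⟨Fin.cons (S ∪ W) L, ?_, ?_⟩
      · intro i
        refine Fin.cases ?_ ?_ i
        · rw [Fin.cons_zero]; exact (mem_fam.mp hW).2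
        · intro j; rw [Fin.cons_succ]; exact hL j
      · ext i
        rw [Finset.mem_union, Finset.mem_sup, Finset.mem_sup]
        constructor
        · rintro (⟨j, _, hj⟩ | h)
          · exact ⟨j.succ, Finset.mem_univ _, by rw [Fin.cons_succ]; exact hj⟩
          · exact ⟨0, Finset.mem_univ _, by
              rw [Fin.cons_zero]; exact Finset.mem_union_right _ h⟩
        · rintro ⟨j, _, hj⟩
          revert hj
          refine Fin.cases ?_ ?_ j
          · rw [Fin.cons_zero, Finset.mem_union]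
            rintro (h | h)
            · left
              have := hST h
              rw [Finset.mem_sup] at this
              exact this
            · exact Or.inr h
          · intro j' hj'
            rw [Fin.cons_succ] at hj'
            exact Or.inl ⟨j', Finset.mem_univ _, hj'⟩)
    (fun W _ => invt_act _ _ _) (fun W hW z => sup_bound Hs F β Fm hFm hF h2 hW z) x0
    (2 * m) 1 S (fun _ => 1) 1 zero_le_one (Finset.Subset.refl _) (by omega)
    ⟨fun _ => S, fun _ => hSF, by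
      ext i
      rw [Finset.mem_sup]
      exact ⟨fun h => ⟨0, Finset.mem_univ _, h⟩, fun ⟨_, _, h⟩ => h⟩⟩
    (fun _ _ _ => rfl) (fun _ => by simp)
  have hu : ∀ z, ∑ W ∈ fam Fm S, q ^ W.card * act (Pop Hs Sᶜ W) F z
      = act (vop Hs q Fm S) F z := by
    intro z
    rw [vop, act_sum]
    refine Finset.sum_congr rfl fun W _ => ?_
    rw [act_smul]
  have hsum : ∑ W ∈ fam Fm S, q ^ W.card * (2 ^ S.card * 3 ^ W.card * β)
      ≤ (Fm.card : ℝ) * (2 ^ S.card * β) := by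
    have h5 : ∀ W ∈ fam Fm S, q ^ W.card * (2 ^ S.card * 3 ^ W.card * β)
        ≤ 2 ^ S.card * β := by
      intro W _
      have e1 : q ^ W.card * (2 ^ S.card * 3 ^ W.card * β)
          = (3 * q) ^ W.card * (2 ^ S.card * β) := by
        rw [mul_pow]; ring
      rw [e1]
      have h6 : (3 * q) ^ W.card ≤ 1 := pow_le_one₀ (by (clear * - hq0; positivity)) hq3
      nlinarith only [hb0, h6]
    refine (Finset.sum_le_sum h5).trans ?_
    rw [Finset.sum_const, nsmul_eq_mul]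
    apply mul_le_mul_of_nonneg_right _ hb0.le
    have : (fam Fm S).card ≤ Fm.card := by
      apply Finset.card_le_card
      intro W hW
      exact hFm _ (mem_fam.mp hW).2 _ Finset.subset_union_right
    exact_mod_cast this
  simp only [hu, mul_one] at htr
  have herr : ε * (∑ W ∈ fam Fm S, q ^ W.card * (2 ^ S.card * 3 ^ W.card * β)) ^ (2 * m)
      ≤ (2 ^ S.card * β) ^ (2 * m) := by
    have h6 : 0 ≤ ∑ W ∈ fam Fm S, q ^ W.card * (2 ^ S.card * 3 ^ W.card * β) :=
      Finset.sum_nonneg fun W _ => by (clear * - hq0 hβ; positivity)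
    calc ε * (∑ W ∈ fam Fm S, q ^ W.card * (2 ^ S.card * 3 ^ W.card * β)) ^ (2 * m)
        ≤ ε * ((Fm.card : ℝ) * (2 ^ S.card * β)) ^ (2 * m) :=
          mul_le_mul_of_nonneg_left (pow_le_pow_left₀ h6 hsum _) hε0
      _ = (ε * (Fm.card : ℝ) ^ (2 * m)) * (2 ^ S.card * β) ^ (2 * m) := by
          rw [mul_pow]; ring
      _ ≤ 1 * (2 ^ S.card * β) ^ (2 * m) := mul_le_mul_of_nonneg_right hε (by positivity)
      _ = _ := one_mul _
  have hνmom : act (Aop Hs Sᶜ) (fun z => F z * act (vop Hs q Fm S) F z ^ (2 * m)) x0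
      ≤ (K * 4 ^ S.card) ^ m + (2 ^ S.card * β) ^ (2 * m) := by
    have h7 : act (Aop Hs Sᶜ) (fun z => F z * act (vop Hs q Fm S) F z ^ (2 * m)) x0
        ≤ act (Aop Hs Sᶜ) (fun z => (ν z - 1) * act (vop Hs q Fm S) F z ^ (2 * m)
          + act (vop Hs q Fm S) F z ^ (2 * m)) x0 := by
      apply Aop_mono
      intro z
      have h8 : 0 ≤ act (vop Hs q Fm S) F z ^ (2 * m) := (even_two_mul m).pow_nonneg _
      have h9 := hFν z
      nlinarith only [h8, h9]
    rw [act_fun_add] at h7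
    have h10 := (abs_le.mp htr).2
    linarith only [hmom, herr, h7, h10]
  have hEF := h2 S hSF x0
  have hEF0 : 0 ≤ act (Aop Hs Sᶜ) F x0 := Aop_nonneg Hs _ hF x0
  rw [← hKeq, hphi]
  rw [← hKeq, hphi] at hνmom
  refine le_trans hhol ?_
  apply mul_le_mul (pow_le_pow_left₀ hEF0 hEF _) hνmom _ (by positivity)
  exact Aop_nonneg Hs _ (fun z => mul_nonneg (hF z) ((even_two_mul m).pow_nonneg _)) x0

end aux

/-- General form: any noise weight `0 ≤ q ≤ 1 / (36 m)`. -/
theorem sharp_level_gen {G ι : Type*} [AddCommGroup G] [Fintype G] [Fintype ι] [DecidableEq ι]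
    (Hs : ι → AddSubgroup G) (F ν : G → ℝ) (Fm : Finset (Finset ι))
    (hFm : ∀ S ∈ Fm, ∀ T, T ⊆ S → T ∈ Fm) (m : ℕ) (β ε q : ℝ)
    (hm : 2 ≤ m) (hq0 : 0 ≤ q) (hq : 36 * m * q ≤ 1)
    (hβ : 0 < β) (hβm : 1 ≤ β * Real.exp (2 * m))
    (hF : ∀ x, 0 ≤ F x) (hFν : ∀ x, F x ≤ ν x)
    (h2 : ∀ S ∈ Fm, ∀ x, EE Hs Sᶜ F x ≤ 2 ^ S.card * β)
    (hν : ∀ 𝒯 : Fin (2 * m + 1) → Finset ι, (∀ i, 𝒯 i ∈ Fm) →
      ∀ x, |EE Hs (Finset.univ.sup 𝒯)ᶜ ν x - 1| ≤ ε)
    (hε : ε * (Fm.card : ℝ) ^ (2 * m) ≤ 1) :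
    ∀ x, ∑ U ∈ Fm, q ^ U.card *
      EE Hs Finset.univ (fun z => (gg Hs F ∅ U z) ^ 2) x ≤ 36 * β ^ 2 := by
  intro x
  rcases Fm.eq_empty_or_nonempty with hemp | ⟨S1, hS1⟩
  · rw [hemp, Finset.sum_empty]; positivity
  have hempty : ∅ ∈ Fm := hFm S1 hS1 ∅ (Finset.empty_subset _)
  have hm' : (2 : ℝ) ≤ m := by exact_mod_cast hm
  simp only [← act_Aop] at h2 hν
  -- parameters
  set sm : ℝ := Real.sqrt m with hsm
  have hsm2 : sm ^ 2 = m := Real.sq_sqrt (by linarith only [])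
  have hsm0 : 0 < sm := Real.sqrt_pos.mpr (by linarith only [hm'])
  set r : ℝ := (2 * sm)⁻¹ with hr
  set σ : ℝ := 2 * sm * q with hσ
  have hr1 : 4 * m * r ^ 2 = 1 := by
    rw [hr, ← hsm2]; field_simp; norm_num
  have hrσ : r * σ = q := by
    rw [hr, hσ]; (clear * - hsm0; field_simp)
  have hσ2 : σ ^ 2 = 4 * m * q ^ 2 := by
    rw [hσ, ← hsm2]; ring
  have hσq : 2 * σ ^ 2 ≤ q := by
    rw [hσ2]
    nlinarith only [hq0, hq]
  have hq3 : 3 * q ≤ 1 := by nlinarith only [hq, hm']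
  have hcon : (4 * m : ℝ) ^ m * (9 * σ ^ 2) ^ (m - 1) ≤ 1 := const_bound m hm q σ hq0 hq hσ2
  have hε0 : 0 ≤ ε := (abs_nonneg _).trans (hν (fun _ => ∅) (fun _ => hempty) 0)
  obtain ⟨⟨S, x0⟩, hmem, hmax⟩ := Finset.exists_max_image
    (Fm ×ˢ (Finset.univ : Finset G))
    (fun p => Phi Hs F q Fm p.1 p.2 / 4 ^ p.1.card) ⟨(∅, 0), by simp only [mem_product, hempty, mem_univ, and_self]⟩
  have hSF : S ∈ Fm := by
    simp only [Finset.mem_product, Finset.mem_univ, and_true] at hmem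
    exact hmem
  set K : ℝ := Phi Hs F q Fm S x0 / 4 ^ S.card with hKdef
  have hK0 : 0 ≤ K := div_nonneg (Phi_nonneg Hs F q hq0 Fm S x0) (by positivity)
  have hK : ∀ S x, Phi Hs F q Fm S x ≤ K * 4 ^ S.card := by
    intro S' x'
    by_cases hS' : S' ∈ Fm
    · have := hmax (S', x') (by simp only [mem_product, hS', mem_univ, and_self])
      simp only at this
      rw [div_le_iff₀ (by positivity)] at this
      exact this
    · have h0 : Phi Hs F q Fm S' x' = 0 := by
        rw [Phi]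
        apply Finset.sum_eq_zero
        intro W hW
        exact absurd (hFm _ (mem_fam.mp hW).2 S' Finset.subset_union_left) hS'
      rw [h0]
      (clear * - hK0; positivity)
  have hKeq : Phi Hs F q Fm S x0 = K * 4 ^ S.card := by
    rw [hKdef, div_mul_cancel₀]
    positivity
  -- the key inequality at the maximiser
  have hmom := A6 Hs F m (by omega) r σ q K hr1 hrσ hσq hcon Fm hFm hK S x0
  have hfinal := key_at_max Hs F ν Fm hFm m β ε q K hm hq0 hq3 hε0 hβ hF hFν h2 hν hε S x0 hSF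
    hKeq hmom
  have hb0 : 0 < 2 ^ S.card * β := by positivity
  have hβ' : β ≤ 2 ^ S.card * β := by
    have : (1 : ℝ) ≤ 2 ^ S.card := one_le_pow₀ (by norm_num)
    nlinarith only [hβ, this]
  have hbm : 1 ≤ (2 ^ S.card * β) * Real.exp (2 * m) :=
    hβm.trans (mul_le_mul_of_nonneg_right hβ' (Real.exp_pos _).le)
  have hKβ := final_scalar m (by omega) (K * 4 ^ S.card) (2 ^ S.card * β) (by (clear * - hK0; positivity)) hb0 hbm
    hfinal
  have hK36 : K ≤ 36 * β ^ 2 := by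
    have e1 : (2 ^ S.card * β) ^ 2 = 4 ^ S.card * β ^ 2 := by
      rw [mul_pow, ← pow_mul, mul_comm S.card 2, pow_mul]
      norm_num
    rw [e1] at hKβ
    have h11 : (0 : ℝ) < 4 ^ S.card := by positivity
    have h12 : K * 4 ^ S.card ≤ (36 * β ^ 2) * 4 ^ S.card := by linarith only [hKβ]
    exact le_of_mul_le_mul_right h12 h11
  -- conclude
  have hlast := hK ∅ x
  rw [Finset.card_empty, pow_zero, mul_one] at hlast
  refine le_trans (le_of_eq ?_) (hlast.trans hK36)
  rw [Phi]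
  have hfam : fam Fm (∅ : Finset ι) = Fm := by
    ext U
    simp only [fam, empty_union, compl_empty, powerset_univ, subset_univ, filter_mem_eq_of_subset]
  rw [hfam]
  refine Finset.sum_congr rfl fun U _ => ?_
  rw [← act_Aop, Finset.compl_empty]
  congr 2
  simp only [act_gg, Pop, Finset.empty_union, Finset.compl_eq_univ_sdiff]

end Vale.Agent.P042.Sharp

namespace Vale.Agent.P042

theorem sharp_level {G ι : Type*} [AddCommGroup G] [Fintype G] [Fintype ι] [DecidableEq ι]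
    (Hs : ι → AddSubgroup G) (F ν : G → ℝ) (Fm : Finset (Finset ι))
    (hFm : ∀ S ∈ Fm, ∀ T, T ⊆ S → T ∈ Fm) (m : ℕ) (β ε : ℝ)
    (hm : 2 ≤ m) (hβ : 0 < β) (hβm : 1 ≤ β * Real.exp (2 * m))
    (hF : ∀ x, 0 ≤ F x) (hFν : ∀ x, F x ≤ ν x)
    (h2 : ∀ S ∈ Fm, ∀ x, EE Hs Sᶜ F x ≤ 2 ^ S.card * β)
    (hν : ∀ 𝒯 : Fin (2 * m + 1) → Finset ι, (∀ i, 𝒯 i ∈ Fm) →
      ∀ x, |EE Hs (Finset.univ.sup 𝒯)ᶜ ν x - 1| ≤ ε)
    (hε : ε * (Fm.card : ℝ) ^ (2 * m) ≤ 1) :
    ∀ x, ∑ U ∈ Fm, (1 / (144 * m : ℝ)) ^ U.card *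
      EE Hs Finset.univ (fun z => (gg Hs F ∅ U z) ^ 2) x ≤ 36 * β ^ 2 := by
  have hm' : (2 : ℝ) ≤ m := by exact_mod_cast hm
  apply Sharp.sharp_level_gen Hs F ν Fm hFm m β ε (1 / (144 * m)) hm (by positivity) _ hβ hβm hF
    hFν h2 hν hε
  rw [mul_one_div, div_le_one (by linarith only [hm'])]
  nlinarith only []

end Vale.Agent.P042
end
end
end

section

section

section

set_option autoImplicit false

/-!
# The sharp level inequality, concrete form
-/

namespace Vale.Agent.P042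

open Finset

theorem famQ_down (P : Finset ℕ) (hP : ∀ p ∈ P, Nat.Prime p) (Q : ℕ) :
    ∀ S ∈ famQ P Q, ∀ T, T ⊆ S → T ∈ famQ P Q := by
  intro S hS T hT
  simp only [famQ, Finset.mem_filter, Finset.mem_univ, true_and] at hS ⊢
  refine le_trans ?_ hS
  exact Finset.prod_le_prod_of_subset_of_one_le' hT (fun p _ _ => (hP p p.2).one_le)

theorem level_ineq_fam (P : Finset ℕ) (hP : ∀ p ∈ P, Nat.Prime p) (W Q m N1 : ℕ)
    (β : ℝ) (A : Finset ℤ) (y : ℤ)
    (hQ : 1 ≤ Q) (hW : 1 ≤ W) (hm : 2 ≤ m) (hβ : 0 < β) (hβm : 1 ≤ β * Real.exp (2 * m))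
    (hN1 : W * Q ^ (4 * m + 1) ≤ N1)
    (hNI : ∀ S ⊆ P, ∏ p ∈ S, p ≤ Q → ∀ x : ℤ,
      ((A.filter (fun n => y < n ∧ n ≤ y + N1 ∧
        n ≡ x [ZMOD (W * ∏ p ∈ S, p : ℕ)])).card : ℝ) ≤
        2 ^ S.card * β * (N1 / (W * ∏ p ∈ S, p : ℕ))) :
    ∑ q ∈ (Finset.Icc 1 Q).filter (good P W), ∑ a ∈ (Finset.range q).filter (Nat.Coprime q),
      (1 / (144 * m : ℝ)) ^ (sW W q) *
        (‖∑ x ∈ A.filter (fun n => y < n ∧ n ≤ y + N1), e (-(x * a / q))‖ ^ 2 / (N1 : ℝ) ^ 2)
      ≤ 36 * β ^ 2 := by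
  apply level_ineq_fam_aux P hP W Q m N1 β (1 / (144 * m : ℝ)) A y hQ hW (by positivity) hN1 hNI
  intro _ F ν ε hF hFν h2 hν hε
  exact sharp_level (HF W P) F ν (famQ P Q) (famQ_down P hP Q) m β ε hm hβ hβm hF hFν h2 hν hε

end Vale.Agent.P042
end
end
end

section

section

section

set_option autoImplicit false

/-!
# Stage 2: bounding the weighted energy
-/

namespace Vale.Agent.P042

open Finset

/-- product of the local factors -/
noncomputable def kapProd (kap : ℕ → ℕ → ℝ) (q : ℕ) : ℝ :=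
  ∏ p ∈ q.primeFactors, kap p (q.factorization p)

/-- normalised energy of `A ∩ (y, y + N1]` at denominator `q` -/
noncomputable def en (A : Finset ℤ) (N1 : ℕ) (y : ℤ) (q : ℕ) : ℝ :=
  ∑ a ∈ (Finset.range q).filter (Nat.Coprime q),
    ‖∑ x ∈ A.filter (fun n => y < n ∧ n ≤ y + N1), e (-(x * a / q))‖ ^ 2 / (N1 : ℝ) ^ 2

theorem en_nonneg (A : Finset ℤ) (N1 : ℕ) (y : ℤ) (q : ℕ) : 0 ≤ en A N1 y q :=
  Finset.sum_nonneg fun _ _ => by positivity

/-- the items: prime powers handled by the random modulus -/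
def items (Y Q : ℕ) : Finset (ℕ × ℕ) :=
  ((Finset.range (Q + 1)) ×ˢ (Finset.range (Q + 1))).filter
    (fun i => i.1.Prime ∧ 1 ≤ i.2 ∧ i.1 ^ i.2 ≤ Q ∧ (i.1 ≤ Y ∨ 2 ≤ i.2))

/-- the items of `q` -/
def Uq (Y q : ℕ) : Finset (ℕ × ℕ) :=
  (q.primeFactors.filter (fun p => p ≤ Y ∨ 2 ≤ q.factorization p)).image
    (fun p => (p, q.factorization p))

/-- the part of the weight of `q` from large primes to the first power -/
noncomputable def wl (kap : ℕ → ℕ → ℝ) (Y q : ℕ) : ℝ :=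
  ∏ p ∈ q.primeFactors.filter (fun p => ¬ (p ≤ Y ∨ 2 ≤ q.factorization p)),
    kap p (q.factorization p)

/-- modulus of a set of items -/
def WR (R : Finset (ℕ × ℕ)) : ℕ := ∏ i ∈ R, i.1 ^ i.2

variable {kap : ℕ → ℕ → ℝ} {Y Q : ℕ}

theorem kapProd_eq (q : ℕ) :
    kapProd kap q = (∏ i ∈ Uq Y q, kap i.1 i.2) * wl kap Y q := by
  unfold kapProd Uq wl
  rw [Finset.prod_image, Finset.prod_filter_mul_prod_filter_not]
  intro a _ b _ h
  exact (Prod.mk.inj h).1

theorem Uq_subset {q : ℕ} (hq1 : 1 ≤ q) (hqQ : q ≤ Q) : Uq Y q ⊆ items Y Q := by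
  intro i hi
  unfold Uq at hi
  rw [Finset.mem_image] at hi
  obtain ⟨p, hp, rfl⟩ := hi
  rw [Finset.mem_filter] at hp
  have hpp := Nat.prime_of_mem_primeFactors hp.1
  have hv : 1 ≤ q.factorization p := by
    have : q.factorization p ≠ 0 := by
      rw [← Finsupp.mem_support_iff, Nat.support_factorization]; exact hp.1
    omega
  have h1 : p ^ q.factorization p ≤ q := Nat.ordProj_le p (by omega)
  have h2 : q.factorization p < p ^ q.factorization p := Nat.lt_pow_self hpp.one_lt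
  have h3 : p ≤ p ^ q.factorization p := Nat.le_self_pow (by omega) p
  simp only [items, mem_filter, mem_product, mem_range]
  exact ⟨⟨by omega, by omega⟩, hpp, hv, by omega, hp.2⟩

theorem cost_Uq {q : ℕ} (hq1 : 1 ≤ q) :
    ∑ i ∈ Uq Y q, (i.2 : ℝ) * Real.log i.1 ≤ Real.log q := by
  unfold Uq
  rw [Finset.sum_image (by intro a _ b _ h; exact (Prod.mk.inj h).1)]
  have h1 : ∑ p ∈ q.primeFactors, ((q.factorization p : ℕ) : ℝ) * Real.log p = Real.log q := by
    conv_rhs => rw [← Nat.prod_factorization_pow_eq_self (by omega : q ≠ 0)]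
    rw [Finsupp.prod, Nat.support_factorization]
    push_cast
    rw [Real.log_prod]
    · refine Finset.sum_congr rfl fun p _ => ?_
      rw [Real.log_pow]
    · intro p hp
      have := (Nat.prime_of_mem_primeFactors hp).pos
      positivity
  rw [← h1]
  refine Finset.sum_le_sum_of_subset_of_nonneg (Finset.filter_subset _ _) ?_
  intro p _ _
  have : 0 ≤ Real.log p := Real.log_natCast_nonneg p
  (clear * -; positivity)

theorem WR_pos {R : Finset (ℕ × ℕ)} (hR : R ⊆ items Y Q) : 1 ≤ WR R := by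
  unfold WR
  show 0 < _
  apply Finset.prod_pos
  intro i hi
  have := hR hi
  simp only [items, Finset.mem_filter] at this
  exact pow_pos this.2.1.pos _

theorem log_WR {R : Finset (ℕ × ℕ)} (hR : R ⊆ items Y Q) :
    Real.log (WR R) = ∑ i ∈ R, (i.2 : ℝ) * Real.log i.1 := by
  unfold WR
  push_cast
  rw [Real.log_prod]
  · refine Finset.sum_congr rfl fun i _ => ?_
    rw [Real.log_pow]
  · intro i hi
    have := hR hi
    simp only [items, Finset.mem_filter] at this
    have := this.2.1.pos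
    positivity

theorem Uq_good {q : ℕ} (hqQ : q ≤ Q) {R : Finset (ℕ × ℕ)}
    (hUR : Uq Y q ⊆ R) :
    good ((Finset.Icc (Y + 1) Q).filter Nat.Prime) (WR R) q := by
  intro p hp
  by_cases h : p ≤ Y ∨ 2 ≤ q.factorization p
  · left
    have h1 : (p, q.factorization p) ∈ Uq Y q := by
      unfold Uq
      rw [Finset.mem_image]
      exact ⟨p, by rw [Finset.mem_filter]; exact ⟨hp, h⟩, rfl⟩
    unfold WR
    exact Finset.dvd_prod_of_mem (fun i : ℕ × ℕ => i.1 ^ i.2) (hUR h1)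
  · right
    push Not at h
    have hpp := Nat.prime_of_mem_primeFactors hp
    have hv : 1 ≤ q.factorization p := by
      have : q.factorization p ≠ 0 := by
        rw [← Finsupp.mem_support_iff, Nat.support_factorization]; exact hp
      omega
    have hle := Nat.le_of_mem_primeFactors hp
    refine ⟨?_, by omega⟩
    rw [Finset.mem_filter, Finset.mem_Icc]
    exact ⟨⟨by omega, by omega⟩, hpp⟩

theorem wl_nonneg (hk0 : ∀ p j, 0 ≤ kap p j) (q : ℕ) : 0 ≤ wl kap Y q :=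
  Finset.prod_nonneg fun p _ => hk0 p _

theorem wl_le_one (hk0 : ∀ p j, 0 ≤ kap p j) (hk1 : ∀ p j, kap p j ≤ 1) (q : ℕ) :
    wl kap Y q ≤ 1 :=
  Finset.prod_le_one (fun p _ => hk0 p _) (fun p _ => hk1 p _)

theorem wl_le {q m : ℕ} {ρ ε' : ℝ} (hk0 : ∀ p j, 0 ≤ kap p j)
    (hρ : ∀ p : ℕ, p.Prime → Y < p → kap p 1 ≤ ρ) (hρ0 : 0 ≤ ρ)
    (hρε : 144 * m * ρ ≤ ε') (hε' : ε' ≤ 1) (hm : 1 ≤ m)
    {R : Finset (ℕ × ℕ)} (hUR : Uq Y q ⊆ R) (hs : 1 ≤ sW (WR R) q) :
    wl kap Y q ≤ ε' * (1 / (144 * m : ℝ)) ^ (sW (WR R) q) := by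
  have hm' : (1 : ℝ) ≤ m := by exact_mod_cast hm
  have hρ1 : ρ ≤ 1 := by nlinarith only [hρε, hε', hm']
  set F := q.primeFactors.filter (fun p => ¬ (p ≤ Y ∨ 2 ≤ q.factorization p)) with hF
  have h1 : wl kap Y q ≤ ρ ^ F.card := by
    unfold wl
    rw [← Finset.prod_const]
    apply Finset.prod_le_prod (fun p _ => hk0 p _)
    intro p hp
    rw [Finset.mem_filter] at hp
    have h := hp.2
    push Not at h
    have hpp := Nat.prime_of_mem_primeFactors hp.1
    have hv : 1 ≤ q.factorization p := by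
      have : q.factorization p ≠ 0 := by
        rw [← Finsupp.mem_support_iff, Nat.support_factorization]; exact hp.1
      omega
    have hv1 : q.factorization p = 1 := by omega
    rw [hv1]
    exact hρ p hpp h.1
  have h2 : sW (WR R) q ≤ F.card := by
    unfold sW
    apply Finset.card_le_card
    intro p hp
    rw [Finset.mem_filter] at hp
    rw [hF, Finset.mem_filter]
    refine ⟨hp.1, fun h => hp.2 ?_⟩
    have h1 : (p, q.factorization p) ∈ Uq Y q := by
      unfold Uq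
      rw [Finset.mem_image]
      exact ⟨p, by rw [Finset.mem_filter]; exact ⟨hp.1, h⟩, rfl⟩
    unfold WR
    exact Finset.dvd_prod_of_mem (fun i : ℕ × ℕ => i.1 ^ i.2) (hUR h1)
  have h3 : ρ ^ F.card ≤ ρ ^ (sW (WR R) q) := pow_le_pow_of_le_one hρ0 hρ1 h2
  refine (h1.trans h3).trans ?_
  have h4 : ρ = (144 * m * ρ) * (1 / (144 * m : ℝ)) := by field_simp
  conv_lhs => rw [h4, mul_pow]
  apply mul_le_mul_of_nonneg_right _ (by (clear * - hm; positivity))
  calc (144 * m * ρ) ^ (sW (WR R) q) ≤ (144 * m * ρ) ^ 1 :=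
        pow_le_pow_of_le_one (by positivity) (hρε.trans hε') hs
    _ = 144 * m * ρ := pow_one _
    _ ≤ ε' := hρε

theorem dvd_of_sW {W q : ℕ} (hq1 : 1 ≤ q) (h : sW W q = 0) : q ∣ W := by
  unfold sW at h
  rw [Finset.card_eq_zero, Finset.filter_eq_empty_iff] at h
  rcases Nat.eq_zero_or_pos W with hW | hW
  · rw [hW]; exact dvd_zero _
  rw [← Nat.factorization_prime_le_iff_dvd (by omega) (by omega)]
  intro p hp
  by_cases hpq : p ∈ q.primeFactors
  · rw [← hp.pow_dvd_iff_le_factorization (by omega)]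
    exact not_not.1 (h hpq)
  · rw [← Nat.support_factorization, Finsupp.mem_support_iff, not_not] at hpq
    rw [hpq]
    exact Nat.zero_le _

theorem e_zero' : e 0 = 1 := by simp [e]

theorem en_one (A : Finset ℤ) (N1 : ℕ) (y : ℤ) :
    en A N1 y 1 = ((A.filter (fun n => y < n ∧ n ≤ y + N1)).card : ℝ) ^ 2 / (N1 : ℝ) ^ 2 := by
  unfold en
  have h1 : (Finset.range 1).filter (Nat.Coprime 1) = {0} := by decide
  rw [h1, Finset.sum_singleton]
  simp [e_zero']

theorem freq_inj {n : ℕ} [NeZero n] (T : Finset (Σ _ : ℕ, ℕ))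
    (hT : ∀ t ∈ T, 1 ≤ t.1 ∧ t.1 ∣ n ∧ t.2 < t.1 ∧ Nat.Coprime t.1 t.2) :
    Set.InjOn (fun t : (Σ _ : ℕ, ℕ) => ((t.2 * (n / t.1) : ℕ) : ZMod n)) T := by
  intro t ht t' ht' heq
  have h1 := hT t ht
  have h2 := hT t' ht'
  have hn : 0 < n := Nat.pos_of_ne_zero (NeZero.ne n)
  obtain ⟨c, hc⟩ : t.1 ∣ n := h1.2.1
  obtain ⟨c', hc'⟩ : t'.1 ∣ n := h2.2.1
  have e1 : n / t.1 = c := by rw [hc, Nat.mul_div_cancel_left _ (by omega)]
  have e2 : n / t'.1 = c' := by rw [hc', Nat.mul_div_cancel_left _ (by omega)]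
  have hc0 : 0 < c := by
    rcases Nat.eq_zero_or_pos c with h | h
    · rw [h, mul_zero] at hc; omega
    · exact h
  have hc0' : 0 < c' := by
    rcases Nat.eq_zero_or_pos c' with h | h
    · rw [h, mul_zero] at hc'; omega
    · exact h
  simp only at heq
  rw [e1, e2, ZMod.natCast_eq_natCast_iff'] at heq
  have l1 : t.2 * c < n := by
    rw [hc]; exact Nat.mul_lt_mul_of_pos_right h1.2.2.1 hc0
  have l2 : t'.2 * c' < n := by
    rw [hc']; exact Nat.mul_lt_mul_of_pos_right h2.2.2.1 hc0'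
  rw [Nat.mod_eq_of_lt l1, Nat.mod_eq_of_lt l2] at heq
  have h3 : t.2 * t'.1 = t'.2 * t.1 := by
    have h4 : t.1 * c = t'.1 * c' := by rw [← hc, ← hc']
    have h5 : (t.2 * t'.1) * (c * c') = (t'.2 * t.1) * (c * c') := by
      calc (t.2 * t'.1) * (c * c') = (t.2 * c) * (t'.1 * c') := by ring
        _ = (t'.2 * c') * (t.1 * c) := by rw [heq, h4]
        _ = (t'.2 * t.1) * (c * c') := by ring
    exact Nat.eq_of_mul_eq_mul_right (Nat.mul_pos hc0 hc0') h5
  have h6 : t.1 ∣ t'.1 := by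
    have : t.1 ∣ t.2 * t'.1 := by rw [h3]; exact Dvd.intro_left _ rfl
    exact h1.2.2.2.dvd_of_dvd_mul_left this
  have h7 : t'.1 ∣ t.1 := by
    have : t'.1 ∣ t'.2 * t.1 := by rw [← h3]; exact Dvd.intro_left _ rfl
    exact h2.2.2.2.dvd_of_dvd_mul_left this
  have h8 : t.1 = t'.1 := Nat.dvd_antisymm h6 h7
  have h9 : t.2 = t'.2 := by
    rw [h8] at h3
    exact Nat.eq_of_mul_eq_mul_right (by omega) h3
  rcases t with ⟨t1, t2⟩
  rcases t' with ⟨t1', t2'⟩
  simp only at h8 h9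
  rw [h8, h9]

theorem parseval_W (W : ℕ) (hW : 1 ≤ W) (A : Finset ℤ) (K : ℝ)
    (hK : ∀ x : ℤ, ((A.filter (fun n => n % W = x % W)).card : ℝ) ≤ K) :
    ∑ q ∈ W.divisors, ∑ a ∈ (Finset.range q).filter (Nat.Coprime q),
      ‖∑ x ∈ A, e (-(x * a / q))‖ ^ 2 ≤ W * K * A.card := by
  classical
  have : NeZero W := ⟨by omega⟩
  have hWr : (0 : ℝ) < W := by exact_mod_cast hW
  set T : Finset (Σ _ : ℕ, ℕ) :=
    W.divisors.sigma (fun q => (Finset.range q).filter (Nat.Coprime q)) with hTdef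
  have hT : ∀ t ∈ T, 1 ≤ t.1 ∧ t.1 ∣ W ∧ t.2 < t.1 ∧ Nat.Coprime t.1 t.2 := by
    intro t ht
    simp only [hTdef, Finset.mem_sigma, Nat.mem_divisors, Finset.mem_filter,
      Finset.mem_range] at ht
    exact ⟨by omega, ht.1.1, ht.2.1, ht.2.2⟩
  have hinj := freq_inj (n := W) T hT
  have h1 : ∑ q ∈ W.divisors, ∑ a ∈ (Finset.range q).filter (Nat.Coprime q),
      ‖∑ x ∈ A, e (-(x * a / q))‖ ^ 2 =
      ∑ t ∈ T, ‖∑ x ∈ A, e (-(x * t.2 / t.1))‖ ^ 2 := by
    rw [hTdef, Finset.sum_sigma]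
  have h2 : ∀ t ∈ T, ‖∑ x ∈ A, e (-(x * t.2 / t.1))‖ ^ 2 =
      ‖ftz (fun z => (cfF W W A z : ℂ)) ((t.2 * (W / t.1) : ℕ) : ZMod W)‖ ^ 2 := by
    intro t ht
    have h3 := hT t ht
    rw [ftz_cfF W A h3.1 h3.2.1, div_self hWr.ne']
    simp only [Complex.ofReal_one, one_mul]
  rw [h1, Finset.sum_congr rfl h2]
  have h4 : ∑ t ∈ T, ‖ftz (fun z => (cfF W W A z : ℂ)) ((t.2 * (W / t.1) : ℕ) : ZMod W)‖ ^ 2 ≤
      ∑ ξ : ZMod W, ‖ftz (fun z => (cfF W W A z : ℂ)) ξ‖ ^ 2 := by
    rw [← Finset.sum_image (f := fun ξ => ‖ftz (fun z => (cfF W W A z : ℂ)) ξ‖ ^ 2) hinj]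
    exact Finset.sum_le_sum_of_subset_of_nonneg (Finset.subset_univ _)
      (fun _ _ _ => by (clear * - this; positivity))
  refine h4.trans ?_
  rw [ftz_parseval]
  have hcf : ∀ z : ZMod W, cfF W W A z =
      ((A.filter (fun n' : ℤ => (n' : ZMod W) = z)).card : ℝ) := by
    intro z
    unfold cfF
    rw [div_self hWr.ne', one_mul]
  have hcle : ∀ z : ZMod W, cfF W W A z ≤ K := by
    intro z
    rw [hcf]
    refine le_trans (le_of_eq ?_) (hK (z.val : ℤ))
    congr 2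
    ext n
    simp only [Finset.mem_filter]
    constructor
    · rintro ⟨hn, h⟩
      refine ⟨hn, ?_⟩
      have : (n : ZMod W) = (((z.val : ℕ) : ℤ) : ZMod W) := by
        rw [h, Int.cast_natCast, ZMod.natCast_zmod_val]
      exact (ZMod.intCast_eq_intCast_iff _ _ _).1 this
    · rintro ⟨hn, h⟩
      refine ⟨hn, ?_⟩
      have : (n : ZMod W) = (((z.val : ℕ) : ℤ) : ZMod W) :=
        (ZMod.intCast_eq_intCast_iff _ _ _).2 h
      rw [this, Int.cast_natCast, ZMod.natCast_zmod_val]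
  have hc0 : ∀ z : ZMod W, 0 ≤ cfF W W A z := by
    intro z
    rw [hcf]; (clear * -; positivity)
  have hsum : ∑ z : ZMod W, cfF W W A z = A.card := by
    simp_rw [hcf]
    rw [← Nat.cast_sum]
    congr 1
    exact (Finset.card_eq_sum_card_fiberwise (fun n _ => Finset.mem_coe.2 (Finset.mem_univ _))).symm
  rw [mul_assoc]
  apply mul_le_mul_of_nonneg_left _ hWr.le
  calc ∑ z : ZMod W, ‖((cfF W W A z : ℝ) : ℂ)‖ ^ 2 = ∑ z : ZMod W, cfF W W A z * cfF W W A z := by
        refine Finset.sum_congr rfl fun z _ => ?_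
        rw [Complex.norm_real, Real.norm_eq_abs, sq_abs, sq]
    _ ≤ ∑ z : ZMod W, K * cfF W W A z :=
        Finset.sum_le_sum fun z _ => mul_le_mul_of_nonneg_right (hcle z) (hc0 z)
    _ = K * A.card := by rw [← Finset.mul_sum, hsum]

/-- single window bound -/
theorem single_bound {m N1 : ℕ} {ρ ε' c0 α : ℝ} (A : Finset ℤ) (y : ℤ)
    (hk0 : ∀ p j, 0 ≤ kap p j) (hk1 : ∀ p j, kap p j ≤ 1)
    (hρ : ∀ p : ℕ, p.Prime → Y < p → kap p 1 ≤ ρ) (hρ0 : 0 ≤ ρ)
    (hρε : 144 * m * ρ ≤ ε') (hε0 : 0 ≤ ε') (hε' : ε' ≤ 1) (hm : 2 ≤ m)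
    (hα : 0 < α) (hαm : 1 ≤ 2 * α * Real.exp (2 * m)) (hc1 : c0 ≤ 1)
    (hQ : 1 ≤ Q)
    {R : Finset (ℕ × ℕ)} (hR : R ⊆ items Y Q)
    (hN1 : WR R * Q ^ (4 * m + 1) ≤ N1)
    (hNI : ∀ D : ℕ, 1 ≤ D → D ≤ WR R * Q → ∀ x : ℤ,
      ((A.filter (fun n => y < n ∧ n ≤ y + N1 ∧ n ≡ x [ZMOD D])).card : ℝ) ≤
        (1 + c0) * α * (N1 / D)) :
    ∑ q ∈ (Finset.Icc 2 Q).filter (fun q => Uq Y q ⊆ R), wl kap Y q * en A N1 y q ≤
      ((A.filter (fun n => y < n ∧ n ≤ y + N1)).card / N1 : ℝ) *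
        ((1 + c0) * α - ((A.filter (fun n => y < n ∧ n ≤ y + N1)).card / N1 : ℝ)) +
      ε' * (144 * α ^ 2) := by
  classical
  set W := WR R with hWdef
  have hW : 1 ≤ W := WR_pos hR
  set A' := A.filter (fun n => y < n ∧ n ≤ y + N1) with hA'
  have hN1pos : 0 < N1 := by
    have : 0 < W * Q ^ (4 * m + 1) := by (clear * - hW hQ; positivity)
    omega
  have hN1r : (0 : ℝ) < N1 := by exact_mod_cast hN1pos
  have hWr : (0 : ℝ) < W := by exact_mod_cast hW
  set f : ℝ := (A'.card : ℝ) / N1 with hf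
  set P := (Finset.Icc (Y + 1) Q).filter Nat.Prime with hP
  have hPp : ∀ p ∈ P, Nat.Prime p := fun p hp => (Finset.mem_filter.1 hp).2
  -- split
  rw [← Finset.sum_filter_add_sum_filter_not ((Finset.Icc 2 Q).filter (fun q => Uq Y q ⊆ R))
    (fun q => sW W q = 0)]
  apply add_le_add
  · -- part (i)
    have hpars := parseval_W W hW A' ((1 + c0) * α * (N1 / W)) (by
      intro x
      have := hNI W hW (Nat.le_mul_of_pos_right _ (by omega)) x
      refine le_trans (le_of_eq ?_) this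
      rw [hA', Finset.filter_filter]
      congr 2
      ext n
      simp only [Finset.mem_filter]
      simp only [Int.ModEq, and_assoc])
    have h1 : ∑ q ∈ ((Finset.Icc 2 Q).filter (fun q => Uq Y q ⊆ R)).filter
        (fun q => sW W q = 0), wl kap Y q * en A N1 y q ≤
        ∑ q ∈ W.divisors.erase 1, en A N1 y q := by
      refine (Finset.sum_le_sum (g := fun q => en A N1 y q) ?_).trans
        (Finset.sum_le_sum_of_subset_of_nonneg ?_ ?_)
      · intro q _
        exact mul_le_of_le_one_left (en_nonneg _ _ _ _) (wl_le_one hk0 hk1 q)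
      · intro q hq
        rw [Finset.mem_filter, Finset.mem_filter, Finset.mem_Icc] at hq
        rw [Finset.mem_erase, Nat.mem_divisors]
        exact ⟨by omega, dvd_of_sW (by omega) hq.2, by omega⟩
      · intro q _ _
        exact en_nonneg _ _ _ _
    refine h1.trans ?_
    have h2 : ∑ q ∈ W.divisors.erase 1, en A N1 y q = (∑ q ∈ W.divisors, en A N1 y q) - f ^ 2 := by
      rw [← Finset.add_sum_erase W.divisors (en A N1 y) (by simp; omega : 1 ∈ W.divisors), en_one,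
        hf, ← hA']
      ring
    have h3 : ∑ q ∈ W.divisors, en A N1 y q =
        (∑ q ∈ W.divisors, ∑ a ∈ (Finset.range q).filter (Nat.Coprime q),
          ‖∑ x ∈ A', e (-(x * a / q))‖ ^ 2) / (N1 : ℝ) ^ 2 := by
      unfold en
      rw [Finset.sum_div]
      refine Finset.sum_congr rfl fun q _ => ?_
      rw [Finset.sum_div]
    have h4 : ∑ q ∈ W.divisors, en A N1 y q ≤ (1 + c0) * α * f := by
      rw [h3, div_le_iff₀ (by positivity)]
      refine hpars.trans (le_of_eq ?_)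
      rw [hf]
      (clear * - hW hN1pos hα; field_simp)
    rw [h2]
    nlinarith only [h4]
  · -- part (ii)
    have hlev := level_ineq_fam P hPp W Q m N1 (2 * α) A y hQ hW hm (by positivity) hαm hN1 (by
      intro S hS hSQ x
      have hSpos : 0 < ∏ p ∈ S, p := Finset.prod_pos fun p hp => (hPp p (hS hp)).pos
      have := hNI (W * ∏ p ∈ S, p) (Nat.mul_pos (by omega) hSpos) (Nat.mul_le_mul_left _ hSQ) x
      refine this.trans ?_
      apply mul_le_mul_of_nonneg_right _ (by (clear * - hN1pos hW hSpos; positivity))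
      have h2 : (1 : ℝ) ≤ 2 ^ S.card := one_le_pow₀ (by norm_num)
      calc (1 + c0) * α ≤ 1 * (2 * α) := by nlinarith only [hα, hc1]
        _ ≤ 2 ^ S.card * (2 * α) := mul_le_mul_of_nonneg_right h2 (by positivity))
    have h5 : ∑ q ∈ ((Finset.Icc 2 Q).filter (fun q => Uq Y q ⊆ R)).filter
        (fun q => ¬ sW W q = 0), wl kap Y q * en A N1 y q ≤
        ∑ q ∈ (Finset.Icc 1 Q).filter (good P W),
          ε' * ((1 / (144 * m : ℝ)) ^ (sW W q) * en A N1 y q) := by
      refine (Finset.sum_le_sum (g := fun q => ε' * ((1 / (144 * m : ℝ)) ^ (sW W q) *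
        en A N1 y q)) ?_).trans (Finset.sum_le_sum_of_subset_of_nonneg ?_ ?_)
      · intro q hq
        rw [Finset.mem_filter, Finset.mem_filter, Finset.mem_Icc] at hq
        have := wl_le (m := m) hk0 hρ hρ0 hρε hε' (by omega) hq.1.2
          (Nat.one_le_iff_ne_zero.2 hq.2)
        calc wl kap Y q * en A N1 y q ≤ (ε' * (1 / (144 * m : ℝ)) ^ (sW W q)) * en A N1 y q :=
              mul_le_mul_of_nonneg_right this (en_nonneg _ _ _ _)
          _ = _ := by ring
      · intro q hq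
        rw [Finset.mem_filter, Finset.mem_filter, Finset.mem_Icc] at hq
        rw [Finset.mem_filter, Finset.mem_Icc]
        exact ⟨⟨by omega, hq.1.1.2⟩, Uq_good hq.1.1.2 hq.1.2⟩
      · intro q _ _
        have := en_nonneg A N1 y q
        (clear * - hε0 hm this; positivity)
    refine h5.trans ?_
    rw [← Finset.mul_sum]
    apply mul_le_mul_of_nonneg_left _ hε0
    have h6 : ∑ q ∈ (Finset.Icc 1 Q).filter (good P W),
        (1 / (144 * m : ℝ)) ^ (sW W q) * en A N1 y q =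
        ∑ q ∈ (Finset.Icc 1 Q).filter (good P W), ∑ a ∈ (Finset.range q).filter (Nat.Coprime q),
        (1 / (144 * m : ℝ)) ^ (sW W q) *
        (‖∑ x ∈ A.filter (fun n => y < n ∧ n ≤ y + N1), e (-(x * a / q))‖ ^ 2 /
          (N1 : ℝ) ^ 2) := by
      refine Finset.sum_congr rfl fun q _ => ?_
      unfold en
      rw [Finset.mul_sum]
    rw [h6]
    refine hlev.trans (le_of_eq ?_)
    ring

theorem sum_windows (N N1 : ℕ) (A : Finset ℤ) (hA : A ⊆ Finset.Icc (1 : ℤ) N) :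
    ∑ y ∈ Finset.Icc (-(N1 : ℤ)) N, ((A.filter (fun n => y < n ∧ n ≤ y + N1)).card : ℝ) =
      N1 * A.card := by
  classical
  have h1 : ∀ y : ℤ, ((A.filter (fun n => y < n ∧ n ≤ y + N1)).card : ℝ) =
      ∑ n ∈ A, if (y < n ∧ n ≤ y + N1) then (1 : ℝ) else 0 := by
    intro y
    rw [Finset.card_filter]
    push_cast
    rfl
  simp_rw [h1]
  rw [Finset.sum_comm]
  have h2 : ∀ n ∈ A, ∑ y ∈ Finset.Icc (-(N1 : ℤ)) N,
      (if (y < n ∧ n ≤ y + N1) then (1 : ℝ) else 0) = N1 := by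
    intro n hn
    have hn' := hA hn
    rw [Finset.mem_Icc] at hn'
    rw [← Finset.sum_filter, Finset.sum_const, nsmul_eq_mul, mul_one]
    have : (Finset.Icc (-(N1 : ℤ)) N).filter (fun y => y < n ∧ n ≤ y + N1) =
        Finset.Ico (n - N1) n := by
      ext y
      rw [Finset.mem_filter, Finset.mem_Icc, Finset.mem_Ico]
      omega
    rw [this, Int.card_Ico]
    have : (n - (n - (N1 : ℤ))).toNat = N1 := by
      rw [sub_sub_cancel, Int.toNat_natCast]
    rw [this]
  rw [Finset.sum_congr rfl h2, Finset.sum_const, nsmul_eq_mul]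
  ring

/-- the weighted energy bound -/
theorem T_bound {m N N1 : ℕ} {ρ ε' c0 α X0 : ℝ} (A : Finset ℤ)
    (hA : A ⊆ Finset.Icc (1 : ℤ) N) (hAc : (A.card : ℝ) = α * N)
    (hk0 : ∀ p j, 0 ≤ kap p j) (hk1 : ∀ p j, kap p j ≤ 1)
    (hρ : ∀ p : ℕ, p.Prime → Y < p → kap p 1 ≤ ρ) (hρ0 : 0 ≤ ρ)
    (hρε : 144 * m * ρ ≤ ε') (hε0 : 0 ≤ ε') (hε' : ε' ≤ 1) (hm : 2 ≤ m)
    (hα : 0 < α) (hαm : 1 ≤ 2 * α * Real.exp (2 * m)) (hc0 : 0 ≤ c0) (hc1 : c0 ≤ 1)
    (hQ : 1 ≤ Q) (hX0 : 0 < X0)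
    (hX : ∑ i ∈ items Y Q, kap i.1 i.2 * ((i.2 : ℝ) * Real.log i.1) ≤ X0)
    (hN1 : Real.exp (2 * X0) * (Q : ℝ) ^ (4 * m + 2) ≤ N1)
    (hNI : ∀ D : ℕ, 1 ≤ D → (D : ℝ) ≤ (Q : ℝ) ^ 2 * Real.exp (2 * X0) → ∀ y x : ℤ,
      ((A.filter (fun n => y < n ∧ n ≤ y + N1 ∧ n ≡ x [ZMOD D])).card : ℝ) ≤
        (1 + c0) * α * (N1 / D)) :
    ∑ y ∈ Finset.Icc (-(N1 : ℤ)) N, ∑ q ∈ Finset.Icc 2 Q, kapProd kap q * en A N1 y q ≤
      2 * (α ^ 2 * (2 * c0 * N + 4 * (N1 + 1)) + 144 * ε' * α ^ 2 * (N + N1 + 1)) := by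
  classical
  have hQr : (1 : ℝ) ≤ Q := by exact_mod_cast hQ
  have hN1r : (0 : ℝ) < N1 := by
    have : 0 < Real.exp (2 * X0) * (Q : ℝ) ^ (4 * m + 2) := by (clear * - hQ; positivity)
    linarith only [hN1, this]
  set f : ℤ → ℝ := fun y => ((A.filter (fun n => y < n ∧ n ≤ y + N1)).card / N1 : ℝ) with hf
  have hcardY : ((Finset.Icc (-(N1 : ℤ)) N).card : ℝ) = N + N1 + 1 := by
    rw [Int.card_Icc]
    have : ((N : ℤ) + 1 - -(N1 : ℤ)).toNat = N + N1 + 1 := by omega
    rw [this]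
    push_cast
    ring
  have hfsum : ∑ y ∈ Finset.Icc (-(N1 : ℤ)) N, f y = α * N := by
    simp only [hf]
    rw [← Finset.sum_div, sum_windows N N1 A hA, hAc]
    (clear * - hN1r hα; field_simp)
  have hf0 : ∀ y, 0 ≤ f y := fun y => by simp only [hf]; (clear * - hN1r; positivity)
  have hf1 : ∀ y, f y ≤ (1 + c0) * α := by
    intro y
    have h1 := hNI 1 le_rfl (by
      push_cast
      have h2 : (1 : ℝ) ≤ Real.exp (2 * X0) := Real.one_le_exp (by positivity)
      have h3 : (1 : ℝ) ≤ (Q : ℝ) ^ 2 := one_le_pow₀ hQr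
      nlinarith only [h3, h2]) y 0
    have h4 : A.filter (fun n => y < n ∧ n ≤ y + N1 ∧ n ≡ 0 [ZMOD ((1 : ℕ) : ℤ)]) =
        A.filter (fun n => y < n ∧ n ≤ y + N1) := by
      apply Finset.filter_congr
      intro n _
      have : n ≡ 0 [ZMOD ((1 : ℕ) : ℤ)] := by
        rw [Nat.cast_one]; exact Int.modEq_one
      (clear * - this; tauto)
    rw [h4] at h1
    simp only [hf]
    rw [div_le_iff₀ hN1r]
    refine h1.trans (le_of_eq ?_)
    push_cast
    ring
  -- the bound B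
  set B : ℝ := α ^ 2 * (2 * c0 * N + 4 * (N1 + 1)) + 144 * ε' * α ^ 2 * (N + N1 + 1) with hB
  have hmain : ∀ R ⊆ items Y Q, ∑ i ∈ R, ((i.2 : ℝ) * Real.log i.1) ≤ Real.log Q + 2 * X0 →
      ∑ q ∈ (Finset.Icc 2 Q).filter (fun q => Uq Y q ⊆ R),
        wl kap Y q * ∑ y ∈ Finset.Icc (-(N1 : ℤ)) N, en A N1 y q ≤ B := by
    intro R hR hcost
    have hWpos : 1 ≤ WR R := WR_pos hR
    have hW : (WR R : ℝ) ≤ Q * Real.exp (2 * X0) := by
      rw [← log_WR hR] at hcost
      have hWr : (0 : ℝ) < WR R := by exact_mod_cast hWpos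
      rw [← Real.log_le_log_iff hWr (by positivity), Real.log_mul (by positivity) (by positivity),
        Real.log_exp]
      exact hcost
    have hsw : ∑ q ∈ (Finset.Icc 2 Q).filter (fun q => Uq Y q ⊆ R),
        wl kap Y q * ∑ y ∈ Finset.Icc (-(N1 : ℤ)) N, en A N1 y q =
        ∑ y ∈ Finset.Icc (-(N1 : ℤ)) N, ∑ q ∈ (Finset.Icc 2 Q).filter (fun q => Uq Y q ⊆ R),
          wl kap Y q * en A N1 y q := by
      simp_rw [Finset.mul_sum]
      exact Finset.sum_comm
    rw [hsw]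
    have hone : ∀ y ∈ Finset.Icc (-(N1 : ℤ)) N,
        ∑ q ∈ (Finset.Icc 2 Q).filter (fun q => Uq Y q ⊆ R), wl kap Y q * en A N1 y q ≤
        (1 + c0) * α * ((1 + c0) * α - f y) + ε' * (144 * α ^ 2) := by
      intro y _
      have h1 := single_bound (m := m) (N1 := N1) (c0 := c0) (α := α) A y hk0 hk1 hρ hρ0 hρε hε0
        hε' hm hα hαm hc1 hQ hR
        (by
          have : ((WR R * Q ^ (4 * m + 1) : ℕ) : ℝ) ≤ N1 := by
            push_cast
            calc (WR R : ℝ) * (Q : ℝ) ^ (4 * m + 1) ≤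
                (Q * Real.exp (2 * X0)) * (Q : ℝ) ^ (4 * m + 1) :=
                  mul_le_mul_of_nonneg_right hW (by positivity)
              _ = Real.exp (2 * X0) * (Q : ℝ) ^ (4 * m + 2) := by ring
              _ ≤ N1 := hN1
          exact_mod_cast this)
        (by
          intro D hD hDW x
          apply hNI D hD
          have h2 : (D : ℝ) ≤ WR R * Q := by exact_mod_cast hDW
          calc (D : ℝ) ≤ WR R * Q := h2
            _ ≤ (Q * Real.exp (2 * X0)) * Q := mul_le_mul_of_nonneg_right hW (by positivity)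
            _ = _ := by ring)
      refine h1.trans ?_
      have h3 := hf1 y
      have h4 := hf0 y
      simp only [hf] at h3 h4 ⊢
      have h5 := mul_le_mul_of_nonneg_right h3 (sub_nonneg.2 h3)
      (clear * - h5; linarith)
    refine (Finset.sum_le_sum hone).trans ?_
    rw [Finset.sum_add_distrib, ← Finset.mul_sum, Finset.sum_sub_distrib, hfsum,
      Finset.sum_const, Finset.sum_const, nsmul_eq_mul, nsmul_eq_mul, hcardY, hB]
    have hN1' : (0 : ℝ) ≤ N1 + 1 := by (clear * - hN1r; positivity)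
    have hN' : (0 : ℝ) ≤ N := by (clear * -; positivity)
    have e1 : (1 + c0) * α * ((N + N1 + 1) * ((1 + c0) * α) - α * N) =
        α ^ 2 * ((1 + c0) * c0 * N + (1 + c0) ^ 2 * (N1 + 1)) := by ring
    rw [e1]
    have e2 : (1 + c0) * c0 ≤ 2 * c0 := by nlinarith only [hc0, hc1]
    have e3 : (1 + c0) ^ 2 ≤ 4 := by nlinarith only [e2]
    have e4 : (1 + c0) * c0 * N + (1 + c0) ^ 2 * (N1 + 1) ≤ 2 * c0 * N + 4 * (N1 + 1) := by
      have := mul_le_mul_of_nonneg_right e2 hN'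
      have := mul_le_mul_of_nonneg_right e3 hN1'
      linarith
    have e5 := mul_le_mul_of_nonneg_left e4 (by positivity : (0 : ℝ) ≤ α ^ 2)
    have e6 : (N + N1 + 1) * (ε' * (144 * α ^ 2)) = 144 * ε' * α ^ 2 * (N + N1 + 1) := by ring
    rw [e6]
    linarith only [e5]
  have hrm := random_modulus (items Y Q) (fun i => kap i.1 i.2)
    (fun i => (i.2 : ℝ) * Real.log i.1) (Real.log Q) X0 (fun i _ => hk0 _ _)
    (fun i _ => hk1 _ _)
    (fun i _ => mul_nonneg (Nat.cast_nonneg _) (Real.log_natCast_nonneg _))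
    (Real.log_natCast_nonneg _) hX0 hX
    (Finset.Icc 2 Q) (Uq Y) (fun q => wl kap Y q * ∑ y ∈ Finset.Icc (-(N1 : ℤ)) N, en A N1 y q)
    (fun q hq => by
      rw [Finset.mem_Icc] at hq
      exact Uq_subset (by (clear * - hq; omega)) hq.2)
    (fun q hq => by
      rw [Finset.mem_Icc] at hq
      refine (cost_Uq (by omega)).trans ?_
      apply Real.log_le_log
      · have : 0 < q := by omega
        exact_mod_cast this
      · exact_mod_cast hq.2)
    (fun q _ => mul_nonneg (wl_nonneg hk0 q) (Finset.sum_nonneg fun y _ => en_nonneg _ _ _ _))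
    B hmain
  refine le_trans (le_of_eq ?_) hrm
  rw [Finset.sum_comm]
  refine Finset.sum_congr rfl fun q _ => ?_
  rw [← Finset.mul_sum, kapProd_eq (Y := Y)]
  ring

end Vale.Agent.P042
end
end
end

section

section

section

set_option autoImplicit false

namespace Vale.Agent.P042

end Vale.Agent.P042
end
end
end

section

section

section

set_option autoImplicit false

namespace Vale.Agent.P042

end Vale.Agent.P042
end
end
end

section

section

section

set_option autoImplicit false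

/-!
# Stage 2: the contradiction when there is no density increment
-/

namespace Vale.Agent.P042

open Finset

/-- splitting off the interval part of the balanced function -/
theorem split_window (A : Finset ℤ) (N N1 Q : ℕ) (α : ℝ) (y : ℤ) {q a : ℕ} (hq2 : 2 ≤ q)
    (hqQ : q ≤ Q) (hcop : Nat.Coprime q a) :
    ‖∑ x ∈ Finset.Ioc y (y + N1),
        (((if x ∈ A then (1 : ℝ) else 0) - α * (if x ∈ Finset.Icc (1 : ℤ) N then 1 else 0) : ℝ) : ℂ) *
          e (-(x * a / q))‖ ^ 2 ≤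
      2 * ‖∑ x ∈ A.filter (fun n => y < n ∧ n ≤ y + N1), e (-(x * a / q))‖ ^ 2 +
        2 * (α ^ 2 * (Q : ℝ) ^ 2) := by
  have hsplit : ∑ x ∈ Finset.Ioc y (y + N1),
      (((if x ∈ A then (1 : ℝ) else 0) - α * (if x ∈ Finset.Icc (1 : ℤ) N then 1 else 0) : ℝ) : ℂ) *
        e (-(x * a / q)) =
      ∑ x ∈ A.filter (fun n => y < n ∧ n ≤ y + N1), e (-(x * a / q)) -
      (α : ℂ) * ∑ x ∈ Finset.Ioc (max 0 y) (min N (y + N1)), e (-(x * a / q)) := by
    have e1 : ∑ x ∈ A.filter (fun n => y < n ∧ n ≤ y + N1), e (-(x * a / q)) =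
        ∑ x ∈ Finset.Ioc y (y + N1), (if x ∈ A then e (-(x * a / q)) else 0) := by
      rw [← Finset.sum_filter]
      apply Finset.sum_congr _ (fun _ _ => rfl)
      ext x
      simp only [Finset.mem_filter, Finset.mem_Ioc]
      (clear * -; tauto)
    have e2 : ∑ x ∈ Finset.Ioc (max 0 y) (min N (y + N1)), e (-(x * a / q)) =
        ∑ x ∈ Finset.Ioc y (y + N1), (if x ∈ Finset.Icc (1 : ℤ) N then e (-(x * a / q)) else 0) := by
      rw [← Finset.sum_filter]
      apply Finset.sum_congr _ (fun _ _ => rfl)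
      ext x
      simp only [Finset.mem_filter, Finset.mem_Ioc, Finset.mem_Icc]
      omega
    rw [e1, e2, Finset.mul_sum, ← Finset.sum_sub_distrib]
    apply Finset.sum_congr rfl
    intro x _
    push_cast
    split_ifs <;> simp <;> ring
  rw [hsplit]
  set u := ∑ x ∈ A.filter (fun n => y < n ∧ n ≤ y + N1), e (-(x * a / q)) with hu
  set v := ∑ x ∈ Finset.Ioc (max 0 y) (min (N : ℤ) (y + N1)), e (-(x * a / q)) with hv
  have hv1 : ‖v‖ ≤ Q := (sum_interval_le q a hq2 hcop _ _).trans (by exact_mod_cast hqQ)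
  have h3 : ‖u - (α : ℂ) * v‖ ≤ ‖u‖ + |α| * ‖v‖ := by
    refine (norm_sub_le _ _).trans ?_
    rw [norm_mul, Complex.norm_real, Real.norm_eq_abs]
  have h4 : |α| * ‖v‖ ≤ |α| * Q := mul_le_mul_of_nonneg_left hv1 (abs_nonneg _)
  have h5 : ‖u - (α : ℂ) * v‖ ^ 2 ≤ (‖u‖ + |α| * Q) ^ 2 := by
    apply pow_le_pow_left₀ (norm_nonneg _)
    linarith only [h3, h4]
  have h6 : (|α| * Q) ^ 2 = α ^ 2 * (Q : ℝ) ^ 2 := by
    rw [mul_pow, sq_abs]
  nlinarith only [h5, h6, sq_nonneg (‖u‖ - |α| * Q)]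

theorem en_le (A : Finset ℤ) (N1 : ℕ) (y : ℤ) (q Q : ℕ) (hqQ : q ≤ Q) (b : ℝ)
    (hb : ((A.filter (fun n => y < n ∧ n ≤ y + N1)).card : ℝ) ≤ b * N1)
    (hN1 : 1 ≤ N1) :
    en A N1 y q ≤ Q * b ^ 2 := by
  have hN1r : (0 : ℝ) < N1 := by exact_mod_cast hN1
  unfold en
  have h1 : ∀ a ∈ (Finset.range q).filter (Nat.Coprime q),
      ‖∑ x ∈ A.filter (fun n => y < n ∧ n ≤ y + N1), e (-(x * a / q))‖ ^ 2 / (N1 : ℝ) ^ 2 ≤
        b ^ 2 := by
    intro a _
    rw [div_le_iff₀ (by positivity), ← mul_pow]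
    apply pow_le_pow_left₀ (norm_nonneg _)
    refine (norm_sum_le _ _).trans ?_
    simp only [norm_e, Finset.sum_const, nsmul_eq_mul, mul_one]
    exact hb
  refine (Finset.sum_le_sum h1).trans ?_
  rw [Finset.sum_const, nsmul_eq_mul]
  apply mul_le_mul_of_nonneg_right _ (by (clear * -; positivity))
  have h5 := Finset.card_filter_le (Finset.range q) (Nat.Coprime q)
  rw [Finset.card_range] at h5
  exact_mod_cast h5.trans hqQ

theorem kapProd_nonneg {kap : ℕ → ℕ → ℝ} (hk0 : ∀ p j, 0 ≤ kap p j) (q : ℕ) :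
    0 ≤ kapProd kap q := Finset.prod_nonneg fun p _ => hk0 p _

theorem kapProd_le_one {kap : ℕ → ℕ → ℝ} (hk0 : ∀ p j, 0 ≤ kap p j)
    (hk1 : ∀ p j, kap p j ≤ 1) (q : ℕ) : kapProd kap q ≤ 1 :=
  Finset.prod_le_one (fun p _ => hk0 p _) (fun p _ => hk1 p _)

/-- second moment of the balanced window counts -/
theorem window_var (A : Finset ℤ) (N N1 : ℕ) (α c0 : ℝ)
    (hA : A ⊆ Finset.Icc (1 : ℤ) N) (hAc : (A.card : ℝ) = α * N) (hα : 0 ≤ α)
    (hc1 : c0 ≤ 1) (hN1 : 1 ≤ N1)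
    (hwin : ∀ y : ℤ, ((A.filter (fun n => y < n ∧ n ≤ y + N1)).card : ℝ) ≤
      (1 + c0) * α * N1) :
    ∑ y ∈ Finset.Icc (-(N1 : ℤ)) N, (∑ x ∈ Finset.Ioc y (y + N1),
      ((if x ∈ A then (1 : ℝ) else 0) - α * (if x ∈ Finset.Icc (1 : ℤ) N then 1 else 0))) ^ 2 /
        (N1 : ℝ) ^ 2 ≤
      α ^ 2 * (c0 * N + 4 * (N1 + 1)) := by
  have hN1r : (0 : ℝ) < N1 := by exact_mod_cast hN1
  set f : ℤ → ℝ := fun y => ((A.filter (fun n => y < n ∧ n ≤ y + N1)).card / N1 : ℝ) with hf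
  set t : ℤ → ℝ := fun y => (((Finset.Icc (1 : ℤ) N).filter
    (fun n => y < n ∧ n ≤ y + N1)).card / N1 : ℝ) with ht
  have hfsum : ∑ y ∈ Finset.Icc (-(N1 : ℤ)) N, f y = α * N := by
    simp only [hf]
    rw [← Finset.sum_div, sum_windows N N1 A hA, hAc]
    field_simp
  have htsum : ∑ y ∈ Finset.Icc (-(N1 : ℤ)) N, t y = N := by
    simp only [ht]
    rw [← Finset.sum_div, sum_windows N N1 _ (Finset.Subset.refl _)]
    simp only [Int.card_Icc, add_sub_cancel_right, Int.toNat_natCast]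
    (clear * - hN1; field_simp)
  have hcardY : ((Finset.Icc (-(N1 : ℤ)) N).card : ℝ) = N + N1 + 1 := by
    rw [Int.card_Icc]
    have : ((N : ℤ) + 1 - -(N1 : ℤ)).toNat = N + N1 + 1 := by omega
    rw [this]
    push_cast
    ring
  have hf0 : ∀ y, 0 ≤ f y := fun y => by simp only [hf]; (clear * - hN1; positivity)
  have hf1 : ∀ y, f y ≤ (1 + c0) * α := by
    intro y
    simp only [hf]
    rw [div_le_iff₀ hN1r]
    exact hwin y
  have ht0 : ∀ y, 0 ≤ t y := fun y => by simp only [ht]; (clear * - hN1; positivity)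
  have ht1 : ∀ y, t y ≤ 1 := by
    intro y
    simp only [ht]
    rw [div_le_one hN1r]
    have h1 : (Finset.Icc (1 : ℤ) N).filter (fun n => y < n ∧ n ≤ y + N1) ⊆
        Finset.Ioc y (y + N1) := by
      intro n hn
      rw [Finset.mem_filter] at hn
      rw [Finset.mem_Ioc]
      exact hn.2
    have h2 := Finset.card_le_card h1
    rw [Int.card_Ioc] at h2
    have h3 : (y + N1 - y).toNat = N1 := by rw [add_sub_cancel_left, Int.toNat_natCast]
    rw [h3] at h2
    exact_mod_cast h2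
  have hterm : ∀ y : ℤ, (∑ x ∈ Finset.Ioc y (y + N1),
      ((if x ∈ A then (1 : ℝ) else 0) - α * (if x ∈ Finset.Icc (1 : ℤ) N then 1 else 0))) ^ 2 /
        (N1 : ℝ) ^ 2 = (f y - α * t y) ^ 2 := by
    intro y
    rw [← div_pow]
    congr 1
    rw [Finset.sum_sub_distrib, ← Finset.mul_sum]
    have e1 : ∑ x ∈ Finset.Ioc y (y + N1), (if x ∈ A then (1 : ℝ) else 0) =
        (A.filter (fun n => y < n ∧ n ≤ y + N1)).card := by
      rw [← Finset.sum_filter, Finset.sum_const, nsmul_eq_mul, mul_one]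
      congr 2
      ext x
      simp only [Finset.mem_filter, Finset.mem_Ioc]
      (clear * -; tauto)
    have e2 : ∑ x ∈ Finset.Ioc y (y + N1), (if x ∈ Finset.Icc (1 : ℤ) N then (1 : ℝ) else 0) =
        ((Finset.Icc (1 : ℤ) N).filter (fun n => y < n ∧ n ≤ y + N1)).card := by
      rw [← Finset.sum_filter, Finset.sum_const, nsmul_eq_mul, mul_one]
      congr 2
      ext x
      simp only [Finset.mem_filter, Finset.mem_Ioc]
      (clear * -; tauto)
    rw [e1, e2]
    simp only [hf, ht]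
    ring
  simp_rw [hterm]
  have hpt : ∀ y ∈ Finset.Icc (-(N1 : ℤ)) N, (f y - α * t y) ^ 2 ≤
      (1 + c0) * α * f y - 2 * α * f y + 2 * α * ((1 + c0) * α * (1 - t y)) + α ^ 2 * t y := by
    intro y _
    have h1 : f y ^ 2 ≤ (1 + c0) * α * f y := by
      rw [sq]
      exact mul_le_mul_of_nonneg_right (hf1 y) (hf0 y)
    have h2 : f y * (1 - t y) ≤ (1 + c0) * α * (1 - t y) :=
      mul_le_mul_of_nonneg_right (hf1 y) (sub_nonneg.2 (ht1 y))
    have h3 : t y ^ 2 ≤ t y := by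
      rw [sq]
      exact mul_le_of_le_one_right (ht0 y) (ht1 y)
    have h4 := mul_le_mul_of_nonneg_left h2 (by (clear * - hα; positivity) : 0 ≤ 2 * α)
    have h5 := mul_le_mul_of_nonneg_left h3 (by (clear * -; positivity) : 0 ≤ α ^ 2)
    linarith
  refine (Finset.sum_le_sum hpt).trans ?_
  rw [Finset.sum_add_distrib, Finset.sum_add_distrib, Finset.sum_sub_distrib, ← Finset.mul_sum,
    ← Finset.mul_sum, ← Finset.mul_sum, ← Finset.mul_sum, ← Finset.mul_sum,
    Finset.sum_sub_distrib, hfsum, htsum, Finset.sum_const, nsmul_eq_mul, mul_one, hcardY]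
  have h6 : (0 : ℝ) ≤ N1 + 1 := by (clear * - hN1; positivity)
  have h7 : (1 + c0) * (N1 + 1) ≤ 2 * ((N1 : ℝ) + 1) := by nlinarith only [hc1]
  have h8 : (1 + c0) * α * (α * N) - 2 * α * (α * N) +
      2 * α * ((1 + c0) * α * (N + N1 + 1 - N)) + α ^ 2 * N =
      α ^ 2 * (c0 * N + 2 * ((1 + c0) * (N1 + 1))) := by ring
  rw [h8]
  apply mul_le_mul_of_nonneg_left _ (by (clear * -; positivity))
  linarith only [h7]

/-- the numerical contradiction -/
lemma numeric_contra2 (N M N1 T k Q α β δ0 Sg Sen Lam : ℝ) (hN : 0 < N) (hT : T ≤ N / 16)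
    (h8 : 8 * Q * N1 ≤ N) (hQ : 1000 ≤ Q) (hN1 : 1 ≤ N1) (hM : 1 ≤ M)
    (hα : 0 < α) (hβ : β = (1 + 1 / 1000) * α)
    (hδ2 : 0 ≤ δ0) (hδ1 : δ0 ≤ α / 32) (hkM : 2 * k ≤ M * α)
    (hSg : Sg ≤ α * N)
    (hSen : Sen ≤ 2 * (α ^ 2 * (1 / 1000 * N + 4 * (N1 + 1))) +
      2 * (2 * (α ^ 2 * (2 * (1 / 1000) * N + 4 * (N1 + 1)) +
        144 * (1 / 60000) * α ^ 2 * (N + N1 + 1))) + (N + N1 + 1) * (12 / 1000 * α ^ 2))
    (hlow : M * (α ^ 2 * (N - T) - 2 * α * (β * (T + N1))) - k * (α * N) ≤ Lam)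
    (hup : Lam ≤ δ0 * M * Sg + 4 * M * Sen) : False := by
  have hN1N : N1 ≤ N / 8000 := by (clear * - h8 hQ hN1; nlinarith)
  have hα2 : 0 < α ^ 2 * N := by positivity
  set X : ℝ := M * (α ^ 2 * N) with hX
  have hXpos : 0 < X := by positivity
  have hL1 : M * (α ^ 2 * (N - T) - 2 * α * (β * (T + N1))) - k * (α * N) ≥ 0.2 * X := by
    have e1 : α ^ 2 * (N - T) ≥ α ^ 2 * (15 / 16 * N) := by
      apply mul_le_mul_of_nonneg_left _ (by positivity)
      linarith only [hT]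
    have e2 : 2 * α * (β * (T + N1)) ≤ 2 * α * (β * (N / 16 + N / 8000)) := by
      apply mul_le_mul_of_nonneg_left _ (by positivity)
      apply mul_le_mul_of_nonneg_left _ (by rw [hβ]; positivity)
      linarith only [hT, hN1N]
    have e3 : 2 * α * (β * (N / 16 + N / 8000)) =
        α ^ 2 * N * (2 * (1 + 1 / 1000) * (1 / 16 + 1 / 8000)) := by
      rw [hβ]
      ring
    have e4 : α ^ 2 * (N - T) - 2 * α * (β * (T + N1)) ≥ 0.75 * (α ^ 2 * N) := by
      rw [e3] at e2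
      nlinarith only [hα2, e1, e2]
    have e5 : M * (α ^ 2 * (N - T) - 2 * α * (β * (T + N1))) ≥ M * (0.75 * (α ^ 2 * N)) :=
      mul_le_mul_of_nonneg_left e4 (by linarith only [hM])
    have e6 : k * (α * N) ≤ (M * α / 2) * (α * N) := by
      apply mul_le_mul_of_nonneg_right _ (by positivity)
      linarith only [hkM]
    have e7 : (M * α / 2) * (α * N) = 0.5 * X := by
      rw [hX]; ring
    have e8 : M * (0.75 * (α ^ 2 * N)) = 0.75 * X := by
      rw [hX]; ring
    linarith only [hXpos, e5, e6]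
  have hU1 : δ0 * M * Sg ≤ X / 32 := by
    calc δ0 * M * Sg ≤ δ0 * M * (α * N) := by
          apply mul_le_mul_of_nonneg_left hSg (by (clear * - hδ2 hM; positivity))
      _ ≤ (α / 32) * M * (α * N) := by
          apply mul_le_mul_of_nonneg_right _ (by positivity)
          exact mul_le_mul_of_nonneg_right hδ1 (by linarith only [hM])
      _ = X / 32 := by rw [hX]; ring
  have hU2 : Sen ≤ 0.04 * (α ^ 2 * N) := by
    have e0 : N1 + 1 ≤ N / 4000 := by linarith only [hN1, hN1N]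
    have e1 : 2 * (α ^ 2 * (1 / 1000 * N + 4 * (N1 + 1))) +
      2 * (2 * (α ^ 2 * (2 * (1 / 1000) * N + 4 * (N1 + 1)) +
        144 * (1 / 60000) * α ^ 2 * (N + N1 + 1))) + (N + N1 + 1) * (12 / 1000 * α ^ 2) =
        α ^ 2 * (2 * (1 / 1000 * N + 4 * (N1 + 1)) +
          4 * (2 * (1 / 1000) * N + 4 * (N1 + 1)) + 4 * 144 * (1 / 60000) * (N + (N1 + 1)) +
          (N + (N1 + 1)) * (12 / 1000)) := by ring
    have e2 : 2 * (1 / 1000 * N + 4 * (N1 + 1)) +
          4 * (2 * (1 / 1000) * N + 4 * (N1 + 1)) + 4 * 144 * (1 / 60000) * (N + (N1 + 1)) +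
          (N + (N1 + 1)) * (12 / 1000) ≤ 0.04 * N := by linarith only [hN1, hN1N]
    calc Sen ≤ _ := hSen
      _ = _ := e1
      _ ≤ α ^ 2 * (0.04 * N) := mul_le_mul_of_nonneg_left e2 (by positivity)
      _ = _ := by ring
  have hU3 : 4 * M * Sen ≤ 0.16 * X := by
    calc _ ≤ 4 * M * (0.04 * (α ^ 2 * N)) :=
          mul_le_mul_of_nonneg_left hU2 (by linarith only [hM])
      _ = 0.16 * X := by rw [hX]; ring
  linarith only [hlow, hup, hXpos, hL1, hU1, hU3]

theorem per_one {kap : ℕ → ℕ → ℝ} (N1 : ℕ) (g : ℤ → ℝ) (δ1 : ℝ) (y : ℤ)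
    (hδle : δ1 ≤ 1) :
    ∑ a ∈ (Finset.range 1).filter (Nat.Coprime 1),
        (kapProd kap 1 + δ1) *
          (‖∑ x ∈ Finset.Ioc y (y + N1), (g x : ℂ) * e (-(x * a / ((1 : ℕ) : ℝ)))‖ ^ 2 /
            (N1 : ℝ) ^ 2) ≤
        2 * ((∑ x ∈ Finset.Ioc y (y + N1), g x) ^ 2 / (N1 : ℝ) ^ 2) := by
  have h1 : (Finset.range 1).filter (Nat.Coprime 1) = {0} := by decide
  rw [h1, Finset.sum_singleton]
  have h2 : kapProd kap 1 = 1 := by simp only [kapProd, Nat.primeFactors_one, Nat.factorization_one, Finsupp.coe_zero, Pi.zero_apply, prod_empty]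
  have h3 : ∑ x ∈ Finset.Ioc y (y + N1), (g x : ℂ) *
      e (-(x * ((0 : ℕ) : ℝ) / ((1 : ℕ) : ℝ))) =
      ((∑ x ∈ Finset.Ioc y (y + N1), g x : ℝ) : ℂ) := by
    push_cast
    refine Finset.sum_congr rfl fun x _ => ?_
    simp [e_zero']
  rw [h2, h3, Complex.norm_real, Real.norm_eq_abs, sq_abs]
  apply mul_le_mul_of_nonneg_right _ (by (clear * -; positivity))
  linarith only [hδle]

theorem per_q {kap : ℕ → ℕ → ℝ} (A : Finset ℤ) (N N1 Q : ℕ) (α β δ1 : ℝ) (y : ℤ)
    (hk0 : ∀ p j, 0 ≤ kap p j) (hk1 : ∀ p j, kap p j ≤ 1)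
    (hδ0 : 0 ≤ δ1) (hδle : δ1 ≤ 1) (hN1 : 1 ≤ N1)
    (hwin : ((A.filter (fun n => y < n ∧ n ≤ y + N1)).card : ℝ) ≤ β * N1)
    {q : ℕ} (hq2 : 2 ≤ q) (hqQ : q ≤ Q) :
    ∑ a ∈ (Finset.range q).filter (Nat.Coprime q),
        (kapProd kap q + δ1) *
          (‖∑ x ∈ Finset.Ioc y (y + N1),
            (((if x ∈ A then (1 : ℝ) else 0) -
              α * (if x ∈ Finset.Icc (1 : ℤ) N then 1 else 0) : ℝ) : ℂ) *
              e (-(x * a / q))‖ ^ 2 / (N1 : ℝ) ^ 2) ≤
        2 * (kapProd kap q * en A N1 y q) +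
          (2 * δ1 * Q * β ^ 2 + 4 * α ^ 2 * (Q : ℝ) ^ 3 / (N1 : ℝ) ^ 2) := by
  have hkq0 := kapProd_nonneg hk0 q
  have hkq1 := kapProd_le_one hk0 hk1 q
  have hN1r : (0 : ℝ) < N1 := by exact_mod_cast hN1
  have hN2 : (0:ℝ) < (N1 : ℝ) ^ 2 := by positivity
  have hw0 : 0 ≤ kapProd kap q + δ1 := add_nonneg hkq0 hδ0
  have h1 : ∀ a ∈ (Finset.range q).filter (Nat.Coprime q),
      (kapProd kap q + δ1) *
      (‖∑ x ∈ Finset.Ioc y (y + N1),
            (((if x ∈ A then (1 : ℝ) else 0) -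
              α * (if x ∈ Finset.Icc (1 : ℤ) N then 1 else 0) : ℝ) : ℂ) *
              e (-(x * a / q))‖ ^ 2 / (N1 : ℝ) ^ 2) ≤
      (kapProd kap q + δ1) *
      (2 * (‖∑ x ∈ A.filter (fun n => y < n ∧ n ≤ y + N1), e (-(x * a / q))‖ ^ 2 /
        (N1 : ℝ) ^ 2)) + 4 * α ^ 2 * (Q : ℝ) ^ 2 / (N1 : ℝ) ^ 2 := by
    intro a ha
    rw [Finset.mem_filter] at ha
    have h2 := split_window A N N1 Q α y hq2 hqQ ha.2
    have h3 : ‖∑ x ∈ Finset.Ioc y (y + N1),
            (((if x ∈ A then (1 : ℝ) else 0) -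
              α * (if x ∈ Finset.Icc (1 : ℤ) N then 1 else 0) : ℝ) : ℂ) *
              e (-(x * a / q))‖ ^ 2 /
        (N1 : ℝ) ^ 2 ≤ 2 * (‖∑ x ∈ A.filter (fun n => y < n ∧ n ≤ y + N1),
          e (-(x * a / q))‖ ^ 2 / (N1 : ℝ) ^ 2) + 2 * (α ^ 2 * (Q : ℝ) ^ 2) / (N1 : ℝ) ^ 2 := by
      rw [← mul_div_assoc, ← add_div]
      exact div_le_div_of_nonneg_right h2 hN2.le
    have h4 := mul_le_mul_of_nonneg_left h3 hw0
    refine h4.trans ?_
    rw [mul_add]
    apply add_le_add le_rfl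
    have h5 : kapProd kap q + δ1 ≤ 2 := by linarith only [hδle, hkq1]
    calc (kapProd kap q + δ1) * (2 * (α ^ 2 * (Q : ℝ) ^ 2) / (N1 : ℝ) ^ 2) ≤
          2 * (2 * (α ^ 2 * (Q : ℝ) ^ 2) / (N1 : ℝ) ^ 2) :=
          mul_le_mul_of_nonneg_right h5 (by (clear * - hN1; positivity))
      _ = _ := by ring
  refine (Finset.sum_le_sum h1).trans ?_
  rw [Finset.sum_add_distrib, ← Finset.mul_sum, ← Finset.mul_sum, Finset.sum_const,
    nsmul_eq_mul]
  have h6 : ∑ a ∈ (Finset.range q).filter (Nat.Coprime q),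
      (‖∑ x ∈ A.filter (fun n => y < n ∧ n ≤ y + N1), e (-(x * a / q))‖ ^ 2 /
        (N1 : ℝ) ^ 2) = en A N1 y q := rfl
  rw [h6]
  have h7 : en A N1 y q ≤ Q * β ^ 2 := en_le A N1 y q Q hqQ β hwin hN1
  have h8 : ((((Finset.range q).filter (Nat.Coprime q)).card : ℕ) : ℝ) ≤ Q := by
    have h5 := Finset.card_filter_le (Finset.range q) (Nat.Coprime q)
    rw [Finset.card_range] at h5
    exact_mod_cast h5.trans hqQ
  have h9 : ((((Finset.range q).filter (Nat.Coprime q)).card : ℕ) : ℝ) *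
      (4 * α ^ 2 * (Q : ℝ) ^ 2 / (N1 : ℝ) ^ 2) ≤ 4 * α ^ 2 * (Q : ℝ) ^ 3 / (N1 : ℝ) ^ 2 := by
    calc _ ≤ (Q : ℝ) * (4 * α ^ 2 * (Q : ℝ) ^ 2 / (N1 : ℝ) ^ 2) :=
          mul_le_mul_of_nonneg_right h8 (by (clear * - hN1; positivity))
      _ = _ := by ring
  have h10 : δ1 * en A N1 y q ≤ δ1 * (Q * β ^ 2) := mul_le_mul_of_nonneg_left h7 hδ0
  have h11 : (kapProd kap q + δ1) * (2 * en A N1 y q) =
      2 * (kapProd kap q * en A N1 y q) + 2 * (δ1 * en A N1 y q) := by ring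
  rw [h11]
  have h12 : 2 * (δ1 * (Q * β ^ 2)) = 2 * δ1 * Q * β ^ 2 := by ring
  linarith only [h9, h10]

theorem per_window {kap : ℕ → ℕ → ℝ} (A : Finset ℤ) (N N1 Q : ℕ) (α δ1 : ℝ) (y : ℤ)
    (hk0 : ∀ p j, 0 ≤ kap p j) (hk1 : ∀ p j, kap p j ≤ 1)
    (hδ0 : 0 ≤ δ1) (hδ1 : 1000 * δ1 * (Q : ℝ) ^ 2 ≤ 1) (hQ : (1000 : ℝ) ≤ Q) (hN1 : 1 ≤ N1)
    (hQN1 : 1000 * ((Q : ℝ) ^ 4 / (N1 : ℝ) ^ 2) ≤ 1)
    (hwin : ((A.filter (fun n => y < n ∧ n ≤ y + N1)).card : ℝ) ≤ ((1 + 1 / 1000) * α) * N1) :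
    ∑ q ∈ Finset.Icc 1 Q, ∑ a ∈ (Finset.range q).filter (Nat.Coprime q),
        (kapProd kap q + δ1) *
          (‖∑ x ∈ Finset.Ioc y (y + N1), (((if x ∈ A then (1 : ℝ) else 0) -
              α * (if x ∈ Finset.Icc (1 : ℤ) N then 1 else 0) : ℝ) : ℂ) *
            e (-(x * a / q))‖ ^ 2 / (N1 : ℝ) ^ 2) ≤
      2 * ((∑ x ∈ Finset.Ioc y (y + N1), ((if x ∈ A then (1 : ℝ) else 0) -
              α * (if x ∈ Finset.Icc (1 : ℤ) N then 1 else 0))) ^ 2 / (N1 : ℝ) ^ 2) +
      2 * (∑ q ∈ Finset.Icc 2 Q, kapProd kap q * en A N1 y q) + 12 / 1000 * α ^ 2 := by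
  have hδle : δ1 ≤ 1 := by
    have h1 : (1 : ℝ) ≤ (Q : ℝ) ^ 2 := one_le_pow₀ (by linarith only [hQ])
    nlinarith only [hδ1, h1]
  have hQ1 : 1 ≤ Q := by
    have : (1 : ℝ) ≤ Q := by linarith only [hQ]
    exact_mod_cast this
  have hIcc : Finset.Icc 1 Q = insert 1 (Finset.Icc 2 Q) := by
    ext x
    simp only [Finset.mem_Icc, Finset.mem_insert]
    omega
  rw [hIcc, Finset.sum_insert (by simp only [mem_Icc, Nat.not_ofNat_le_one, false_and, not_false_eq_true])]
  have hq1 := per_one (kap := kap) N1 (fun x => (if x ∈ A then (1 : ℝ) else 0) -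
              α * (if x ∈ Finset.Icc (1 : ℤ) N then 1 else 0)) δ1 y hδle
  have hq3 : ∑ q ∈ Finset.Icc 2 Q, ∑ a ∈ (Finset.range q).filter (Nat.Coprime q),
        (kapProd kap q + δ1) *
          (‖∑ x ∈ Finset.Ioc y (y + N1), (((if x ∈ A then (1 : ℝ) else 0) -
              α * (if x ∈ Finset.Icc (1 : ℤ) N then 1 else 0) : ℝ) : ℂ) *
            e (-(x * a / q))‖ ^ 2 / (N1 : ℝ) ^ 2) ≤
      ∑ q ∈ Finset.Icc 2 Q, (2 * (kapProd kap q * en A N1 y q) +
          (2 * δ1 * Q * ((1 + 1 / 1000) * α) ^ 2 + 4 * α ^ 2 * (Q : ℝ) ^ 3 / (N1 : ℝ) ^ 2)) := by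
    refine Finset.sum_le_sum fun q hq => ?_
    rw [Finset.mem_Icc] at hq
    exact per_q A N N1 Q α _ δ1 y hk0 hk1 hδ0 hδle hN1 hwin hq.1 hq.2
  rw [Finset.sum_add_distrib, ← Finset.mul_sum, Finset.sum_const, nsmul_eq_mul] at hq3
  have hc : (((Finset.Icc 2 Q).card : ℕ) : ℝ) ≤ Q := by
    rw [Nat.card_Icc]
    have : Q + 1 - 2 ≤ Q := by omega
    exact_mod_cast this
  have hq4 : (((Finset.Icc 2 Q).card : ℕ) : ℝ) *
      (2 * δ1 * Q * ((1 + 1 / 1000) * α) ^ 2 + 4 * α ^ 2 * (Q : ℝ) ^ 3 / (N1 : ℝ) ^ 2) ≤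
      12 / 1000 * α ^ 2 := by
    have h0 : 0 ≤ α ^ 2 := sq_nonneg α
    calc _ ≤ (Q : ℝ) * (2 * δ1 * Q * ((1 + 1 / 1000) * α) ^ 2 +
          4 * α ^ 2 * (Q : ℝ) ^ 3 / (N1 : ℝ) ^ 2) :=
          mul_le_mul_of_nonneg_right hc (by (clear * - hδ0 hQ1 hN1; positivity))
      _ = α ^ 2 * (2 * (1 + 1 / 1000) ^ 2 * (δ1 * (Q : ℝ) ^ 2) +
          4 * ((Q : ℝ) ^ 4 / (N1 : ℝ) ^ 2)) := by ring
      _ ≤ α ^ 2 * (12 / 1000) := by
          apply mul_le_mul_of_nonneg_left _ h0
          nlinarith only [hδ1, hQN1]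
      _ = _ := by ring
  linarith only [hq1, hq3, hq4]

theorem QN1_aux {Q N1 : ℝ} (hQr : 1000 ≤ Q) (hN1r : 0 < N1) (h1 : Q ^ 4 ≤ N1) :
    1000 * (Q ^ 4 / N1 ^ 2) ≤ 1 := by
  rw [← mul_div_assoc, div_le_one (by positivity)]
  have h4 : (1000 : ℝ) ≤ Q ^ 4 := by
    calc (1000 : ℝ) ≤ Q := hQr
      _ = Q ^ 1 := (pow_one _).symm
      _ ≤ Q ^ 4 := pow_le_pow_right₀ (by linarith only [hQr]) (by norm_num)
  calc 1000 * Q ^ 4 ≤ Q ^ 4 * Q ^ 4 := mul_le_mul_of_nonneg_right h4 (by positivity)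
    _ ≤ N1 * N1 := mul_le_mul h1 h1 (by positivity) hN1r.le
    _ = N1 ^ 2 := (sq N1).symm

/-- **Stage 2, no-increment contradiction**, real parameters. -/
theorem core_contra {kap : ℕ → ℕ → ℝ} {Y Q m N N1 M k : ℕ} {ρ X0 δ0 δ1 α : ℝ} (A : Finset ℤ)
    (P : ℕ → ℤ) (hA : A ⊆ Finset.Icc (1 : ℤ) N) (hα : (A.card : ℝ) = α * N)
    (hk0 : ∀ p j, 0 ≤ kap p j) (hk1 : ∀ p j, kap p j ≤ 1)
    (hρ : ∀ p : ℕ, p.Prime → Y < p → kap p 1 ≤ ρ) (hρ0 : 0 ≤ ρ)
    (hρε : 144 * m * ρ ≤ 1 / 60000) (hm : 2 ≤ m)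
    (hα0 : 0 < α) (hαm : 1 ≤ 2 * α * Real.exp (2 * m)) (hQ : 1000 ≤ Q) (hX0 : 0 < X0)
    (hX : ∑ i ∈ items Y Q, kap i.1 i.2 * ((i.2 : ℝ) * Real.log i.1) ≤ X0)
    (hN1 : Real.exp (2 * X0) * (Q : ℝ) ^ (4 * m + 2) ≤ N1) (h8 : 8 * Q * N1 ≤ N)
    (hM : 2 * (k : ℝ) ≤ α * M) (hM1 : 1 ≤ M)
    (hP : ∀ n ∈ Finset.Icc 1 M, 16 * |P n| ≤ N)
    (hfree : ∀ n ∈ Finset.Icc 1 M, P n ≠ 0 → ∀ x ∈ A, x + P n ∉ A)
    (hzero : ((Finset.Icc 1 M).filter (fun n => P n = 0)).card ≤ k)
    (hδ0 : 0 ≤ δ0) (hδ0' : δ0 ≤ α / 32)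
    (hδ1 : 0 ≤ δ1) (hδ1' : 1000 * δ1 * (Q : ℝ) ^ 2 ≤ 1)
    (hexp : ∀ θ : ℝ, ‖∑ n ∈ Finset.Icc 1 M, e (θ * P n)‖ ≤ δ0 * M ∨
      ∃ q : ℕ, 1 ≤ q ∧ q ≤ Q ∧ ∃ a : ℤ, IsCoprime a (q : ℤ) ∧ |θ - a / q| ≤ Q / N ∧
        ‖∑ n ∈ Finset.Icc 1 M, e (θ * P n)‖ ≤ (kapProd kap q + δ1) * M)
    (hNI : ∀ D : ℕ, 1 ≤ D → (D : ℝ) ≤ (Q : ℝ) ^ 2 * Real.exp (2 * X0) → ∀ y x : ℤ,
      ((A.filter (fun n => y < n ∧ n ≤ y + N1 ∧ n ≡ x [ZMOD D])).card : ℝ) ≤
        (1 + 1 / 1000) * α * (N1 / D)) : False := by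
  have hQr : (1000 : ℝ) ≤ Q := by exact_mod_cast hQ
  have hQe : (Q : ℝ) ^ 4 ≤ N1 := by
    refine le_trans ?_ hN1
    have h2 : (1 : ℝ) ≤ Real.exp (2 * X0) := Real.one_le_exp (by positivity)
    calc (Q : ℝ) ^ 4 = 1 * (Q : ℝ) ^ 4 := (one_mul _).symm
      _ ≤ Real.exp (2 * X0) * (Q : ℝ) ^ (4 * m + 2) :=
          mul_le_mul h2 (pow_le_pow_right₀ (by linarith only [hQr]) (by omega)) (by positivity)
            (by positivity)
  have hN1r : (0 : ℝ) < N1 := lt_of_lt_of_le (by positivity) hQe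
  have hN1pos : 0 < N1 := by exact_mod_cast hN1r
  have hNpos : 0 < N := lt_of_lt_of_le (by (clear * - hQ hN1pos; positivity)) h8
  have hNr : (0 : ℝ) < N := by exact_mod_cast hNpos
  obtain ⟨β, hβdef⟩ : ∃ β : ℝ, β = (1 + 1 / 1000) * α := ⟨_, rfl⟩
  have hβ0 : 0 < β := by rw [hβdef]; positivity
  have hT := T_bound (m := m) (N := N) (N1 := N1) (ε' := 1 / 60000) (c0 := 1 / 1000) (α := α) A
    hA hα hk0 hk1 hρ hρ0 hρε (by norm_num) (by norm_num) hm hα0 hαm (by norm_num) (by norm_num)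
    (by omega) hX0 hX hN1 hNI
  have hwin : ∀ y : ℤ, ((A.filter (fun n => y < n ∧ n ≤ y + N1)).card : ℝ) ≤ β * N1 := by
    intro y
    have h1 := hNI 1 le_rfl (by
      push_cast
      have h2 : (1 : ℝ) ≤ Real.exp (2 * X0) := Real.one_le_exp (by positivity)
      have h3 : (1 : ℝ) ≤ (Q : ℝ) ^ 2 := one_le_pow₀ (by linarith only [hQr])
      nlinarith only [h3, h2]) y 0
    have h4 : A.filter (fun n => y < n ∧ n ≤ y + N1 ∧ n ≡ 0 [ZMOD ((1 : ℕ) : ℤ)]) =
        A.filter (fun n => y < n ∧ n ≤ y + N1) := by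
      apply Finset.filter_congr
      intro n _
      have : n ≡ 0 [ZMOD ((1 : ℕ) : ℤ)] := by
        rw [Nat.cast_one]; exact Int.modEq_one
      (clear * - this; tauto)
    rw [h4] at h1
    rw [hβdef]
    refine h1.trans (le_of_eq ?_)
    push_cast
    ring
  set I := Finset.Icc (1 : ℤ) N with hI
  set g : ℤ → ℝ := fun x => (if x ∈ A then (1 : ℝ) else 0) - α * (if x ∈ I then 1 else 0) with hg
  have hgsupp : ∀ x : ℤ, x ∉ Finset.Icc (1 : ℤ) N → g x = 0 := by
    intro x hx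
    have h1 : x ∉ A := fun h => hx (hA h)
    simp only [hg]
    rw [if_neg h1, if_neg hx]
    ring
  have hw0 : ∀ q, 0 ≤ kapProd kap q + δ1 := fun q => add_nonneg (kapProd_nonneg hk0 q) hδ1
  have hcm := circle_method g N M N1 Q P δ0 (fun q => kapProd kap q + δ1) hgsupp
    hδ0 hw0 hN1pos (by omega) h8 hexp
  -- main term
  set T : ℕ := N / 16 with hTdef
  have hTN : (T : ℝ) ≤ N / 16 := by
    rw [hTdef]
    have := Nat.div_mul_le_self N 16
    have h2 : ((N / 16 : ℕ) : ℝ) * 16 ≤ N := by exact_mod_cast this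
    linarith only [h2]
  have hBt : ∀ y : ℤ, ((A.filter (fun n => y < n ∧ n ≤ y + T)).card : ℝ) ≤ β * (T + N1) :=
    fun y => interval_count A N1 hN1pos β hβ0.le hwin y T
  have hlow : ∀ n ∈ Finset.Icc 1 M, ∑ x ∈ I, g x * g (x + P n) +
      (α ^ 2 * (N - T) - 2 * α * (β * (T + N1))) ≤
      ∑ x ∈ I, (if x ∈ A then (1 : ℝ) else 0) * (if x + P n ∈ A then 1 else 0) := by
    intro n hn
    have h1 := hP n hn
    have h2 : |P n| ≤ (T : ℤ) := by
      rw [hTdef]
      (clear * - h1; omega)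
    exact corr_lower A N T α (β * (T + N1)) hA hα hα0.le hBt (P n) h2
  have hup : ∑ n ∈ Finset.Icc 1 M, ∑ x ∈ I, (if x ∈ A then (1 : ℝ) else 0) *
      (if x + P n ∈ A then 1 else 0) ≤ k * (α * N) := by
    have h1 : ∀ n ∈ Finset.Icc 1 M, ∑ x ∈ I, (if x ∈ A then (1 : ℝ) else 0) *
      (if x + P n ∈ A then 1 else 0) ≤ if P n = 0 then (A.card : ℝ) else 0 := by
      intro n hn
      split_ifs with h0
      · calc ∑ x ∈ I, (if x ∈ A then (1 : ℝ) else 0) * (if x + P n ∈ A then 1 else 0)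
            ≤ ∑ x ∈ I, (if x ∈ A then (1 : ℝ) else 0) := by
              apply Finset.sum_le_sum
              intro x _
              split_ifs <;> norm_num
          _ = A.card := by
              rw [← Finset.sum_filter, Finset.sum_const, nsmul_eq_mul, mul_one]
              congr 2
              ext x
              simp only [Finset.mem_filter]
              constructor
              · exact fun h => h.2
              · exact fun h => ⟨hA h, h⟩
      · apply le_of_eq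
        apply Finset.sum_eq_zero
        intro x _
        by_cases hx : x ∈ A
        · have := hfree n hn h0 x hx
          simp [this]
        · simp [hx]
    calc _ ≤ ∑ n ∈ Finset.Icc 1 M, if P n = 0 then (A.card : ℝ) else 0 := Finset.sum_le_sum h1
      _ = ((Finset.Icc 1 M).filter (fun n => P n = 0)).card * (A.card : ℝ) := by
          rw [← Finset.sum_filter, Finset.sum_const, nsmul_eq_mul]
      _ ≤ k * (α * N) := by
          rw [hα]
          apply mul_le_mul_of_nonneg_right _ (by (clear * - hα0 hNpos; positivity))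
          exact_mod_cast hzero
  -- lower bound for the absolute value
  have hMr : (1 : ℝ) ≤ M := by exact_mod_cast hM1
  have hlow2 : (M : ℝ) * (α ^ 2 * (N - T) - 2 * α * (β * (T + N1))) - k * (α * N) ≤
      |∑ n ∈ Finset.Icc 1 M, ∑ x ∈ I, g x * g (x + P n)| := by
    have h1 := Finset.sum_le_sum hlow
    rw [Finset.sum_add_distrib, Finset.sum_const, Nat.card_Icc, nsmul_eq_mul] at h1
    simp only [Nat.add_sub_cancel] at h1
    have h2 := neg_abs_le (∑ n ∈ Finset.Icc 1 M, ∑ x ∈ I, g x * g (x + P n))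
    linarith only [hup, h1, h2]
  -- the L2 norm of g
  have hg2 : ∑ x ∈ I, g x ^ 2 ≤ α * N := by
    have h1 : ∀ x ∈ I, g x ^ 2 = (if x ∈ A then (1 : ℝ) else 0) * (1 - 2 * α) + α ^ 2 := by
      intro x hx
      simp only [hg]
      rw [if_pos hx]
      split_ifs <;> ring
    rw [Finset.sum_congr rfl h1, Finset.sum_add_distrib, ← Finset.sum_mul]
    have h2 : ∑ x ∈ I, (if x ∈ A then (1 : ℝ) else 0) = A.card := by
      rw [← Finset.sum_filter, Finset.sum_const, nsmul_eq_mul, mul_one]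
      congr 2
      ext x
      simp only [Finset.mem_filter]
      constructor
      · exact fun h => h.2
      · exact fun h => ⟨hA h, h⟩
    rw [h2, Finset.sum_const, nsmul_eq_mul, hα, hI]
    simp only [Int.card_Icc, add_sub_cancel_right, Int.toNat_natCast, ge_iff_le]
    nlinarith only []
  -- the energies
  have hQN1 : 1000 * ((Q : ℝ) ^ 4 / (N1 : ℝ) ^ 2) ≤ 1 := QN1_aux hQr hN1r hQe
  have hper : ∀ y ∈ Finset.Icc (-(N1 : ℤ)) N, ∑ q ∈ Finset.Icc 1 Q,
      ∑ a ∈ (Finset.range q).filter (Nat.Coprime q),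
        (kapProd kap q + δ1) *
          (‖∑ x ∈ Finset.Ioc y (y + N1), (g x : ℂ) * e (-(x * a / q))‖ ^ 2 / (N1 : ℝ) ^ 2) ≤
      2 * ((∑ x ∈ Finset.Ioc y (y + N1), g x) ^ 2 / (N1 : ℝ) ^ 2) +
      2 * (∑ q ∈ Finset.Icc 2 Q, kapProd kap q * en A N1 y q) + 12 / 1000 * α ^ 2 := by
    intro y _
    exact per_window A N N1 Q α δ1 y hk0 hk1 hδ1 hδ1' hQr hN1pos hQN1
      (by rw [← hβdef]; exact hwin y)
  have hSen : ∑ y ∈ Finset.Icc (-(N1 : ℤ)) N, ∑ q ∈ Finset.Icc 1 Q,
      ∑ a ∈ (Finset.range q).filter (Nat.Coprime q),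
        (kapProd kap q + δ1) *
          (‖∑ x ∈ Finset.Ioc y (y + N1), (g x : ℂ) * e (-(x * a / q))‖ ^ 2 / (N1 : ℝ) ^ 2) ≤
      2 * (α ^ 2 * (1 / 1000 * N + 4 * (N1 + 1))) +
      2 * (2 * (α ^ 2 * (2 * (1 / 1000) * N + 4 * (N1 + 1)) +
        144 * (1 / 60000) * α ^ 2 * (N + N1 + 1))) + (N + N1 + 1) * (12 / 1000 * α ^ 2) := by
    refine (Finset.sum_le_sum hper).trans ?_
    rw [Finset.sum_add_distrib, Finset.sum_add_distrib, ← Finset.mul_sum, ← Finset.mul_sum,
      Finset.sum_const, nsmul_eq_mul]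
    have hcardY : ((Finset.Icc (-(N1 : ℤ)) N).card : ℝ) = N + N1 + 1 := by
      rw [Int.card_Icc]
      have : ((N : ℤ) + 1 - -(N1 : ℤ)).toNat = N + N1 + 1 := by (clear * - h8 hN1pos; omega)
      rw [this]
      push_cast
      ring
    rw [hcardY]
    have hv := window_var A N N1 α (1 / 1000) hA hα hα0.le (by norm_num) hN1pos
      (by rw [← hβdef]; exact hwin)
    (clear * - hv hT; gcongr)
  exact numeric_contra2 N M N1 T k Q α β δ0 _ _ _ hNr hTN
    (by exact_mod_cast h8) hQr (by exact_mod_cast hN1pos) hMr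
    hα0 hβdef hδ0 hδ0' (by rw [mul_comm (M : ℝ)]; exact hM)
    hg2 hSen hlow2 hcm

end Vale.Agent.P042
end
end
end

section

section

section

set_option autoImplicit false

namespace Vale.Agent.P042

open Polynomial

/-- The all-coefficient Weyl inverse theorem. -/
theorem weyl (k : ℕ) : ∃ C : ℕ, 1 ≤ C ∧ WeylStmt k C := by
  obtain ⟨C, h1, hC⟩ := weyl_inverse k
  exact ⟨C, h1, fun p M δ hp hM hδ hδ1 h => hC p hp M hM δ hδ hδ1 h⟩

/-- MODULE B' -/
theorem weyl_poly (k : ℕ) (hk : 1 ≤ k) : ∃ E : ℕ, 1 ≤ E ∧ ∀ R : ℕ, 1 ≤ R → ∃ K : ℕ, 1 ≤ K ∧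
    ∀ (H : ℤ[X]) (M : ℕ) (δ θ B : ℝ), H.natDegree = k → 0 < H.leadingCoeff →
    (∀ g : ℤ, (∀ j : ℕ, 1 ≤ j → g ∣ H.coeff j) → g ∣ (R : ℤ)) →
    0 < δ → δ ≤ 1 → 1 ≤ B → (∀ j : ℕ, |(H.coeff j : ℝ)| ≤ B) → (K * B / δ) ^ E ≤ M →
    δ * M ≤ ‖∑ n ∈ Finset.Icc 1 M, e (θ * ((H.eval (n : ℤ) : ℤ) : ℝ))‖ →
    ∃ (q : ℕ) (a : ℤ), 1 ≤ q ∧ (q : ℝ) ≤ (K / δ) ^ E ∧
      |θ - a / q| ≤ (K / δ) ^ E / (H.leadingCoeff * (M : ℝ) ^ k) := by
  obtain ⟨C, hC, hW⟩ := weyl k
  exact weyl_poly_of hk hC hW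

end Vale.Agent.P042
end
end
end

section

section

section

set_option autoImplicit false

namespace Vale.Agent.P042

open Polynomial

end Vale.Agent.P042
end
end
end

section

section

section

set_option autoImplicit false

namespace Vale.Agent.P042

open Polynomial

/-- choice of the length of the sum -/
lemma exists_M (k c lead N : ℕ) (hk : 1 ≤ k) (hc : 1 ≤ c) (hlead : 1 ≤ lead) :
    ∃ M : ℕ, c * (lead * M ^ k) ≤ N ∧ N < c * (lead * (M + 1) ^ k) := by
  have h0 : c * (lead * 0 ^ k) ≤ N := by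
    rw [zero_pow (by omega)]
    simp
  set M := Nat.findGreatest (fun m => c * (lead * m ^ k) ≤ N) N with hM
  refine ⟨M, ?_, ?_⟩
  · exact Nat.findGreatest_spec (P := fun m => c * (lead * m ^ k) ≤ N) (Nat.zero_le N) h0
  · by_contra hcon
    push Not at hcon
    have h1 : M + 1 ≤ N := by
      calc M + 1 ≤ (M + 1) ^ k := Nat.le_self_pow (by omega) _
        _ ≤ lead * (M + 1) ^ k := Nat.le_mul_of_pos_left _ (by omega)
        _ ≤ c * (lead * (M + 1) ^ k) := Nat.le_mul_of_pos_left _ (by omega)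
        _ ≤ N := hcon
    have h2 := Nat.le_findGreatest (P := fun m => c * (lead * m ^ k) ≤ N) h1 hcon
    rw [← hM] at h2
    omega

end Vale.Agent.P042
end
end
end

section

section

section

set_option autoImplicit false

namespace Vale.Agent.P042

open Polynomial

set_option maxHeartbeats 1000000 in
/-- one density increment step (Stage 2) -/
theorem sqrt_step {h : ℤ[X]} {lam : ℕ → ℕ} {r : ℕ → ℤ} {H : ℕ → ℤ[X]} {R : ℕ}
    (hA : AuxData h lam r H R) (hk : 1 ≤ h.natDegree) (hpos : 0 < h.leadingCoeff)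
    (E K S : ℕ) (hE : 1 ≤ E) (hK : 1 ≤ K) (hS : 1 ≤ S)
    (hmajor : ∀ (H : ℤ[X]) (M N Q : ℕ) (δ B : ℝ) (w : ℕ → ℝ), H.natDegree = h.natDegree →
      0 < H.leadingCoeff →
      (∀ g : ℤ, (∀ j : ℕ, 1 ≤ j → g ∣ H.coeff j) → g ∣ (R : ℤ)) →
      0 < δ → δ ≤ 1 → 1 ≤ B → (∀ j : ℕ, |(H.coeff j : ℝ)| ≤ B) → (K * B / δ) ^ E ≤ M → 1 ≤ N →
      (∀ (q : ℕ) (a : ℤ), 1 ≤ q → q ≤ Q → IsCoprime a (q : ℤ) →
        ‖∑ x ∈ Finset.range q, e (a * ((H.eval (x : ℤ) : ℤ) : ℝ) / q)‖ ≤ w q * q) →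
      (K / δ) ^ E ≤ Q → (K / δ) ^ E * N ≤ Q * (H.leadingCoeff * (M : ℝ) ^ h.natDegree) →
      ∀ θ : ℝ, ‖∑ n ∈ Finset.Icc 1 M, e (θ * ((H.eval (n : ℤ) : ℤ) : ℝ))‖ ≤ δ * M ∨
        ∃ q : ℕ, 1 ≤ q ∧ q ≤ Q ∧ ∃ a : ℤ, IsCoprime a (q : ℤ) ∧ |θ - a / q| ≤ Q / N ∧
          ‖∑ n ∈ Finset.Icc 1 M, e (θ * ((H.eval (n : ℤ) : ℤ) : ℝ))‖ ≤
            (w q + (K / δ) ^ E / M) * M)
    (kap : ℕ → ℕ → ℝ) (hk0 : ∀ p j, 0 ≤ kap p j) (hk1 : ∀ p j, kap p j ≤ 1)
    (hkap : ∀ H : ℤ[X], H.natDegree = h.natDegree → 0 < H.leadingCoeff →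
      (∀ g : ℤ, (∀ j : ℕ, 1 ≤ j → g ∣ H.coeff j) → g ∣ (R : ℤ)) →
      ∀ (q : ℕ) (a : ℤ), 1 ≤ q → IsCoprime a (q : ℤ) →
        ‖∑ x ∈ Finset.range q, e (a * ((H.eval (x : ℤ) : ℤ) : ℝ) / q)‖ ≤ kapProd kap q * q)
    (hcoef : ∀ d : ℕ, 1 ≤ d → (∀ j : ℕ, |(H d).coeff j| ≤ S * (H d).leadingCoeff) ∧
      (H d).leadingCoeff ≤ S * (d : ℤ) ^ h.natDegree)
    (heval : ∀ d : ℕ, 1 ≤ d → ∀ n : ℕ, 1 ≤ n →
      |(H d).eval (n : ℤ)| ≤ S * (H d).leadingCoeff * (n : ℤ) ^ h.natDegree)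
    (L Q Y m g0 : ℕ) (X0 ρ : ℝ) (hL : 1 ≤ L)
    (hQ : Q = 16 * S * 2 ^ h.natDegree * (32 * K * 2 ^ L) ^ E)
    (hρ : ∀ p : ℕ, p.Prime → Y < p → kap p 1 ≤ ρ) (hρ0 : 0 ≤ ρ)
    (hρε : 144 * m * ρ ≤ 1 / 60000) (hm : 2 ≤ m) (hmL : L ≤ m)
    (hX0 : 0 < X0)
    (hX : ∑ i ∈ items Y Q, kap i.1 i.2 * ((i.2 : ℝ) * Real.log i.1) ≤ X0)
    (hg0 : (Q : ℝ) ^ 2 * Real.exp (2 * X0) ≤ g0)
    (N d : ℕ) (A : Finset ℤ) (hd : 1 ≤ d)
    (hN1 : 16 * Q * (g0 * Q ^ (4 * m) + 4000 * g0 ^ h.natDegree) ≤ N)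
    (hN2 : 16 * S * 2 ^ h.natDegree * (S * d ^ h.natDegree) *
      ((32 * K * (S * (S * d ^ h.natDegree)) * 2 ^ L) ^ E * (1000 * Q ^ 2) +
        2 * h.natDegree * 2 ^ L) ^ h.natDegree ≤ N)
    (hAN : A ⊆ Finset.Icc (1 : ℤ) N) (hfree : DiffFree (H d) A) (hAL : N ≤ 2 ^ L * A.card) :
    ∃ (d' N' : ℕ) (A' : Finset ℤ), 1 ≤ d' ∧ d' ≤ d * g0 ∧
      N ≤ N' * (16 * Q * g0 ^ h.natDegree) ∧ A' ⊆ Finset.Icc (1 : ℤ) N' ∧
      DiffFree (H d') A' ∧ (2000 + 1) * (A.card * N') ≤ 2000 * (A'.card * N) := by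
  set k := h.natDegree with hkdef
  have hdeg : (H d).natDegree = k := hA.natDegree_H hk d hd
  have hlead0 : 0 < (H d).leadingCoeff := hA.lead_pos hk hpos d hd
  obtain ⟨lead, hlead⟩ : ∃ l : ℕ, (l : ℤ) = (H d).leadingCoeff :=
    ⟨(H d).leadingCoeff.toNat, Int.toNat_of_nonneg hlead0.le⟩
  have hlead1 : 1 ≤ lead := by omega
  have hleadle : lead ≤ S * d ^ k := by
    have := (hcoef d hd).2
    rw [← hlead] at this
    exact_mod_cast this
  have h2L : 1 ≤ 2 ^ L := Nat.one_le_two_pow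
  have hQ1000 : 1000 ≤ Q := by
    rw [hQ]
    have h1 : 64 ≤ (32 * K * 2 ^ L) ^ E := by
      have h2 : 2 ≤ 2 ^ L := Nat.le_self_pow (by omega) 2
      calc 64 = 32 * 1 * 2 := by norm_num
        _ ≤ 32 * K * 2 ^ L := Nat.mul_le_mul (Nat.mul_le_mul_left _ hK) h2
        _ ≤ (32 * K * 2 ^ L) ^ E := Nat.le_self_pow (by omega) _
    have h2 : 2 ≤ 2 ^ k := Nat.le_self_pow (by omega) 2
    have h3 : 32 ≤ 16 * S * 2 ^ k := by
      calc 32 = 16 * 1 * 2 := by norm_num
        _ ≤ 16 * S * 2 ^ k := Nat.mul_le_mul (Nat.mul_le_mul_left _ hS) h2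
    calc 1000 ≤ 32 * 64 := by norm_num
      _ ≤ _ := Nat.mul_le_mul h3 h1
  have hQr : (1 : ℝ) ≤ Q := by exact_mod_cast (by omega : 1 ≤ Q)
  have hg1 : 1 ≤ g0 := by
    have h1 : (1 : ℝ) ≤ Real.exp (2 * X0) := Real.one_le_exp (by positivity)
    have h2 : (1 : ℝ) ≤ (Q : ℝ) ^ 2 := one_le_pow₀ hQr
    have h3 : (1 : ℝ) ≤ g0 := by nlinarith only [hg0, h2, h1]
    exact_mod_cast h3
  have hN0 : 0 < N := by
    refine lt_of_lt_of_le ?_ hN1
    (clear * - hQ1000 hg1; positivity)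
  have hNr : (0 : ℝ) < N := by exact_mod_cast hN0
  -- choose M
  obtain ⟨M, hM1, hM2⟩ := exists_M k (16 * S) lead N hk (by omega) hlead1
  set X := (32 * K * (S * (S * d ^ k)) * 2 ^ L) ^ E * (1000 * Q ^ 2) + 2 * k * 2 ^ L with hXdef
  have hX1 : 1 ≤ X := by
    rw [hXdef]
    have : 1 ≤ (32 * K * (S * (S * d ^ k)) * 2 ^ L) ^ E * (1000 * Q ^ 2) :=
      Nat.one_le_iff_ne_zero.mpr (by (clear * - hK hS hd hQ1000; positivity))
    omega
  have hXM : X ≤ M := by
    by_contra hcon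
    push Not at hcon
    have h1 : N < 16 * S * (lead * X ^ k) := by
      refine lt_of_lt_of_le hM2 ?_
      apply Nat.mul_le_mul_left
      apply Nat.mul_le_mul_left
      exact Nat.pow_le_pow_left (by omega) k
    have h2 : 16 * S * (lead * X ^ k) ≤ 16 * S * 2 ^ k * (S * d ^ k) * X ^ k := by
      have h3 : 1 ≤ 2 ^ k := Nat.one_le_two_pow
      calc 16 * S * (lead * X ^ k) ≤ 16 * S * ((S * d ^ k) * X ^ k) := by
            apply Nat.mul_le_mul_left
            exact Nat.mul_le_mul_right _ hleadle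
        _ = (16 * S) * 1 * (S * d ^ k) * X ^ k := by ring
        _ ≤ (16 * S) * 2 ^ k * (S * d ^ k) * X ^ k := by
            apply Nat.mul_le_mul_right
            apply Nat.mul_le_mul_right
            exact Nat.mul_le_mul_left _ h3
    omega
  have hM1' : 1 ≤ M := hX1.trans hXM
  have hMr : (0 : ℝ) < M := by exact_mod_cast hM1'
  have hNM : N ≤ 16 * S * 2 ^ k * (lead * M ^ k) := by
    calc N ≤ 16 * S * (lead * (M + 1) ^ k) := hM2.le
      _ ≤ 16 * S * (lead * (2 * M) ^ k) := by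
          apply Nat.mul_le_mul_left
          apply Nat.mul_le_mul_left
          exact Nat.pow_le_pow_left (by (clear * - hM1'; omega)) k
      _ = 16 * S * 2 ^ k * (lead * M ^ k) := by
          rw [mul_pow]
          ring
  -- choose N1
  set N1 := N / (8 * Q) with hN1def
  have h8Q : 0 < 8 * Q := by (clear * - hQ1000; positivity)
  have h8 : 8 * Q * N1 ≤ N := by
    rw [hN1def]
    exact Nat.mul_div_le N (8 * Q)
  have hbig : N ≤ 16 * Q * N1 := by
    have h1 : N < (8 * Q) * (N1 + 1) := by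
      rw [hN1def]
      exact Nat.lt_mul_div_succ N h8Q
    have h2 : 1 ≤ N1 := by
      rw [hN1def]
      apply Nat.div_pos _ h8Q
      refine le_trans ?_ hN1
      have h3 : 1 ≤ g0 ^ k := Nat.one_le_pow _ _ hg1
      calc 8 * Q ≤ 16 * Q * 1 := by (clear * - hQ hQ1000; omega)
        _ ≤ _ := by
            apply Nat.mul_le_mul_left
            (clear * - h3; omega)
    calc N ≤ (8 * Q) * (N1 + 1) := h1.le
      _ = (8 * Q) * N1 + 8 * Q * 1 := by ring
      _ ≤ (8 * Q) * N1 + (8 * Q) * N1 := by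
          apply Nat.add_le_add_left
          exact Nat.mul_le_mul_left _ h2
      _ = 16 * Q * N1 := by ring
  have hN1big : g0 * Q ^ (4 * m) + 4000 * g0 ^ k ≤ N1 := by
    have h1 := hN1.trans hbig
    exact Nat.le_of_mul_le_mul_left h1 (by (clear * - hQ1000; positivity))
  have hN1r : (0 : ℝ) < N1 := by
    have : 1 ≤ g0 ^ k := Nat.one_le_pow _ _ hg1
    have : 0 < N1 := by omega
    exact_mod_cast this
  -- the exponential sum hypothesis
  set δ : ℝ := 1 / (32 * 2 ^ L) with hδ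
  have hδ0 : 0 < δ := by positivity
  have hδle : δ ≤ 1 := by
    rw [hδ, div_le_one (by positivity)]
    have : (1 : ℝ) ≤ 2 ^ L := one_le_pow₀ (by norm_num)
    linarith only [this]
  have hKδ : ((K : ℝ) / δ) ^ E = ((32 * K * 2 ^ L : ℕ) : ℝ) ^ E := by
    rw [hδ]
    congr 1
    push_cast
    field_simp
  have hleadr : (((H d).leadingCoeff : ℤ) : ℝ) = (lead : ℝ) := by
    rw [← hlead]
    simp
  set B : ℝ := ((S * (S * d ^ k) : ℕ) : ℝ) with hBdef
  have hexp := hmajor (H d) M N Q δ B (kapProd kap) hdeg hlead0 (hA.hgcd d hd) hδ0 hδle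
    (by
      rw [hBdef]
      have : 1 ≤ S * (S * d ^ k) := Nat.one_le_iff_ne_zero.mpr (by positivity)
      exact_mod_cast this)
    (by
      intro j
      have h1 : |(H d).coeff j| ≤ ((S * (S * d ^ k) : ℕ) : ℤ) := by
        push_cast
        calc |(H d).coeff j| ≤ S * (H d).leadingCoeff := (hcoef d hd).1 j
          _ ≤ S * (S * (d : ℤ) ^ k) := by
              apply mul_le_mul_of_nonneg_left (hcoef d hd).2 (by positivity)
      rw [hBdef]
      exact_mod_cast h1)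
    (by
      have h1 : (K : ℝ) * B / δ = ((32 * K * (S * (S * d ^ k)) * 2 ^ L : ℕ) : ℝ) := by
        rw [hBdef, hδ]
        push_cast
        field_simp
      rw [h1]
      have h2 : (32 * K * (S * (S * d ^ k)) * 2 ^ L) ^ E ≤ M := by
        refine le_trans ?_ hXM
        rw [hXdef]
        refine le_trans ?_ (Nat.le_add_right _ _)
        exact Nat.le_mul_of_pos_right _ (by (clear * - hQ1000; positivity))
      exact_mod_cast h2)
    hN0
    (fun q a hq _ ha => hkap (H d) hdeg hlead0 (hA.hgcd d hd) q a hq ha)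
    (by
      rw [hKδ, hQ]
      push_cast
      have h1 : (1 : ℝ) ≤ 16 * S * 2 ^ k := by
        have : 1 ≤ 16 * S * 2 ^ k := Nat.one_le_iff_ne_zero.mpr (by positivity)
        exact_mod_cast this
      exact le_mul_of_one_le_left (by positivity) h1)
    (by
      rw [hKδ, hleadr]
      have h1 : (32 * K * 2 ^ L) ^ E * N ≤ Q * (lead * M ^ k) := by
        calc (32 * K * 2 ^ L) ^ E * N ≤ (32 * K * 2 ^ L) ^ E * (16 * S * 2 ^ k * (lead * M ^ k)) :=
              Nat.mul_le_mul_left _ hNM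
          _ = Q * (lead * M ^ k) := by rw [hQ]; ring
      exact_mod_cast h1)
  obtain ⟨α, hαdef⟩ : ∃ α : ℝ, α = A.card / N := ⟨_, rfl⟩
  have hAc : (A.card : ℝ) = α * N := by
    rw [hαdef]
    (clear * - hN0; field_simp)
  have hαL : 1 / 2 ^ L ≤ α := by
    rw [hαdef, div_le_div_iff₀ (by positivity) hNr]
    have : (N : ℝ) ≤ 2 ^ L * A.card := by exact_mod_cast hAL
    linarith only [this]
  have hα0 : 0 < α := lt_of_lt_of_le (by positivity) hαL
  have h2Lr : (0 : ℝ) < 2 ^ L := by positivity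
  have hαL' : 1 ≤ α * 2 ^ L := by
    rw [div_le_iff₀ h2Lr] at hαL
    exact hαL
  -- the increment must occur
  by_cases hNI : ∀ D : ℕ, 1 ≤ D → (D : ℝ) ≤ (Q : ℝ) ^ 2 * Real.exp (2 * X0) → ∀ y x : ℤ,
      ((A.filter (fun n => y < n ∧ n ≤ y + N1 ∧ n ≡ x [ZMOD D])).card : ℝ) ≤
        (1 + 1 / 1000) * α * (N1 / D)
  · exfalso
    refine core_contra (kap := kap) (Y := Y) (Q := Q) (m := m) (N := N) (N1 := N1) (M := M) (k := k)
      (ρ := ρ) (X0 := X0) (δ0 := δ) (δ1 := (K / δ) ^ E / M) (α := α) A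
      (fun n => (H d).eval (n : ℤ)) hAN hAc hk0 hk1 hρ hρ0 hρε hm hα0 ?_ hQ1000 hX0 hX ?_ h8 ?_ hM1'
      ?_ ?_ ?_ hδ0.le ?_ (by (clear * - hK hM1'; positivity)) ?_ hexp hNI
    · -- 1 ≤ 2 α exp (2 m)
      have h1 : (2 : ℝ) ^ L ≤ Real.exp (2 * m) := by
        have h2 : (2 : ℝ) ≤ Real.exp 2 := by
          have := Real.add_one_le_exp (2 : ℝ)
          linarith only [this]
        calc (2 : ℝ) ^ L ≤ 2 ^ m := pow_le_pow_right₀ (by norm_num) hmL
          _ ≤ (Real.exp 2) ^ m := pow_le_pow_left₀ (by norm_num) h2 m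
          _ = Real.exp (2 * m) := by rw [← Real.exp_nat_mul]; ring_nf
      have h2 : α * 2 ^ L ≤ α * Real.exp (2 * m) := mul_le_mul_of_nonneg_left h1 hα0.le
      linarith only [hαL', h2]
    · -- N1 is large
      have h1 : (g0 : ℝ) * (Q : ℝ) ^ (4 * m) ≤ N1 := by
        have : g0 * Q ^ (4 * m) ≤ N1 := by omega
        exact_mod_cast this
      calc Real.exp (2 * X0) * (Q : ℝ) ^ (4 * m + 2) = ((Q : ℝ) ^ 2 * Real.exp (2 * X0)) * (Q : ℝ) ^ (4 * m) := by
            rw [pow_add]; ring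
        _ ≤ g0 * (Q : ℝ) ^ (4 * m) := mul_le_mul_of_nonneg_right hg0 (by (clear * - hQ1000; positivity))
        _ ≤ N1 := h1
    · -- 2 k ≤ α M
      have h1 : 2 * k * 2 ^ L ≤ M := by
        refine le_trans ?_ hXM
        rw [hXdef]
        exact Nat.le_add_left _ _
      have h2 : (2 : ℝ) * k * 2 ^ L ≤ M := by exact_mod_cast h1
      have h3 : (2 * k * 2 ^ L : ℝ) * α ≤ M * α := mul_le_mul_of_nonneg_right h2 hα0.le
      have h4 : (2 * k : ℝ) * 1 ≤ (2 * k) * (α * 2 ^ L) :=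
        mul_le_mul_of_nonneg_left hαL' (by positivity)
      nlinarith only [h3, h4]
    · intro n hn
      rw [Finset.mem_Icc] at hn
      have h1 := heval d hd n hn.1
      have h2 : (n : ℤ) ^ k ≤ (M : ℤ) ^ k := by
        apply pow_le_pow_left₀ (by (clear * -; positivity))
        exact_mod_cast hn.2
      have h3 : 16 * ((S : ℤ) * (H d).leadingCoeff * (M : ℤ) ^ k) ≤ N := by
        rw [← hlead]
        have : ((16 * S * (lead * M ^ k) : ℕ) : ℤ) ≤ N := by exact_mod_cast hM1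
        push_cast at this
        linarith only [hM1]
      have h4 : (S : ℤ) * (H d).leadingCoeff * (n : ℤ) ^ k ≤ (S : ℤ) * (H d).leadingCoeff * (M : ℤ) ^ k :=
        mul_le_mul_of_nonneg_left h2 (by (clear * - hS hlead0; positivity))
      linarith only [h1, h3, h4]
    · intro n hn h0 x hx hx2
      rw [Finset.mem_Icc] at hn
      have h1 := hfree ⟨Set.mem_sub.mpr ⟨x + (H d).eval (n : ℤ), hx2, x, hx, by ring⟩, ⟨n, hn.1, rfl⟩⟩
      simp only [Set.mem_singleton_iff] at h1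
      exact h0 h1
    · have hne : H d ≠ 0 := by
        intro h0
        rw [h0] at hlead0
        simp at hlead0
      have := card_zero_le (H d) hne M
      rw [hdeg] at this
      exact this
    · -- δ ≤ α / 32
      rw [hδ]
      have : 1 / (32 * 2 ^ L) = (1 / 2 ^ L : ℝ) / 32 := by (clear * -; field_simp)
      rw [this]
      linarith only [hαL]
    · -- 1000 δ1 Q^2 ≤ 1
      rw [hKδ]
      have h1 : (32 * K * 2 ^ L) ^ E * (1000 * Q ^ 2) ≤ M := by
        refine le_trans ?_ hXM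
        rw [hXdef]
        refine le_trans ?_ (Nat.le_add_right _ _)
        apply Nat.mul_le_mul_right
        apply Nat.pow_le_pow_left
        have : 1 ≤ S * (S * d ^ k) := Nat.one_le_iff_ne_zero.mpr (by positivity)
        calc 32 * K * 2 ^ L = 32 * K * 1 * 2 ^ L := by ring
          _ ≤ 32 * K * (S * (S * d ^ k)) * 2 ^ L := by
              apply Nat.mul_le_mul_right
              exact Nat.mul_le_mul_left _ this
      have h2 : ((32 * K * 2 ^ L : ℕ) : ℝ) ^ E * (1000 * (Q : ℝ) ^ 2) ≤ M := by exact_mod_cast h1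
      have h3 : 1000 * (((32 * K * 2 ^ L : ℕ) : ℝ) ^ E / M) * (Q : ℝ) ^ 2 =
          ((32 * K * 2 ^ L : ℕ) : ℝ) ^ E * (1000 * (Q : ℝ) ^ 2) / M := by ring
      rw [h3, div_le_one hMr]
      exact h2
  · push Not at hNI
    obtain ⟨q, hq1, hqle, y, x, hcnt⟩ := hNI
    have hqle : q ≤ g0 := by
      have : (q : ℝ) ≤ g0 := hqle.trans hg0
      exact_mod_cast this
    have hlam1 := hA.lam_pos q hq1
    have hlamle : lam q ≤ g0 ^ k := (hA.lam_le q hq1).trans (Nat.pow_le_pow_left hqle k)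
    have hlamdvd := (hA.hdvd q hq1).1
    set γ : ℝ := (1 + 1 / 1000) * α with hγ
    have hγ0 : 0 ≤ γ := by rw [hγ]; (clear * - hα0; positivity)
    obtain ⟨x2, hx2⟩ := increment A N1 q (lam q) y x γ hq1 hlam1 hlamdvd hcnt
    set N' := N1 / lam q + 1 with hN'
    set A' := (Finset.Icc (1:ℤ) (N' : ℕ)).filter (fun j => x2 + lam q * j ∈ A) with hA'
    refine ⟨d * q, N', A', Nat.mul_pos hd hq1, Nat.mul_le_mul_left d hqle, ?_, ?_, ?_, ?_⟩
    · -- N ≤ N' * ...
      have h1 : N1 ≤ N' * lam q := by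
        rw [hN']
        have := Nat.lt_mul_div_succ N1 (by omega : 0 < lam q)
        rw [mul_comm]
        exact this.le
      calc N ≤ 16 * Q * N1 := hbig
        _ ≤ 16 * Q * (N' * lam q) := Nat.mul_le_mul_left _ h1
        _ ≤ 16 * Q * (N' * g0 ^ k) := by
            apply Nat.mul_le_mul_left
            exact Nat.mul_le_mul_left _ hlamle
        _ = _ := by ring
    · rw [hA']
      exact Finset.filter_subset _ _
    · apply hA.diffFree_sub d q hd hq1 A hfree x2 A'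
      intro j hj
      rw [hA', Finset.mem_filter] at hj
      exact hj.2
    · -- density
      have hlamr : (0 : ℝ) < lam q := by exact_mod_cast hlam1
      have h1 : (4000 : ℝ) ≤ N1 / lam q := by
        rw [le_div_iff₀ hlamr]
        have : 4000 * lam q ≤ N1 := by
          calc 4000 * lam q ≤ 4000 * g0 ^ k := Nat.mul_le_mul_left _ hlamle
            _ ≤ N1 := by omega
        exact_mod_cast this
      have h2 : (N' : ℝ) ≤ N1 / lam q + 1 := by
        rw [hN']
        push_cast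
        have := Nat.cast_div_le (α := ℝ) (m := N1) (n := lam q)
        linarith only [this]
      have h3 : ((2000 + 1) / 2000 : ℝ) * α * N' ≤ A'.card := by
        refine le_trans ?_ hx2.le
        rw [hγ]
        have h4 : ((2000 + 1) / 2000 : ℝ) * N' ≤ (1 + 1 / 1000) * (N1 / lam q) := by linarith only [h1, h2]
        calc ((2000 + 1) / 2000 : ℝ) * α * N' = α * (((2000 + 1) / 2000 : ℝ) * N') := by ring
          _ ≤ α * ((1 + 1 / 1000) * (N1 / lam q)) := mul_le_mul_of_nonneg_left h4 hα0.le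
          _ = _ := by ring
      have h5 : ((2000 + 1 : ℕ) : ℝ) * (A.card * N') ≤ 2000 * (A'.card * N) := by
        have h6 : ((2000 + 1) / 2000 : ℝ) * α * N' * (2000 * N) = (2000 + 1) * (A.card * N') := by
          rw [hAc]
          ring
        have h7 := mul_le_mul_of_nonneg_right h3 (by (clear * - hN0; positivity) : (0:ℝ) ≤ 2000 * N)
        rw [h6] at h7
        push_cast
        linarith only [h7]
      exact_mod_cast h5

end Vale.Agent.P042
end
end
end

section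

section

section

set_option autoImplicit false

namespace Vale.Agent.P042

open Polynomial Finset

/-- Complete exponential sum. -/
noncomputable def ecs (H : ℤ[X]) (a : ℤ) (q : ℕ) [NeZero q] : ℂ :=
  ∑ x : ZMod q, ZMod.stdAddChar ((a : ZMod q) * aeval x H)

lemma e_eq_std (q : ℕ) [NeZero q] (j : ℤ) : e ((j : ℝ) / q) = ZMod.stdAddChar (j : ZMod q) := by
  rw [ZMod.stdAddChar_coe]
  unfold e
  congr 1
  push_cast
  ring

lemma aeval_int_cast (H : ℤ[X]) (q : ℕ) (n : ℤ) :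
    aeval (n : ZMod q) H = ((H.eval n : ℤ) : ZMod q) := by
  have h := aeval_algebraMap_apply (ZMod q) n H
  simpa using h

lemma sum_range_eq_ecs (H : ℤ[X]) (a : ℤ) (q : ℕ) [NeZero q] :
    ∑ x ∈ range q, e (a * ((H.eval (x : ℤ) : ℤ) : ℝ) / q) = ecs H a q := by
  unfold ecs
  refine Finset.sum_bij' (fun x _ => (x : ZMod q)) (fun x _ => x.val) ?_ ?_ ?_ ?_ ?_
  · intro x _; exact mem_univ _
  · intro x _; rw [Finset.mem_range]; exact ZMod.val_lt x
  · intro x hx
    rw [Finset.mem_range] at hx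
    exact ZMod.val_cast_of_lt hx
  · intro x _; exact ZMod.natCast_zmod_val x
  · intro x _
    have h1 : (a * ((H.eval (x : ℤ) : ℤ) : ℝ) / q) = (((a * H.eval (x : ℤ) : ℤ) : ℝ)) / q := by
      push_cast; ring
    rw [h1, e_eq_std]
    congr 1
    have h2 := aeval_int_cast H q (x : ℤ)
    rw [Int.cast_natCast] at h2
    rw [h2]
    push_cast
    ring

lemma norm_std (q : ℕ) [NeZero q] (x : ZMod q) : ‖(ZMod.stdAddChar x : ℂ)‖ = 1 :=
  (ZMod.stdAddChar (N := q)).norm_apply x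

lemma norm_ecs_le (H : ℤ[X]) (a : ℤ) (q : ℕ) [NeZero q] : ‖ecs H a q‖ ≤ q := by
  unfold ecs
  refine (norm_sum_le _ _).trans ?_
  refine (Finset.sum_le_sum fun x _ => (norm_std q _).le).trans ?_
  simp [ZMod.card]

/-- multiplicativity -/
lemma ecs_mul (H : ℤ[X]) (a : ℤ) (q1 q2 : ℕ) [NeZero q1] [NeZero q2] [NeZero (q1 * q2)]
    (hc : q1.Coprime q2) (u1 u2 : ℤ) (hu : u1 * q2 + u2 * q1 = 1) :
    ecs H a (q1 * q2) = ecs H (a * u1) q1 * ecs H (a * u2) q2 := by
  have hstd : ∀ n : ℤ, (ZMod.stdAddChar (n : ZMod (q1 * q2)) : ℂ) =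
      ZMod.stdAddChar ((u1 * n : ℤ) : ZMod q1) * ZMod.stdAddChar ((u2 * n : ℤ) : ZMod q2) := by
    intro n
    rw [← e_eq_std, ← e_eq_std, ← e_eq_std]
    have h1 : e (((u1 * n : ℤ) : ℝ) / q1) * e (((u2 * n : ℤ) : ℝ) / q2) =
        e (((u1 * n : ℤ) : ℝ) / q1 + ((u2 * n : ℤ) : ℝ) / q2) := by
      unfold e
      rw [← Complex.exp_add]
      congr 1
      push_cast
      ring
    rw [h1]
    congr 1
    have hq1 : (q1 : ℝ) ≠ 0 := by exact_mod_cast NeZero.ne q1
    have hq2 : (q2 : ℝ) ≠ 0 := by exact_mod_cast NeZero.ne q2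
    have hu' : (u1 : ℝ) * q2 + u2 * q1 = 1 := by exact_mod_cast hu
    push_cast
    field_simp
    linear_combination (-(n : ℝ)) * hu'
  unfold ecs
  rw [Finset.sum_mul_sum, ← Fintype.sum_prod_type']
  refine Fintype.sum_equiv (ZMod.chineseRemainder hc).toEquiv _ _ fun x => ?_
  obtain ⟨n, rfl⟩ := ZMod.intCast_surjective x
  have h2 : (ZMod.chineseRemainder hc).toEquiv (n : ZMod (q1 * q2)) = ((n : ZMod q1), (n : ZMod q2)) := by
    show (ZMod.chineseRemainder hc) (n : ZMod (q1 * q2)) = _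
    rw [map_intCast]
    rfl
  rw [h2]
  simp only
  rw [aeval_int_cast, aeval_int_cast, aeval_int_cast, ← Int.cast_mul, hstd]
  congr 2
  · push_cast; ring
  · push_cast; ring

/-- nonconstant modulo `p` -/
def NC (H : ℤ[X]) (p : ℕ) : Prop := 1 ≤ (H.map (Int.castRingHom (ZMod p))).natDegree

lemma std_ne_one (p : ℕ) [Fact p.Prime] (a : ℤ) (ha : ¬ (p : ℤ) ∣ a) :
    ((ZMod.stdAddChar (N := p)).mulShift (a : ZMod p)) ≠ 1 := by
  have h := ZMod.isPrimitive_stdAddChar p
  apply h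
  intro h0
  exact ha ((ZMod.intCast_zmod_eq_zero_iff_dvd a p).1 h0)

lemma ecs_prime (H : ℤ[X]) (k p : ℕ) [Fact p.Prime] (hk : H.natDegree ≤ k) (hkp : k < p)
    (hnc : NC H p) (a : ℤ) (ha : ¬ (p : ℤ) ∣ a) : ‖ecs H a p‖ ≤ k * Real.sqrt p := by
  have h1 := weil_bound (H.map (Int.castRingHom (ZMod p))) hnc
    (lt_of_le_of_lt (natDegree_map_le.trans hk) hkp)
    ((ZMod.stdAddChar (N := p)).mulShift (a : ZMod p)) (std_ne_one p a ha)
  have h2 : ecs H a p = ∑ x : ZMod p, ((ZMod.stdAddChar (N := p)).mulShift (a : ZMod p))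
      ((H.map (Int.castRingHom (ZMod p))).eval x) := by
    unfold ecs
    refine Finset.sum_congr rfl fun x _ => ?_
    rw [AddChar.mulShift_apply]
    congr 2
    rw [eval_map]
    rfl
  rw [h2]
  refine h1.trans ?_
  apply mul_le_mul_of_nonneg_right _ (Real.sqrt_nonneg _)
  have h3 : ((H.map (Int.castRingHom (ZMod p))).natDegree : ℝ) ≤ k := by
    exact_mod_cast natDegree_map_le.trans hk
  linarith

lemma deriv_roots (H : ℤ[X]) (k p : ℕ) [Fact p.Prime] (hk : H.natDegree ≤ k) (hkp : k < p)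
    (hnc : NC H p) : (univ.filter (fun w : ZMod p => aeval w (derivative H) = 0)).card ≤ k := by
  classical
  set f := H.map (Int.castRingHom (ZMod p)) with hf
  have hfd : f.natDegree ≤ k := natDegree_map_le.trans hk
  have hf0 : f ≠ 0 := by
    intro h
    unfold NC at hnc
    rw [← hf, h] at hnc
    simp at hnc
  have hd : f.natDegree - 1 + 1 = f.natDegree := Nat.sub_add_cancel hnc
  have hder : derivative f ≠ 0 := by
    intro h
    have h1 : (derivative f).coeff (f.natDegree - 1) = 0 := by rw [h]; simp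
    rw [coeff_derivative, hd] at h1
    have h2 : f.coeff f.natDegree ≠ 0 := by
      rw [coeff_natDegree]; exact leadingCoeff_ne_zero.2 hf0
    have h3 : (((f.natDegree - 1 : ℕ) : ZMod p) + 1) ≠ 0 := by
      have : (((f.natDegree - 1 : ℕ) : ZMod p) + 1) = ((f.natDegree : ℕ) : ZMod p) := by
        rw [← hd]; push_cast; simp only
      rw [this]
      intro h4
      rw [ZMod.natCast_eq_zero_iff] at h4
      exact absurd (Nat.le_of_dvd (by unfold NC at hnc; omega) h4) (by omega)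
    exact (mul_ne_zero h2 h3) h1
  have hsub : (univ.filter (fun w : ZMod p => aeval w (derivative H) = 0)) ⊆
      (derivative f).roots.toFinset := by
    intro w hw
    rw [Finset.mem_filter] at hw
    rw [Multiset.mem_toFinset, mem_roots hder, IsRoot.def, hf, derivative_map, eval_map]
    exact hw.2
  refine (Finset.card_le_card hsub).trans ?_
  refine (Multiset.toFinset_card_le _).trans ?_
  refine (card_roots' _).trans ?_
  exact (natDegree_derivative_le f).trans (by omega)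

lemma ecs_prime_pow (H : ℤ[X]) (k p j : ℕ) [Fact p.Prime] [NeZero (p ^ j)] (hj : 2 ≤ j)
    (hk : H.natDegree ≤ k) (hkp : k < p)
    (hnc : NC H p) (a : ℤ) (ha : ¬ (p : ℤ) ∣ a) : ‖ecs H a (p ^ j)‖ ≤ k * (p : ℝ) ^ (j - 1) := by
  classical
  have hp : p.Prime := Fact.out
  have hdvd : p ∣ p ^ j := dvd_pow_self p (by omega)
  let φ : ZMod (p ^ j) →+* ZMod p := ZMod.castHom hdvd (ZMod p)
  have hφ : ∀ n : ℤ, φ (n : ZMod (p ^ j)) = (n : ZMod p) := fun n => map_intCast φ n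
  set F : ZMod (p ^ j) → ℂ := fun x => ZMod.stdAddChar ((a : ZMod (p ^ j)) * aeval x H) with hF
  have hfib : ecs H a (p ^ j) = ∑ w : ZMod p, ∑ x ∈ univ.filter (fun x => φ x = w), F x := by
    unfold ecs
    rw [Finset.sum_fiberwise_of_maps_to (fun x _ => Finset.mem_univ (φ x))]
  have hsurj : Function.Surjective φ := by
    intro w
    obtain ⟨n, rfl⟩ := ZMod.intCast_surjective w
    exact ⟨n, hφ n⟩
  have hcardfib : ∀ w : ZMod p, (univ.filter (fun x : ZMod (p ^ j) => φ x = w)).card = p ^ (j - 1) := by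
    intro w
    have h1 : ∀ w' : ZMod p, (univ.filter (fun x : ZMod (p ^ j) => φ x = w')).card =
        (univ.filter (fun x : ZMod (p ^ j) => φ x = w)).card := by
      intro w'
      exact AddMonoidHom.card_fiber_eq_of_mem_range φ.toAddMonoidHom (hsurj w') (hsurj w)
    have h2 : (univ : Finset (ZMod (p ^ j))).card =
        ∑ w' : ZMod p, (univ.filter (fun x : ZMod (p ^ j) => φ x = w')).card :=
      Finset.card_eq_sum_card_fiberwise (fun x _ => Finset.mem_univ _)
    rw [Finset.sum_congr rfl fun w' _ => h1 w', Finset.sum_const, Finset.card_univ, Finset.card_univ,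
      ZMod.card, ZMod.card, smul_eq_mul] at h2
    have h3 : p ^ j = p * p ^ (j - 1) := by rw [← pow_succ']; congr 1; omega
    exact (Nat.eq_of_mul_eq_mul_left hp.pos (h3.symm.trans h2)).symm
  -- h = p^(j-1)
  set h : ZMod (p ^ j) := ((p ^ (j - 1) : ℕ) : ZMod (p ^ j)) with hh
  have hsq : h ^ 2 = 0 := by
    rw [hh, ← Nat.cast_pow, ZMod.natCast_eq_zero_iff, ← pow_mul]
    exact pow_dvd_pow p (by omega)
  have hφh : φ h = 0 := by
    rw [hh, map_natCast, ZMod.natCast_eq_zero_iff]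
    exact dvd_pow_self p (by omega)
  have hzero : ∀ w : ZMod p, aeval w (derivative H) ≠ 0 →
      ∑ x ∈ univ.filter (fun x => φ x = w), F x = 0 := by
    intro w hw
    have hshift : ∀ x, φ x = w → F (x + h) = F x *
        ZMod.stdAddChar ((a : ZMod p) * aeval w (derivative H)) := by
      intro x hx
      rw [hF]
      simp only
      rw [Polynomial.aeval_add_of_sq_eq_zero H x h hsq, mul_add, AddChar.map_add_eq_mul]
      congr 1
      obtain ⟨n, rfl⟩ := ZMod.intCast_surjective x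
      rw [hφ] at hx
      rw [← hx, aeval_int_cast, aeval_int_cast, hh]
      have e1 : (a : ZMod (p ^ j)) * (((derivative H).eval n : ℤ) * ((p ^ (j - 1) : ℕ) : ZMod (p ^ j))) =
          ((a * ((derivative H).eval n * (p ^ (j - 1) : ℕ)) : ℤ) : ZMod (p ^ j)) := by
        push_cast; ring
      have e2 : (a : ZMod p) * ((derivative H).eval n : ℤ) = ((a * (derivative H).eval n : ℤ) : ZMod p) := by
        push_cast; ring
      rw [e1, e2, ← e_eq_std, ← e_eq_std]
      congr 1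
      have hp0 : (p : ℝ) ≠ 0 := by exact_mod_cast hp.ne_zero
      have : (p : ℝ) ^ j = p ^ (j - 1) * p := by rw [← pow_succ]; congr 1; omega
      push_cast
      rw [this]
      (clear * - hp0; field_simp)
    have hbij : ∑ x ∈ univ.filter (fun x => φ x = w), F x =
        ∑ x ∈ univ.filter (fun x => φ x = w), F (x + h) := by
      refine Finset.sum_bij' (fun x _ => x - h) (fun x _ => x + h) ?_ ?_ ?_ ?_ ?_
      · intro x hx
        rw [Finset.mem_filter] at hx ⊢
        exact ⟨mem_univ _, by rw [map_sub, hφh, sub_zero]; exact hx.2⟩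
      · intro x hx
        rw [Finset.mem_filter] at hx ⊢
        exact ⟨mem_univ _, by rw [map_add, hφh, add_zero]; exact hx.2⟩
      · intro x _; ring
      · intro x _; ring
      · intro x _; congr 1; ring
    have h1 : ∑ x ∈ univ.filter (fun x => φ x = w), F x =
        (∑ x ∈ univ.filter (fun x => φ x = w), F x) *
          ZMod.stdAddChar ((a : ZMod p) * aeval w (derivative H)) := by
      conv_lhs => rw [hbij]
      rw [Finset.sum_mul]
      refine Finset.sum_congr rfl fun x hx => ?_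
      rw [Finset.mem_filter] at hx
      exact hshift x hx.2
    have hne : (ZMod.stdAddChar ((a : ZMod p) * aeval w (derivative H)) : ℂ) ≠ 1 := by
      intro h2
      have h3 : (a : ZMod p) * aeval w (derivative H) = 0 := by
        apply ZMod.injective_stdAddChar
        rw [h2, AddChar.map_zero_eq_one]
      rcases mul_eq_zero.1 h3 with h4 | h4
      · exact ha ((ZMod.intCast_zmod_eq_zero_iff_dvd a p).1 h4)
      · exact hw h4
    have h4 : (∑ x ∈ univ.filter (fun x => φ x = w), F x) *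
        (1 - ZMod.stdAddChar ((a : ZMod p) * aeval w (derivative H))) = 0 := by
      linear_combination h1
    rcases mul_eq_zero.1 h4 with h5 | h5
    · exact h5
    · exact absurd (by linear_combination (-1 : ℂ) * h5) hne
  have hle : ∀ w : ZMod p, ‖∑ x ∈ univ.filter (fun x => φ x = w), F x‖ ≤
      if aeval w (derivative H) = 0 then (p : ℝ) ^ (j - 1) else 0 := by
    intro w
    split_ifs with hw
    · refine (norm_sum_le _ _).trans ?_
      refine (Finset.sum_le_sum fun x _ => (norm_std (p ^ j) _).le).trans ?_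
      rw [Finset.sum_const, hcardfib, nsmul_eq_mul, mul_one]
      push_cast
      exact le_rfl
    · rw [hzero w hw, norm_zero]
  rw [hfib]
  refine (norm_sum_le _ _).trans ((Finset.sum_le_sum fun w _ => hle w).trans ?_)
  rw [← Finset.sum_filter, Finset.sum_const, nsmul_eq_mul]
  apply mul_le_mul_of_nonneg_right _ (by (clear * -; positivity))
  exact_mod_cast deriv_roots H k p hk hkp hnc

lemma full_sum (H : ℤ[X]) (a : ℤ) (q : ℕ) [NeZero q] (t : ℕ) :
    ∑ n ∈ Finset.Icc 1 (t * q), e ((a : ℝ) / q * ((H.eval (n : ℤ) : ℤ) : ℝ)) = t * ecs H a q := by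
  set F : ZMod q → ℂ := fun x => ZMod.stdAddChar ((a : ZMod q) * aeval x H) with hF
  have hval : ∀ n : ℕ, e ((a : ℝ) / q * ((H.eval (n : ℤ) : ℤ) : ℝ)) = F (n : ZMod q) := by
    intro n
    have h1 : ((a : ℝ) / q * ((H.eval (n : ℤ) : ℤ) : ℝ)) = (((a * H.eval (n : ℤ) : ℤ) : ℝ)) / q := by
      push_cast; ring
    rw [h1, e_eq_std, hF]
    have h2 := aeval_int_cast H q (n : ℤ)
    rw [Int.cast_natCast] at h2
    simp only
    rw [h2]
    push_cast
    rfl
  have hIcc : ∀ N : ℕ, ∑ n ∈ Finset.Icc 1 N, F (n : ZMod q) = ∑ i ∈ range N, F ((i : ZMod q) + 1) := by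
    intro N
    have h1 : Finset.Icc 1 N = (range N).image (fun k => k + 1) := by
      ext j
      rw [Finset.mem_Icc, Finset.mem_image]
      constructor
      · rintro ⟨h1, h2⟩
        exact ⟨j - 1, by rw [Finset.mem_range]; omega, by omega⟩
      · rintro ⟨k, hk, rfl⟩
        rw [Finset.mem_range] at hk
        omega
    rw [h1, Finset.sum_image (by intro a _ b _ h; simpa using h)]
    refine Finset.sum_congr rfl fun i _ => ?_
    push_cast
    rfl
  have hper : ∀ c : ZMod q, ∑ i ∈ range q, F ((i : ZMod q) + c) = ecs H a q := by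
    intro c
    have h1 : ∑ i ∈ range q, F ((i : ZMod q) + c) = ∑ x : ZMod q, F (x + c) := by
      refine Finset.sum_bij' (fun x _ => (x : ZMod q)) (fun x _ => x.val) ?_ ?_ ?_ ?_ ?_
      · intro x _; exact mem_univ _
      · intro x _; rw [Finset.mem_range]; exact ZMod.val_lt x
      · intro x hx
        rw [Finset.mem_range] at hx
        exact ZMod.val_cast_of_lt hx
      · intro x _; exact ZMod.natCast_zmod_val x
      · intro x _; rfl
    rw [h1]
    exact Fintype.sum_equiv (Equiv.addRight c) _ _ fun x => rfl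
  rw [Finset.sum_congr rfl fun n _ => hval n, hIcc]
  induction t with
  | zero => simp
  | succ t ih =>
    rw [Nat.succ_mul, Finset.sum_range_add, ih]
    have h2 : ∑ n ∈ range q, F (((t * q + n : ℕ) : ZMod q) + 1) = ∑ i ∈ range q, F ((i : ZMod q) + 1) := by
      refine Finset.sum_congr rfl fun i _ => ?_
      push_cast
      simp
    rw [h2, hper 1]
    push_cast
    ring

/-- A general bound from the Weyl inverse theorem. -/
theorem complete_general (k : ℕ) (hk : 1 ≤ k) : ∃ E : ℕ, 1 ≤ E ∧ ∀ R : ℕ, 1 ≤ R → ∃ K : ℕ, 1 ≤ K ∧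
    ∀ (H : ℤ[X]), H.natDegree = k → 0 < H.leadingCoeff →
    (∀ g : ℤ, (∀ j : ℕ, 1 ≤ j → g ∣ H.coeff j) → g ∣ (R : ℤ)) →
    ∀ (q : ℕ) [NeZero q] (a : ℤ), IsCoprime a (q : ℤ) →
      ‖ecs H a q‖ ^ E * q ≤ (K : ℝ) ^ E * (q : ℝ) ^ E := by
  obtain ⟨E, hE, hw⟩ := weyl_poly k hk
  refine ⟨E, hE, fun R hR => ?_⟩
  obtain ⟨K, hK, hw⟩ := hw R hR
  refine ⟨K, hK, fun H hdeg hlead hcont q _ a ha => ?_⟩
  have hq : 1 ≤ q := NeZero.one_le
  have hq0 : (0 : ℝ) < q := by exact_mod_cast hq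
  rcases eq_or_ne (ecs H a q) 0 with h0 | h0
  · rw [h0, norm_zero, zero_pow (by omega), zero_mul]
    (clear * - hK hq; positivity)
  set δ : ℝ := ‖ecs H a q‖ / q with hδ
  have hδ0 : 0 < δ := div_pos (norm_pos_iff.2 h0) hq0
  have hδ1 : δ ≤ 1 := by rw [hδ, div_le_one hq0]; exact norm_ecs_le H a q
  -- bound on coefficients
  obtain ⟨B, hB1, hB⟩ : ∃ B : ℝ, 1 ≤ B ∧ ∀ j : ℕ, |(H.coeff j : ℝ)| ≤ B := by
    refine ⟨1 + ∑ j ∈ range (H.natDegree + 1), |(H.coeff j : ℝ)|, ?_, fun j => ?_⟩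
    · have : 0 ≤ ∑ j ∈ range (H.natDegree + 1), |(H.coeff j : ℝ)| :=
        Finset.sum_nonneg fun j _ => abs_nonneg _
      linarith only [this]
    · by_cases hj : j ∈ range (H.natDegree + 1)
      · have := Finset.single_le_sum (f := fun j => |(H.coeff j : ℝ)|) (fun i _ => abs_nonneg _) hj
        linarith only [this]
      · rw [Finset.mem_range] at hj
        rw [coeff_eq_zero_of_natDegree_lt (by omega)]
        have : 0 ≤ ∑ j ∈ range (H.natDegree + 1), |(H.coeff j : ℝ)| :=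
          Finset.sum_nonneg fun j _ => abs_nonneg _
        simp only [Int.cast_zero, abs_zero]
        linarith only [this]
  set Z : ℝ := (K / δ) ^ E with hZ
  have hZ0 : 0 < Z := by
    have : (0 : ℝ) < K := by exact_mod_cast hK
    (clear hk hE R hR hw hdeg hlead hcont ha hq0 hδ hδ0 hδ1 B hB1 hB hZ this; positivity)
  -- choose M
  obtain ⟨t, ht⟩ := exists_nat_gt ((K * B / δ) ^ E + q * Z * Z + 1)
  have ht1 : (1 : ℝ) ≤ t := by
    have : 0 ≤ (K * B / δ) ^ E := by (clear hk hE R hR hw hdeg hlead hcont ha hq0 hδ hδ0 hδ1 hB Z hZ hZ0 t ht; positivity)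
    have h2 : 0 ≤ q * Z * Z := by (clear hk hE R hR hw hdeg hlead hcont ha hq0 hδ hδ0 hδ1 B hB1 hB hZ hZ0 t ht this; positivity)
    (clear hk hE R hR hw hdeg hlead hcont ha hq0 hδ hδ0 hδ1 hB hZ hZ0; linarith)
  have ht1' : 1 ≤ t := by exact_mod_cast ht1
  set M : ℕ := t * q with hM
  have htM : (t : ℝ) ≤ M := by
    rw [hM]; push_cast
    have : (1 : ℝ) ≤ q := by exact_mod_cast hq
    nlinarith only [this]
  have hMbig : (K * B / δ) ^ E ≤ M := by
    have h2 : 0 ≤ q * Z * Z := by (clear hk hE R hR hw hdeg hlead hcont ha hq0 hδ hδ0 hδ1 B hB1 hB hZ hZ0 t ht ht1 ht1' M hM htM; positivity)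
    linarith
  have hMbig2 : q * Z * Z < M := by
    have : 0 ≤ (K * B / δ) ^ E := by (clear hk hE R hR hw hdeg hlead hcont ha hq0 hδ hδ0 hδ1 hB Z hZ hZ0 t ht ht1 ht1' M hM htM hMbig; positivity)
    (clear hk hE R hR hw hdeg hlead hcont ha hq0 hδ hδ0 hδ1 hB hZ hZ0 ht1 ht1' hMbig; linarith)
  have hsumM := full_sum H a q
  have hsum : δ * M ≤ ‖∑ n ∈ Finset.Icc 1 M, e ((a : ℝ) / q * ((H.eval (n : ℤ) : ℤ) : ℝ))‖ := by
    rw [hM, hsumM t, norm_mul, Complex.norm_natCast, hδ]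
    push_cast
    apply le_of_eq
    field_simp
  obtain ⟨q', a', hq'1, hq'2, hq'3⟩ := hw H M δ ((a : ℝ) / q) B hdeg hlead hcont hδ0 hδ1 hB1 hB
    hMbig hsum
  have hq'0 : (0 : ℝ) < q' := by exact_mod_cast hq'1
  have hMle : Z / (H.leadingCoeff * (M : ℝ) ^ k) ≤ Z / M := by
    apply div_le_div_of_nonneg_left hZ0.le (by linarith only [ht1, htM])
    have h1 : (1 : ℝ) ≤ H.leadingCoeff := by exact_mod_cast hlead
    have hM1 : (1 : ℝ) ≤ M := by linarith only [ht1, htM]
    have h2 : (M : ℝ) ≤ (M : ℝ) ^ k := by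
      calc (M : ℝ) = (M : ℝ) ^ 1 := (pow_one _).symm
        _ ≤ (M : ℝ) ^ k := pow_le_pow_right₀ hM1 hk
    nlinarith only [h2, h1]
  have hM0 : (0 : ℝ) < M := by linarith only [ht1, htM]
  have hlt : |((a * q' - a' * q : ℤ) : ℝ)| < 1 := by
    have h1 : ((a * q' - a' * q : ℤ) : ℝ) = (a / q - a' / q') * (q * q') := by
      push_cast
      (clear * - hq'1 hq; field_simp)
    rw [h1, abs_mul, abs_of_pos (by positivity : (0 : ℝ) < q * q')]
    calc |(a : ℝ) / q - a' / q'| * (q * q') ≤ (Z / M) * (q * Z) := by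
          apply mul_le_mul (hq'3.trans hMle) _ (by (clear * - hq hq'1; positivity)) (by (clear hk hE R hR hw hdeg hlead hcont ha hq0 hδ hδ0 hδ1 hB hZ hZ0 hM htM hMbig hMbig2 hsumM hsum q' a' hq'1 hq'2 hq'3 hq'0 hMle hM0 h1; positivity))
          exact mul_le_mul_of_nonneg_left hq'2 hq0.le
      _ = q * Z * Z / M := by ring
      _ < 1 := by rw [div_lt_one hM0]; exact hMbig2
  have hzero : a * q' - a' * q = 0 := by
    have h1 : |(a * q' - a' * q : ℤ)| < 1 := by exact_mod_cast hlt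
    exact Int.abs_lt_one_iff.1 h1
  have hdvd : (q : ℤ) ∣ (q' : ℤ) := by
    apply ha.symm.dvd_of_dvd_mul_left
    exact ⟨a', by linear_combination hzero⟩
  have hqq : q ≤ q' := Nat.le_of_dvd (by (clear * - hq'1; omega)) (by exact_mod_cast hdvd)
  have hqZ : (q : ℝ) ≤ Z := by
    have : (q : ℝ) ≤ q' := by exact_mod_cast hqq
    exact this.trans hq'2
  have hδE : δ ^ E * q ≤ (K : ℝ) ^ E := by
    calc δ ^ E * q ≤ δ ^ E * Z := mul_le_mul_of_nonneg_left hqZ (by (clear hk hE R hR K hK hw hdeg hlead hcont ha hq0 hδ hδ0 hδ1 B hB1 hB Z hZ hZ0 t ht ht1 ht1' M hM htM hMbig hMbig2 hsumM hsum q' a' hq'1 hq'2 hq'3 hq'0 hMle hM0 hlt hzero hdvd hqq hqZ; positivity))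
      _ = (K : ℝ) ^ E := by
        rw [hZ, ← mul_pow, ← mul_div_assoc, mul_div_cancel_left₀ _ hδ0.ne']
  have h5 : ‖ecs H a q‖ = δ * q := by rw [hδ]; (clear hk hE R hR K hK hw hdeg hlead hcont ha hq0 δ hδ hδ0 hδ1 B hB1 hB Z hZ hZ0 t ht ht1 ht1' M hM htM hMbig hMbig2 hsumM hsum q' a' hq'1 hq'2 hq'3 hq'0 hMle hM0 hlt hzero hdvd hqq hqZ hδE; field_simp)
  rw [h5, mul_pow]
  calc δ ^ E * (q : ℝ) ^ E * q = (δ ^ E * q) * (q : ℝ) ^ E := by ring
    _ ≤ (K : ℝ) ^ E * (q : ℝ) ^ E := mul_le_mul_of_nonneg_right hδE (by positivity)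

lemma ecs_congr (H : ℤ[X]) (a : ℤ) (q q' : ℕ) [NeZero q] [NeZero q'] (h : q = q') :
    ecs H a q = ecs H a q' := by
  subst h; rfl

/-- The bound for prime powers. -/
noncomputable def kapf (k E K p0 : ℕ) (p j : ℕ) : ℝ :=
  min 1 (min (K * (p : ℝ) ^ (-(j : ℝ) / E))
    (if p0 < p then (if j = 1 then k / Real.sqrt p else k / p) else 1))

lemma kapf_nonneg (k E K p0 p j : ℕ) : 0 ≤ kapf k E K p0 p j := by
  unfold kapf
  refine le_min zero_le_one (le_min (by positivity) ?_)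
  split_ifs <;> positivity

lemma kapf_le_one (k E K p0 p j : ℕ) : kapf k E K p0 p j ≤ 1 := min_le_left _ _

lemma nc_of_content (H : ℤ[X]) (R p : ℕ) [Fact p.Prime] (hR : 1 ≤ R) (hp : R < p)
    (hcont : ∀ g : ℤ, (∀ j : ℕ, 1 ≤ j → g ∣ H.coeff j) → g ∣ (R : ℤ)) : NC H p := by
  unfold NC
  by_contra hcon
  have h0 : (H.map (Int.castRingHom (ZMod p))).natDegree = 0 := by omega
  have h1 : (p : ℤ) ∣ (R : ℤ) := by
    apply hcont
    intro j hj
    have h2 : (H.map (Int.castRingHom (ZMod p))).coeff j = 0 :=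
      coeff_eq_zero_of_natDegree_lt (by omega)
    rw [coeff_map] at h2
    exact (ZMod.intCast_zmod_eq_zero_iff_dvd _ p).1 h2
  have h2 : p ∣ R := by exact_mod_cast h1
  exact absurd (Nat.le_of_dvd (by omega) h2) (by omega)

lemma prime_pow_bound (k E K R p0 : ℕ) (hE : 1 ≤ E) (hR : 1 ≤ R) (hp0k : k ≤ p0)
    (hp0R : R ≤ p0) (H : ℤ[X]) (hdeg : H.natDegree = k)
    (hcont : ∀ g : ℤ, (∀ j : ℕ, 1 ≤ j → g ∣ H.coeff j) → g ∣ (R : ℤ))
    (hgen : ∀ (q : ℕ) [NeZero q] (a : ℤ), IsCoprime a (q : ℤ) →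
      ‖ecs H a q‖ ^ E * q ≤ (K : ℝ) ^ E * (q : ℝ) ^ E)
    (p j : ℕ) (hp : p.Prime) (hj : 1 ≤ j) [NeZero (p ^ j)] (a : ℤ)
    (ha : IsCoprime a ((p ^ j : ℕ) : ℤ)) :
    ‖ecs H a (p ^ j)‖ ≤ kapf k E K p0 p j * ((p ^ j : ℕ) : ℝ) := by
  have : Fact p.Prime := ⟨hp⟩
  have hp0' : (0 : ℝ) < p := by exact_mod_cast hp.pos
  set q : ℕ := p ^ j with hq
  have hq0 : (0 : ℝ) < (q : ℝ) := by rw [hq]; push_cast; (clear * - hp0'; positivity)
  rw [← div_le_iff₀ hq0]
  unfold kapf
  refine le_min ?_ (le_min ?_ ?_)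
  · rw [div_le_one hq0]; exact norm_ecs_le H a q
  · have h1 := hgen q a ha
    have h2 : (‖ecs H a q‖ / q) ^ E ≤ (K * (p : ℝ) ^ (-(j : ℝ) / E)) ^ E := by
      rw [div_pow, mul_pow, div_le_iff₀ (by (clear * - hq0; positivity))]
      have hE0 : (E : ℝ) ≠ 0 := by exact_mod_cast (by omega : E ≠ 0)
      have h3 : ((p : ℝ) ^ (-(j : ℝ) / E)) ^ E = (q : ℝ)⁻¹ := by
        rw [← Real.rpow_natCast, ← Real.rpow_mul hp0'.le, div_mul_cancel₀ _ hE0,
          Real.rpow_neg hp0'.le, Real.rpow_natCast, hq]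
        push_cast
        rfl
      rw [h3, mul_assoc, inv_mul_eq_div, ← mul_div_assoc, le_div_iff₀ hq0]
      exact h1
    exact le_of_pow_le_pow_left₀ (by omega) (by (clear * - hp0'; positivity)) h2
  · have hndvd : ¬ (p : ℤ) ∣ a := by
      intro hd
      have h1 : IsCoprime a (p : ℤ) := by
        apply ha.of_isCoprime_of_dvd_right
        rw [hq]
        push_cast
        exact dvd_pow_self _ (by omega)
      have h2 := h1.isUnit_of_dvd' hd dvd_rfl
      have h3 := Int.isUnit_iff.1 h2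
      have h4 := hp.two_le
      omega
    split_ifs with hpp hj1
    · have hnc := nc_of_content H R p hR (by omega) hcont
      have h5 := ecs_prime H k p hdeg.le (by omega) hnc a hndvd
      have hqp : q = p := by rw [hq, hj1, pow_one]
      have h6 : ecs H a q = ecs H a p := ecs_congr H a q p hqp
      have hsq : Real.sqrt p * Real.sqrt p = p := Real.mul_self_sqrt hp0'.le
      have hs0 : 0 < Real.sqrt p := Real.sqrt_pos.2 hp0'
      rw [h6, div_le_div_iff₀ hq0 hs0]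
      have h7 : (q : ℝ) = p := by exact_mod_cast hqp
      rw [h7]
      calc ‖ecs H a p‖ * Real.sqrt p ≤ (k * Real.sqrt p) * Real.sqrt p :=
            mul_le_mul_of_nonneg_right h5 hs0.le
        _ = k * (Real.sqrt p * Real.sqrt p) := by ring
        _ = k * p := by rw [hsq]
    · have hnc := nc_of_content H R p hR (by omega) hcont
      have h5 := ecs_prime_pow H k p j (by omega) hdeg.le (by omega) hnc a hndvd
      rw [div_le_div_iff₀ hq0 hp0']
      have h6 : (q : ℝ) = (p : ℝ) ^ (j - 1) * p := by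
        rw [hq, ← pow_succ]; push_cast; congr 1; omega
      rw [h6]
      calc ‖ecs H a q‖ * p ≤ (k * (p : ℝ) ^ (j - 1)) * p :=
            mul_le_mul_of_nonneg_right h5 hp0'.le
        _ = k * ((p : ℝ) ^ (j - 1) * p) := by ring
    · rw [div_le_one hq0]; exact norm_ecs_le H a q

/-- The product bound. -/
lemma prod_bound (H : ℤ[X]) (kap : ℕ → ℕ → ℝ) (hk0 : ∀ p j, 0 ≤ kap p j)
    (hpp : ∀ (p j : ℕ) (_ : p.Prime) (_ : 1 ≤ j) [NeZero (p ^ j)] (a : ℤ),
      IsCoprime a ((p ^ j : ℕ) : ℤ) → ‖ecs H a (p ^ j)‖ ≤ kap p j * ((p ^ j : ℕ) : ℝ)) :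
    ∀ (q : ℕ) (_ : NeZero q) (a : ℤ), IsCoprime a (q : ℤ) →
      ‖ecs H a q‖ ≤ (∏ p ∈ q.primeFactors, kap p (q.factorization p)) * q := by
  intro q
  induction q using Nat.recOnPosPrimePosCoprime with
  | zero =>
    intro h0
    exact absurd rfl (NeZero.ne 0)
  | one =>
    intro _ a _
    simp only [Nat.primeFactors_one, Finset.prod_empty, one_mul]
    exact norm_ecs_le H a 1
  | prime_pow p j hp hj =>
    intro hne a ha
    rw [Nat.primeFactors_prime_pow (by omega) hp, Finset.prod_singleton, hp.factorization_pow,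
      Finsupp.single_eq_same]
    exact hpp p j hp hj a ha
  | coprime q1 q2 h1 h2 hc ih1 ih2 =>
    intro hne a ha
    have : NeZero q1 := ⟨by omega⟩
    have : NeZero q2 := ⟨by omega⟩
    have hcz : IsCoprime (q1 : ℤ) (q2 : ℤ) := Nat.isCoprime_iff_coprime.2 hc
    obtain ⟨u2, u1, hu⟩ := hcz
    have ha1 : IsCoprime a (q1 : ℤ) := by
      apply ha.of_isCoprime_of_dvd_right; push_cast; exact dvd_mul_right _ _
    have ha2 : IsCoprime a (q2 : ℤ) := by
      apply ha.of_isCoprime_of_dvd_right; push_cast; exact dvd_mul_left _ _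
    have hu1 : IsCoprime u1 (q1 : ℤ) := ⟨q2, u2, by linear_combination hu⟩
    have hu2 : IsCoprime u2 (q2 : ℤ) := ⟨q1, u1, by linear_combination hu⟩
    rw [ecs_mul H a q1 q2 hc u1 u2 (by linear_combination hu), norm_mul]
    have i1 := ih1 inferInstance (a * u1) (ha1.mul_left hu1)
    have i2 := ih2 inferInstance (a * u2) (ha2.mul_left hu2)
    rw [hc.primeFactors_mul, Finset.prod_union hc.disjoint_primeFactors]
    have e1 : ∏ p ∈ q1.primeFactors, kap p ((q1 * q2).factorization p) =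
        ∏ p ∈ q1.primeFactors, kap p (q1.factorization p) := by
      refine Finset.prod_congr rfl fun p hp => ?_
      rw [Nat.factorization_mul_apply_of_coprime hc]
      have : q2.factorization p = 0 := by
        apply Nat.factorization_eq_zero_of_not_dvd
        intro hd
        have h3 := Nat.prime_of_mem_primeFactors hp
        have h4 := Nat.dvd_of_mem_primeFactors hp
        have h5 : p ∣ 1 := by rw [← hc.gcd_eq_one]; exact Nat.dvd_gcd h4 hd
        exact h3.one_lt.ne' (Nat.dvd_one.1 h5)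
      rw [this, add_zero]
    have e2 : ∏ p ∈ q2.primeFactors, kap p ((q1 * q2).factorization p) =
        ∏ p ∈ q2.primeFactors, kap p (q2.factorization p) := by
      refine Finset.prod_congr rfl fun p hp => ?_
      rw [Nat.factorization_mul_apply_of_coprime hc]
      have : q1.factorization p = 0 := by
        apply Nat.factorization_eq_zero_of_not_dvd
        intro hd
        have h3 := Nat.prime_of_mem_primeFactors hp
        have h4 := Nat.dvd_of_mem_primeFactors hp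
        have h5 : p ∣ 1 := by rw [← hc.gcd_eq_one]; exact Nat.dvd_gcd hd h4
        exact h3.one_lt.ne' (Nat.dvd_one.1 h5)
      rw [this, zero_add]
    rw [e1, e2]
    push_cast
    calc ‖ecs H (a * u1) q1‖ * ‖ecs H (a * u2) q2‖
        ≤ ((∏ p ∈ q1.primeFactors, kap p (q1.factorization p)) * q1) *
          ((∏ p ∈ q2.primeFactors, kap p (q2.factorization p)) * q2) := by
          apply mul_le_mul i1 i2 (norm_nonneg _)
          have : 0 ≤ ∏ p ∈ q1.primeFactors, kap p (q1.factorization p) :=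
            Finset.prod_nonneg fun p _ => hk0 _ _
          (clear * - this h1; positivity)
      _ = _ := by ring

/-- Complete exponential sums of the auxiliary polynomials. -/
theorem complete_sums (k : ℕ) (hk : 1 ≤ k) : ∃ E : ℕ, 1 ≤ E ∧ ∀ R : ℕ, 1 ≤ R →
    ∃ (K p0 : ℕ) (kap : ℕ → ℕ → ℝ), 1 ≤ K ∧ (∀ p j, 0 ≤ kap p j) ∧ (∀ p j, kap p j ≤ 1) ∧
      (∀ p j, p.Prime → 1 ≤ j → kap p j ≤ K * (p : ℝ) ^ (-(j : ℝ) / E)) ∧
      (∀ p, p.Prime → p0 < p → kap p 1 ≤ k / Real.sqrt p) ∧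
      (∀ p j, p.Prime → p0 < p → 2 ≤ j → kap p j ≤ k / p) ∧
      ∀ (H : ℤ[X]), H.natDegree = k → 0 < H.leadingCoeff →
        (∀ g : ℤ, (∀ j : ℕ, 1 ≤ j → g ∣ H.coeff j) → g ∣ (R : ℤ)) →
        ∀ (q : ℕ) (a : ℤ), 1 ≤ q → IsCoprime a (q : ℤ) →
          ‖∑ x ∈ Finset.range q, e (a * ((H.eval (x : ℤ) : ℤ) : ℝ) / q)‖ ≤
            (∏ p ∈ q.primeFactors, kap p (q.factorization p)) * q := by
  obtain ⟨E, hE, hgen⟩ := complete_general k hk
  refine ⟨E, hE, fun R hR => ?_⟩
  obtain ⟨K, hK, hgen⟩ := hgen R hR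
  refine ⟨K, max k R, kapf k E K (max k R), hK, fun p j => kapf_nonneg _ _ _ _ _ _,
    fun p j => kapf_le_one _ _ _ _ _ _, ?_, ?_, ?_, ?_⟩
  · intro p j _ _
    unfold kapf
    exact (min_le_right _ _).trans (min_le_left _ _)
  · intro p _ hp
    unfold kapf
    refine (min_le_right _ _).trans ((min_le_right _ _).trans ?_)
    rw [if_pos hp, if_pos rfl]
  · intro p j _ hp hj
    unfold kapf
    refine (min_le_right _ _).trans ((min_le_right _ _).trans ?_)
    rw [if_pos hp, if_neg (by omega)]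
  · intro H hdeg hlead hcont q a hq ha
    have : NeZero q := ⟨by omega⟩
    rw [sum_range_eq_ecs]
    exact prod_bound H _ (fun p j => kapf_nonneg _ _ _ _ _ _)
      (fun p j hp hj _ a ha => prime_pow_bound k E K R (max k R) hE hR (le_max_left _ _)
        (le_max_right _ _) H hdeg hcont (fun q _ a ha => hgen H hdeg hlead hcont q a ha)
        p j hp hj a ha) q inferInstance a ha

end Vale.Agent.P042
end
end
end

section

section

section

set_option autoImplicit false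

namespace Vale.Agent.P042

open Polynomial

/-- one-step differences of a polynomial on `[0, M]` -/
lemma eval_step_le {k : ℕ} (hk : 1 ≤ k) {H : ℤ[X]} {M : ℕ} {B : ℝ} (hdeg : H.natDegree = k)
    (hlead : 0 < H.leadingCoeff) (hcoef : ∀ j : ℕ, |(H.coeff j : ℝ)| ≤ B) (hBM : B ≤ M)
    {n : ℕ} (hn : n + 1 ≤ M) :
    |((H.eval ((n : ℤ) + 1) - H.eval (n : ℤ) : ℤ) : ℝ)| ≤
      (k : ℝ) ^ 2 * H.leadingCoeff * (M : ℝ) ^ (k - 1) := by
  have hM1 : (1 : ℝ) ≤ M := by
    have : 1 ≤ M := by omega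
    exact_mod_cast this
  have hl1 : (1 : ℝ) ≤ H.leadingCoeff := by exact_mod_cast hlead
  have hexp : ((H.eval ((n : ℤ) + 1) - H.eval (n : ℤ) : ℤ) : ℝ) =
      ∑ j ∈ Finset.range (k + 1), (H.coeff j : ℝ) * (((n : ℝ) + 1) ^ j - (n : ℝ) ^ j) := by
    rw [eval_eq_sum_range, eval_eq_sum_range, hdeg]
    push_cast
    rw [← Finset.sum_sub_distrib]
    apply Finset.sum_congr rfl
    intro j _
    ring
  rw [hexp, Finset.sum_range_succ', pow_zero, pow_zero, sub_self, mul_zero, add_zero]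
  calc |∑ j ∈ Finset.range k, (H.coeff (j + 1) : ℝ) * (((n : ℝ) + 1) ^ (j + 1) - (n : ℝ) ^ (j + 1))|
      ≤ ∑ j ∈ Finset.range k,
        |(H.coeff (j + 1) : ℝ) * (((n : ℝ) + 1) ^ (j + 1) - (n : ℝ) ^ (j + 1))| :=
        Finset.abs_sum_le_sum_abs _ _
    _ ≤ ∑ j ∈ Finset.range k, (k : ℝ) * H.leadingCoeff * (M : ℝ) ^ (k - 1) := by
        apply Finset.sum_le_sum
        intro j hj
        have hjk : j < k := Finset.mem_range.1 hj
        rw [abs_mul]
        have hn0 : (0 : ℝ) ≤ n := Nat.cast_nonneg n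
        have hnM : (n : ℝ) + 1 ≤ M := by exact_mod_cast hn
        have h1 : |((n : ℝ) + 1) ^ (j + 1) - (n : ℝ) ^ (j + 1)| ≤ (k : ℝ) * (M : ℝ) ^ j := by
          rw [abs_of_nonneg (sub_nonneg.2 (pow_le_pow_left₀ hn0 (by linarith only []) _))]
          have hgeom := geom_sum₂_mul ((n : ℝ) + 1) (n : ℝ) (j + 1)
          rw [← hgeom]
          have : (n : ℝ) + 1 - n = 1 := by ring
          rw [this, mul_one]
          calc ∑ i ∈ Finset.range (j + 1), ((n : ℝ) + 1) ^ i * (n : ℝ) ^ (j + 1 - 1 - i)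
              ≤ ∑ i ∈ Finset.range (j + 1), (M : ℝ) ^ j := by
                apply Finset.sum_le_sum
                intro i hi
                have hij : i ≤ j := Nat.lt_succ_iff.1 (Finset.mem_range.1 hi)
                calc ((n : ℝ) + 1) ^ i * (n : ℝ) ^ (j + 1 - 1 - i)
                    ≤ (M : ℝ) ^ i * (M : ℝ) ^ (j + 1 - 1 - i) := by
                      gcongr
                      linarith only [hn]
                  _ = (M : ℝ) ^ j := by
                      rw [← pow_add]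
                      congr 1
                      omega
            _ = ((j : ℝ) + 1) * (M : ℝ) ^ j := by
                rw [Finset.sum_const, Finset.card_range, nsmul_eq_mul]
                push_cast
                ring
            _ ≤ (k : ℝ) * (M : ℝ) ^ j := by
                gcongr
                exact_mod_cast hjk
        rcases Nat.lt_or_ge (j + 1) k with hjk' | hjk'
        · -- lower coefficients
          calc |(H.coeff (j + 1) : ℝ)| * |((n : ℝ) + 1) ^ (j + 1) - (n : ℝ) ^ (j + 1)|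
              ≤ M * ((k : ℝ) * (M : ℝ) ^ j) := by
                gcongr
                exact (hcoef (j + 1)).trans hBM
            _ = (k : ℝ) * (M : ℝ) ^ (j + 1) := by ring
            _ ≤ (k : ℝ) * (M : ℝ) ^ (k - 1) :=
                mul_le_mul_of_nonneg_left (pow_le_pow_right₀ hM1 (by omega)) (by positivity)
            _ = (k : ℝ) * 1 * (M : ℝ) ^ (k - 1) := by ring
            _ ≤ (k : ℝ) * H.leadingCoeff * (M : ℝ) ^ (k - 1) := by
                (clear * - hl1 hk hM1; gcongr)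
        · have hj1 : j + 1 = k := by omega
          have hjm : j = k - 1 := by omega
          have hc : H.coeff (j + 1) = H.leadingCoeff := by
            rw [hj1, leadingCoeff, hdeg]
          rw [hc, abs_of_pos (by linarith only [hl1])]
          calc (H.leadingCoeff : ℝ) * |((n : ℝ) + 1) ^ (j + 1) - (n : ℝ) ^ (j + 1)|
              ≤ (H.leadingCoeff : ℝ) * ((k : ℝ) * (M : ℝ) ^ j) := by
                gcongr
            _ = (k : ℝ) * H.leadingCoeff * (M : ℝ) ^ (k - 1) := by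
                rw [hjm]
                ring
    _ = (k : ℝ) ^ 2 * H.leadingCoeff * (M : ℝ) ^ (k - 1) := by
        rw [Finset.sum_const, Finset.card_range, nsmul_eq_mul]
        ring

/-- telescoping differences -/
lemma eval_diff_le {H : ℤ[X]} {D : ℝ} {M : ℕ}
    (hstep : ∀ n : ℕ, n + 1 ≤ M → |((H.eval ((n : ℤ) + 1) - H.eval (n : ℤ) : ℤ) : ℝ)| ≤ D)
    (u x : ℕ) (hx : u + x ≤ M) :
    |((H.eval ((u + x : ℕ) : ℤ) : ℤ) : ℝ) - ((H.eval (u : ℤ) : ℤ) : ℝ)| ≤ x * D := by
  induction x with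
  | zero => simp
  | succ x ih =>
    have h1 := ih (by omega)
    have h2 := hstep (u + x) (by omega)
    have h3 : ((H.eval ((u + (x + 1) : ℕ) : ℤ) : ℤ) : ℝ) - ((H.eval (u : ℤ) : ℤ) : ℝ) =
        ((H.eval (((u + x : ℕ) : ℤ) + 1) - H.eval ((u + x : ℕ) : ℤ) : ℤ) : ℝ) +
        (((H.eval ((u + x : ℕ) : ℤ) : ℤ) : ℝ) - ((H.eval (u : ℤ) : ℤ) : ℝ)) := by
      have : ((u + (x + 1) : ℕ) : ℤ) = ((u + x : ℕ) : ℤ) + 1 := by push_cast; ring
      rw [this]
      push_cast
      ring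
    rw [h3]
    calc _ ≤ |((H.eval (((u + x : ℕ) : ℤ) + 1) - H.eval ((u + x : ℕ) : ℤ) : ℤ) : ℝ)| +
        |((H.eval ((u + x : ℕ) : ℤ) : ℤ) : ℝ) - ((H.eval (u : ℤ) : ℤ) : ℝ)| := abs_add_le _ _
      _ ≤ D + x * D := add_le_add h2 h1
      _ = ((x + 1 : ℕ) : ℝ) * D := by push_cast; ring

/-- `e (a * H(·) / q)` is `q`-periodic -/
lemma e_eval_periodic (H : ℤ[X]) (a : ℤ) (q : ℕ) (hq : 1 ≤ q) (x b : ℤ) :
    e (a * ((H.eval (q * b + x) : ℤ) : ℝ) / q) = e (a * ((H.eval x : ℤ) : ℝ) / q) := by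
  have hdvd : (q : ℤ) ∣ H.eval (q * b + x) - H.eval x := by
    have h1 : (q * b + x) - x ∣ H.eval (q * b + x) - H.eval x := sub_dvd_eval_sub _ _ _
    have h2 : (q * b + x) - x = (q : ℤ) * b := by ring
    rw [h2] at h1
    exact (Dvd.intro _ rfl).trans h1
  obtain ⟨t, ht⟩ := hdvd
  have hq0 : (q : ℝ) ≠ 0 := by
    have : q ≠ 0 := by omega
    exact_mod_cast this
  have h3 : (a : ℝ) * ((H.eval (q * b + x) : ℤ) : ℝ) / q =
      a * ((H.eval x : ℤ) : ℝ) / q + ((a * t : ℤ) : ℝ) := by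
    have : (H.eval (q * b + x) : ℤ) = H.eval x + q * t := by linarith only [ht]
    rw [this]
    push_cast
    field_simp
  rw [h3, e_add, e_int, mul_one]

/-- complete sums over any block -/
lemma block_complete (H : ℤ[X]) (a : ℤ) (q : ℕ) (hq : 1 ≤ q) (b : ℕ) :
    ∑ x ∈ Finset.range q, e (a * ((H.eval ((q * b + x + 1 : ℕ) : ℤ) : ℤ) : ℝ) / q) =
      ∑ x ∈ Finset.range q, e (a * ((H.eval (x : ℤ) : ℤ) : ℝ) / q) := by
  have h1 : ∀ x : ℕ, e (a * ((H.eval ((q * b + x + 1 : ℕ) : ℤ) : ℤ) : ℝ) / q) =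
      e (a * ((H.eval ((x + 1 : ℕ) : ℤ) : ℤ) : ℝ) / q) := by
    intro x
    have h0 : ((q * b + x + 1 : ℕ) : ℤ) = (q : ℤ) * (b : ℤ) + ((x + 1 : ℕ) : ℤ) := by
      push_cast
      ring
    rw [h0]
    exact e_eval_periodic H a q hq ((x + 1 : ℕ) : ℤ) b
  simp_rw [h1]
  have h2 := Finset.sum_range_succ (fun x : ℕ => e (a * ((H.eval (x : ℤ) : ℤ) : ℝ) / q)) q
  have h3 := Finset.sum_range_succ' (fun x : ℕ => e (a * ((H.eval (x : ℤ) : ℤ) : ℝ) / q)) q
  have h4 : e (a * ((H.eval (q : ℤ) : ℤ) : ℝ) / q) = e (a * ((H.eval ((0 : ℕ) : ℤ) : ℤ) : ℝ) / q) := by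
    have h0 : (q : ℤ) = (q : ℤ) * 1 + ((0 : ℕ) : ℤ) := by
      push_cast
      ring
    have := e_eval_periodic H a q hq ((0 : ℕ) : ℤ) 1
    rw [← h0] at this
    exact this
  rw [h2, h4] at h3
  exact (add_right_cancel h3).symm

/-- approximation of the sum over one block -/
lemma block_approx (H : ℤ[X]) (a : ℤ) (q : ℕ) (hq : 1 ≤ q) (b M : ℕ) (D η θ w : ℝ)
    (hθ : θ = a / q + η) (hbM : q * b + q ≤ M)
    (hstep : ∀ n : ℕ, n + 1 ≤ M → |((H.eval ((n : ℤ) + 1) - H.eval (n : ℤ) : ℤ) : ℝ)| ≤ D)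
    (hw : ‖∑ x ∈ Finset.range q, e (a * ((H.eval (x : ℤ) : ℤ) : ℝ) / q)‖ ≤ w * q) :
    ‖∑ x ∈ Finset.range q, e (θ * ((H.eval ((q * b + x + 1 : ℕ) : ℤ) : ℤ) : ℝ))‖ ≤
      w * q + q * (2 * Real.pi * |η| * (q * D)) := by
  have hD : 0 ≤ D := by
    have := hstep (q * b) (by omega)
    exact (abs_nonneg _).trans this
  set c : ℝ := ((H.eval ((q * b + 1 : ℕ) : ℤ) : ℤ) : ℝ) with hc
  have hsplit : ∑ x ∈ Finset.range q, e (θ * ((H.eval ((q * b + x + 1 : ℕ) : ℤ) : ℤ) : ℝ)) =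
      e (η * c) * ∑ x ∈ Finset.range q, e (a * ((H.eval ((q * b + x + 1 : ℕ) : ℤ) : ℤ) : ℝ) / q) +
      ∑ x ∈ Finset.range q, e (a * ((H.eval ((q * b + x + 1 : ℕ) : ℤ) : ℤ) : ℝ) / q) *
        (e (η * c) * (e (η * (((H.eval ((q * b + x + 1 : ℕ) : ℤ) : ℤ) : ℝ) - c)) - 1)) := by
    rw [Finset.mul_sum, ← Finset.sum_add_distrib]
    apply Finset.sum_congr rfl
    intro x _
    have h1 : θ * ((H.eval ((q * b + x + 1 : ℕ) : ℤ) : ℤ) : ℝ) =
        a * ((H.eval ((q * b + x + 1 : ℕ) : ℤ) : ℤ) : ℝ) / q +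
          (η * c + η * (((H.eval ((q * b + x + 1 : ℕ) : ℤ) : ℤ) : ℝ) - c)) := by
      rw [hθ]
      ring
    rw [h1, e_add, e_add]
    ring
  rw [hsplit]
  refine (norm_add_le _ _).trans (add_le_add ?_ ?_)
  · rw [norm_mul, norm_e, one_mul, block_complete H a q hq b]
    exact hw
  · calc _ ≤ ∑ x ∈ Finset.range q, ‖e (a * ((H.eval ((q * b + x + 1 : ℕ) : ℤ) : ℤ) : ℝ) / q) *
        (e (η * c) * (e (η * (((H.eval ((q * b + x + 1 : ℕ) : ℤ) : ℤ) : ℝ) - c)) - 1))‖ :=
          norm_sum_le _ _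
      _ ≤ ∑ x ∈ Finset.range q, (2 * Real.pi * |η| * (q * D)) := by
          apply Finset.sum_le_sum
          intro x hx
          have hxq : x < q := Finset.mem_range.1 hx
          rw [norm_mul, norm_mul, norm_e, norm_e, one_mul, one_mul]
          refine (norm_e_sub_one_le _).trans ?_
          rw [abs_mul, ← mul_assoc]
          have h2 := eval_diff_le hstep (q * b + 1) x (by omega)
          have h3 : q * b + 1 + x = q * b + x + 1 := by ring
          rw [h3] at h2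
          have hpi := Real.pi_pos
          have h4 : (x : ℝ) * D ≤ q * D := by
            (clear * - hxq hD; gcongr)
          gcongr
          exact h2.trans h4
      _ = q * (2 * Real.pi * |η| * (q * D)) := by
          rw [Finset.sum_const, Finset.card_range, nsmul_eq_mul]

/-- splitting `range (q * m)` into blocks -/
lemma sum_range_mul_blocks (f : ℕ → ℂ) (q m : ℕ) :
    ∑ n ∈ Finset.range (q * m), f n = ∑ b ∈ Finset.range m, ∑ x ∈ Finset.range q, f (q * b + x) := by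
  induction m with
  | zero => simp
  | succ m ih =>
    rw [Nat.mul_succ, Finset.sum_range_add, ih, Finset.sum_range_succ]

/-- Major arc approximation. -/
lemma major_bound (H : ℤ[X]) (a : ℤ) (q : ℕ) (hq : 1 ≤ q) (M : ℕ) (D η θ w : ℝ)
    (hθ : θ = a / q + η)
    (hstep : ∀ n : ℕ, n + 1 ≤ M → |((H.eval ((n : ℤ) + 1) - H.eval (n : ℤ) : ℤ) : ℝ)| ≤ D)
    (hw : ‖∑ x ∈ Finset.range q, e (a * ((H.eval (x : ℤ) : ℤ) : ℝ) / q)‖ ≤ w * q) :
    ‖∑ n ∈ Finset.Icc 1 M, e (θ * ((H.eval (n : ℤ) : ℤ) : ℝ))‖ ≤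
      w * M + M * (2 * Real.pi * |η| * (q * |D|)) + q := by
  have hq0 : (0 : ℝ) < q := by exact_mod_cast hq
  have hw0 : 0 ≤ w := by
    have h1 : 0 ≤ w * q := (norm_nonneg _).trans hw
    exact nonneg_of_mul_nonneg_left h1 hq0
  have h1 : ∑ n ∈ Finset.Icc 1 M, e (θ * ((H.eval (n : ℤ) : ℤ) : ℝ)) =
      ∑ n ∈ Finset.range M, e (θ * ((H.eval ((n + 1 : ℕ) : ℤ) : ℤ) : ℝ)) := by
    rw [← Finset.Ico_add_one_right_eq_Icc, Finset.sum_Ico_eq_sum_range]
    apply Finset.sum_congr rfl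
    intro n _
    rw [add_comm 1 n]
  rw [h1]
  set m := M / q with hm
  have hMd : M = q * m + M % q := (Nat.div_add_mod M q).symm
  have hqm : q * m ≤ M := Nat.mul_div_le M q
  have h2 : ∑ n ∈ Finset.range M, e (θ * ((H.eval ((n + 1 : ℕ) : ℤ) : ℤ) : ℝ)) =
      (∑ b ∈ Finset.range m, ∑ x ∈ Finset.range q,
        e (θ * ((H.eval ((q * b + x + 1 : ℕ) : ℤ) : ℤ) : ℝ))) +
      ∑ x ∈ Finset.range (M % q), e (θ * ((H.eval ((q * m + x + 1 : ℕ) : ℤ) : ℤ) : ℝ)) := by
    conv_lhs => rw [hMd, Finset.sum_range_add]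
    rw [sum_range_mul_blocks]
  rw [h2]
  refine (norm_add_le _ _).trans (add_le_add ?_ ?_)
  · calc _ ≤ ∑ b ∈ Finset.range m, ‖∑ x ∈ Finset.range q,
        e (θ * ((H.eval ((q * b + x + 1 : ℕ) : ℤ) : ℤ) : ℝ))‖ := norm_sum_le _ _
      _ ≤ ∑ b ∈ Finset.range m, (w * q + q * (2 * Real.pi * |η| * (q * |D|))) := by
          apply Finset.sum_le_sum
          intro b hb
          have hbm : b < m := Finset.mem_range.1 hb
          have hbM : q * b + q ≤ M := by
            calc q * b + q = q * (b + 1) := by ring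
              _ ≤ q * m := Nat.mul_le_mul_left q hbm
              _ ≤ M := hqm
          exact block_approx H a q hq b M |D| η θ w hθ hbM
            (fun n hn => (hstep n hn).trans (le_abs_self D)) hw
      _ = (m * q) * (w + 2 * Real.pi * |η| * (q * |D|)) := by
          rw [Finset.sum_const, Finset.card_range, nsmul_eq_mul]
          ring
      _ ≤ M * (w + 2 * Real.pi * |η| * (q * |D|)) := by
          have hpi := Real.pi_pos
          gcongr
          have : m * q ≤ M := by rw [mul_comm]; exact hqm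
          exact_mod_cast this
      _ = _ := by ring
  · calc _ ≤ ∑ x ∈ Finset.range (M % q),
        ‖e (θ * ((H.eval ((q * m + x + 1 : ℕ) : ℤ) : ℤ) : ℝ))‖ := norm_sum_le _ _
      _ = ((M % q : ℕ) : ℝ) := by
          simp_rw [norm_e]
          rw [Finset.sum_const, Finset.card_range, nsmul_eq_mul, mul_one]
      _ ≤ q := by
          have : M % q ≤ q := (Nat.mod_lt M (by omega)).le
          exact_mod_cast this

/-- reduction of a fraction -/
lemma exists_reduced (q : ℕ) (a : ℤ) (hq : 1 ≤ q) :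
    ∃ (q' : ℕ) (a' : ℤ), 1 ≤ q' ∧ q' ≤ q ∧ IsCoprime a' (q' : ℤ) ∧ (a : ℝ) / q = a' / q' := by
  have hg0 : 0 < Int.gcd a q := Int.gcd_pos_of_ne_zero_right a (by exact_mod_cast (by omega : q ≠ 0))
  set g := Int.gcd a q with hg
  have hgq : g ∣ q := by
    have := Int.gcd_dvd_right a (q : ℤ)
    rw [← hg] at this
    exact_mod_cast this
  have hga : (g : ℤ) ∣ a := Int.gcd_dvd_left a (q : ℤ)
  obtain ⟨q', hq'⟩ := hgq
  obtain ⟨a', ha'⟩ := hga
  have hq'0 : q' ≠ 0 := by
    rintro rfl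
    simp at hq'
    omega
  have hg' : (g : ℝ) ≠ 0 := by exact_mod_cast hg0.ne'
  have hq'r : (q' : ℝ) ≠ 0 := by exact_mod_cast hq'0
  refine ⟨q', a', by omega, ?_, ?_, ?_⟩
  · rw [hq']
    exact Nat.le_mul_of_pos_left q' hg0
  · rw [Int.isCoprime_iff_gcd_eq_one]
    have h1 : Int.gcd a q = g * Int.gcd a' q' := by
      have h2 : (q : ℤ) = (g : ℤ) * (q' : ℤ) := by exact_mod_cast hq'
      conv_lhs => rw [ha', h2]
      rw [Int.gcd_mul_left, Int.natAbs_natCast]
    rw [← hg] at h1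
    exact Nat.eq_of_mul_eq_mul_left hg0 (by rw [← h1, mul_one])
  · have h2 : (q : ℝ) = (g : ℝ) * (q' : ℝ) := by exact_mod_cast hq'
    have h3 : (a : ℝ) = (g : ℝ) * (a' : ℝ) := by exact_mod_cast ha'
    rw [h2, h3]
    (clear * - hg' hq'r; field_simp)

/-- S2-T2: the minor/major arc dichotomy in the form needed by `circle_method`. -/
theorem major_arcs (k : ℕ) (hk : 1 ≤ k) : ∃ E : ℕ, 1 ≤ E ∧ ∀ R : ℕ, 1 ≤ R → ∃ K : ℕ, 1 ≤ K ∧
    ∀ (H : ℤ[X]) (M N Q : ℕ) (δ B : ℝ) (w : ℕ → ℝ), H.natDegree = k → 0 < H.leadingCoeff →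
    (∀ g : ℤ, (∀ j : ℕ, 1 ≤ j → g ∣ H.coeff j) → g ∣ (R : ℤ)) →
    0 < δ → δ ≤ 1 → 1 ≤ B → (∀ j : ℕ, |(H.coeff j : ℝ)| ≤ B) → (K * B / δ) ^ E ≤ M → 1 ≤ N →
    (∀ (q : ℕ) (a : ℤ), 1 ≤ q → q ≤ Q → IsCoprime a (q : ℤ) →
      ‖∑ x ∈ Finset.range q, e (a * ((H.eval (x : ℤ) : ℤ) : ℝ) / q)‖ ≤ w q * q) →
    (K / δ) ^ E ≤ Q → (K / δ) ^ E * N ≤ Q * (H.leadingCoeff * (M : ℝ) ^ k) →
    ∀ θ : ℝ, ‖∑ n ∈ Finset.Icc 1 M, e (θ * ((H.eval (n : ℤ) : ℤ) : ℝ))‖ ≤ δ * M ∨
      ∃ q : ℕ, 1 ≤ q ∧ q ≤ Q ∧ ∃ a : ℤ, IsCoprime a (q : ℤ) ∧ |θ - a / q| ≤ Q / N ∧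
        ‖∑ n ∈ Finset.Icc 1 M, e (θ * ((H.eval (n : ℤ) : ℤ) : ℝ))‖ ≤
          (w q + (K / δ) ^ E / M) * M := by
  obtain ⟨E, hE, hW⟩ := weyl_poly k hk
  refine ⟨2 * E, by omega, ?_⟩
  intro R hR
  obtain ⟨K, hK, hW'⟩ := hW R hR
  refine ⟨8 * k ^ 2 * K, ?_, ?_⟩
  · have : 1 ≤ k ^ 2 := Nat.one_le_pow _ _ hk
    nlinarith only [this, hK]
  intro H M N Q δ B w hdeg hlead hgcd hδ hδ1 hB hcoef hM hN hw hQ hQN θ
  by_cases hbig : δ * M ≤ ‖∑ n ∈ Finset.Icc 1 M, e (θ * ((H.eval (n : ℤ) : ℤ) : ℝ))‖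
  swap
  · left
    exact (not_le.1 hbig).le
  right
  have hKr : (1 : ℝ) ≤ K := by exact_mod_cast hK
  have hkr : (1 : ℝ) ≤ k := by exact_mod_cast hk
  have hk2 : (1 : ℝ) ≤ (k : ℝ) ^ 2 := one_le_pow₀ hkr
  have h8 : (8 : ℝ) ≤ 8 * (k : ℝ) ^ 2 := by linarith only [hk2]
  have hl1 : (1 : ℝ) ≤ H.leadingCoeff := by exact_mod_cast hlead
  have hcast : ((8 * k ^ 2 * K : ℕ) : ℝ) = 8 * (k : ℝ) ^ 2 * K := by push_cast; ring
  rw [hcast] at hM hQ hQN ⊢
  set T : ℝ := (K / δ) ^ E with hT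
  have hKδ : 1 ≤ K / δ := by
    rw [le_div_iff₀ hδ]
    linarith only [hδ1, hKr]
  have hT1 : 1 ≤ T := one_le_pow₀ hKδ
  have hT2 : 8 * (k : ℝ) ^ 2 * T ^ 2 ≤ (8 * (k : ℝ) ^ 2 * K / δ) ^ (2 * E) := by
    have h1 : (8 * (k : ℝ) ^ 2 * K / δ) ^ (2 * E) = (8 * (k : ℝ) ^ 2) ^ (2 * E) * T ^ 2 := by
      rw [hT, ← pow_mul, mul_div_assoc, mul_pow, mul_comm E 2]
    rw [h1]
    have h2 : 8 * (k : ℝ) ^ 2 ≤ (8 * (k : ℝ) ^ 2) ^ (2 * E) := by
      calc 8 * (k : ℝ) ^ 2 = (8 * (k : ℝ) ^ 2) ^ 1 := (pow_one _).symm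
        _ ≤ (8 * (k : ℝ) ^ 2) ^ (2 * E) := pow_le_pow_right₀ (by linarith only [hk2]) (by (clear * - hE; omega))
    gcongr
  have hT3 : T ≤ (8 * (k : ℝ) ^ 2 * K / δ) ^ (2 * E) := by
    refine le_trans ?_ hT2
    calc T = 1 * T := (one_mul T).symm
      _ ≤ (8 * (k : ℝ) ^ 2 * T) * T := by
        have : (1 : ℝ) ≤ 8 * (k : ℝ) ^ 2 * T := by nlinarith only [hk2, hT1]
        (clear * - this hK hδ; gcongr)
      _ = 8 * (k : ℝ) ^ 2 * T ^ 2 := by ring
  -- size of M
  have hKB : (1 : ℝ) ≤ 8 * (k : ℝ) ^ 2 * K * B / δ := by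
    rw [le_div_iff₀ hδ]
    have h1 : (1 : ℝ) ≤ 8 * (k : ℝ) ^ 2 * K := by nlinarith only [hk2, hKr]
    have h2 : (1 : ℝ) ≤ 8 * (k : ℝ) ^ 2 * K * B := by nlinarith only [hk2, hKr, hB, hcast]
    linarith only [hδ1, h2]
  have hMK : (K * B / δ) ^ E ≤ M := by
    refine le_trans ?_ hM
    have h1 : K * B / δ ≤ 8 * (k : ℝ) ^ 2 * K * B / δ := by
      gcongr
      nlinarith only [hk2]
    calc (K * B / δ) ^ E ≤ (8 * (k : ℝ) ^ 2 * K * B / δ) ^ E := by
          (clear * - hK hB hδ h1; gcongr)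
      _ ≤ (8 * (k : ℝ) ^ 2 * K * B / δ) ^ (2 * E) := pow_le_pow_right₀ hKB (by (clear * - hE; omega))
  have hBM : B ≤ M := by
    refine le_trans ?_ hM
    calc B ≤ 8 * (k : ℝ) ^ 2 * K * B / δ := by
          rw [le_div_iff₀ hδ]
          have h1 : (1 : ℝ) ≤ 8 * (k : ℝ) ^ 2 * K := by nlinarith only [hk2, hKr]
          nlinarith only [hδ1, hB, h1]
      _ = (8 * (k : ℝ) ^ 2 * K * B / δ) ^ 1 := (pow_one _).symm
      _ ≤ (8 * (k : ℝ) ^ 2 * K * B / δ) ^ (2 * E) := pow_le_pow_right₀ hKB (by omega)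
  have hM1 : (1 : ℝ) ≤ M := hB.trans hBM
  have hM0 : (0 : ℝ) < M := by linarith only [hB, hBM]
  obtain ⟨q0, a0, hq0, hq0T, hθ0⟩ := hW' H M δ θ B hdeg hlead hgcd hδ hδ1 hB hcoef hMK hbig
  rw [← hT] at hq0T hθ0
  obtain ⟨q, a, hq1, hqq0, hcop, hfrac⟩ := exists_reduced q0 a0 hq0
  rw [hfrac] at hθ0
  have hqT : (q : ℝ) ≤ T := le_trans (by exact_mod_cast hqq0) hq0T
  have hqQ : q ≤ Q := by
    have : (q : ℝ) ≤ Q := hqT.trans (hT3.trans hQ)
    exact_mod_cast this
  have hLM : 0 < H.leadingCoeff * (M : ℝ) ^ k := by (clear * - hlead hM1; positivity)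
  have hNr : (0 : ℝ) < N := by exact_mod_cast hN
  refine ⟨q, hq1, hqQ, a, hcop, ?_, ?_⟩
  · refine hθ0.trans ?_
    rw [div_le_div_iff₀ hLM hNr]
    refine le_trans ?_ hQN
    (clear * - hT3 hN; gcongr)
  · have hstep : ∀ n : ℕ, n + 1 ≤ M →
        |((H.eval ((n : ℤ) + 1) - H.eval (n : ℤ) : ℤ) : ℝ)| ≤
          (k : ℝ) ^ 2 * H.leadingCoeff * (M : ℝ) ^ (k - 1) :=
      fun n hn => eval_step_le hk hdeg hlead hcoef hBM hn
    have hmb := major_bound H a q hq1 M _ (θ - a / q) θ (w q) (by ring) hstep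
      (hw q a hq1 hqQ hcop)
    refine hmb.trans ?_
    have hD0 : 0 ≤ (k : ℝ) ^ 2 * H.leadingCoeff * (M : ℝ) ^ (k - 1) := by (clear * - hk hlead hM1; positivity)
    rw [abs_of_nonneg hD0]
    have hpi := Real.pi_lt_d2
    have hpi0 := Real.pi_pos
    have hMk : (M : ℝ) ^ k = M * (M : ℝ) ^ (k - 1) := by
      rw [← pow_succ', Nat.sub_add_cancel hk]
    have h1 : M * (2 * Real.pi * |θ - a / q| * (q * ((k : ℝ) ^ 2 * H.leadingCoeff *
        (M : ℝ) ^ (k - 1)))) ≤ 7 * (k : ℝ) ^ 2 * T ^ 2 := by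
      calc M * (2 * Real.pi * |θ - a / q| * (q * ((k : ℝ) ^ 2 * H.leadingCoeff *
            (M : ℝ) ^ (k - 1))))
          = (2 * Real.pi) * (k : ℝ) ^ 2 * q * (|θ - a / q| *
              (H.leadingCoeff * (M : ℝ) ^ k)) := by
            rw [hMk]
            ring
        _ ≤ 7 * (k : ℝ) ^ 2 * T * T := by
            have h2 : |θ - a / q| * (H.leadingCoeff * (M : ℝ) ^ k) ≤ T :=
              (le_div_iff₀ hLM).1 hθ0
            have h3 : 2 * Real.pi ≤ 7 := by linarith only [hpi]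
            (clear * - h3 hk hqT hq1 h2 hlead hM1 hK hδ; gcongr)
        _ = 7 * (k : ℝ) ^ 2 * T ^ 2 := by ring
    have h2 : (w q + (8 * (k : ℝ) ^ 2 * K / δ) ^ (2 * E) / M) * M =
        w q * M + (8 * (k : ℝ) ^ 2 * K / δ) ^ (2 * E) := by
      (clear * - hM1; field_simp)
    rw [h2]
    have h3 : (q : ℝ) ≤ (k : ℝ) ^ 2 * T ^ 2 := by
      calc (q : ℝ) ≤ T := hqT
        _ = 1 * (T * 1) := by ring
        _ ≤ (k : ℝ) ^ 2 * (T * T) := by (clear * - hk2 hT1 hK hδ hk; gcongr)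
        _ = (k : ℝ) ^ 2 * T ^ 2 := by ring
    linarith only [hT2, h1, h3]

end Vale.Agent.P042
end
end
end

section

section

section

set_option autoImplicit false

namespace Vale.Agent.P042

open Polynomial

/-- the parameter `Q` -/
def Qf (k E S K L : ℕ) : ℕ := 16 * S * 2 ^ k * (32 * K * 2 ^ L) ^ E

/-- the square root of the parameter `Y` -/
def yf (k L : ℕ) : ℕ := 14400000 * k * (L + 1)

/-- the bound for the modulus of one step -/
def gf (k E n2 S K n3 L : ℕ) : ℕ :=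
  Qf k E S K L ^ 2 * (3 ^ (n2 * yf k L) * Qf k E S K L ^ n2 * n3)

/-- the loss of length in one step -/
def Gf (k E n2 S K n3 L : ℕ) : ℕ := 16 * Qf k E S K L * gf k E n2 S K n3 L ^ k

def T1f (k E n2 S K n3 L : ℕ) : ℕ :=
  16 * Qf k E S K L * (gf k E n2 S K n3 L * Qf k E S K L ^ (4 * (L + 1)) +
    4000 * gf k E n2 S K n3 L ^ k)

def T2f (k E S K L : ℕ) : ℕ :=
  16 * S * 2 ^ k * S *
    ((32 * K * (S * S) * 2 ^ L) ^ E * (1000 * Qf k E S K L ^ 2) + 2 * k * 2 ^ L) ^ k

def Totf (k E n2 e0 S K n3 L : ℕ) : ℕ :=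
  (T1f k E n2 S K n3 L + T2f k E S K L) *
    Gf k E n2 S K n3 L ^ ((e0 + 1) * ((2000 + 1) * L))

lemma Qf_PBE (k E S K : ℕ) : PBE (1 + 2 * E) 1 (Qf k E S K) := by
  apply PBE.mul (PBE.const 1 (16 * S * 2 ^ k) le_rfl)
  exact PBE.pow (PBE.mul (PBE.const 1 (32 * K) le_rfl) PBE.two_pow) E

lemma three_PBE (k n2 : ℕ) : PBE (2 * (n2 * (28800000 * k))) 1 (fun L => 3 ^ (n2 * yf k L)) := by
  have h0 : PBE 2 0 (fun _ => 3) := ⟨0, fun L _ => by (clear * -; norm_num)⟩
  have h1 := PBE.powlin (n := 1) h0 (n2 * (28800000 * k)) (g := fun L => n2 * yf k L) (by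
    intro L hL
    unfold yf
    calc n2 * (14400000 * k * (L + 1)) ≤ n2 * (14400000 * k * (2 * L)) := by
          apply Nat.mul_le_mul_left
          exact Nat.mul_le_mul_left _ (by omega)
      _ = n2 * (28800000 * k) * L ^ 1 := by ring)
  simpa using h1

lemma gf_PBE (k E n2 S K n3 : ℕ) :
    PBE ((1 + 2 * E) * 2 + (2 * (n2 * (28800000 * k)) + (1 + 2 * E) * n2 + 1)) 1
      (gf k E n2 S K n3) := by
  apply PBE.mul ((Qf_PBE k E S K).pow 2)
  exact PBE.mul (PBE.mul (three_PBE k n2) ((Qf_PBE k E S K).pow n2)) (PBE.const 1 n3 le_rfl)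

lemma exists_PBE_tot (k E n2 e0 : ℕ) : ∃ c : ℕ, ∀ S K n3 : ℕ, PBE c 2 (Totf k E n2 e0 S K n3) := by
  obtain ⟨cg, hcg⟩ : ∃ c : ℕ, ∀ S K n3 : ℕ, PBE c 1 (gf k E n2 S K n3) :=
    ⟨_, fun S K n3 => gf_PBE k E n2 S K n3⟩
  obtain ⟨cq, hcq⟩ : ∃ c : ℕ, ∀ S K : ℕ, PBE c 1 (Qf k E S K) := ⟨_, fun S K => Qf_PBE k E S K⟩
  obtain ⟨cG, hcG⟩ : ∃ c : ℕ, ∀ S K n3 : ℕ, PBE c 1 (Gf k E n2 S K n3) :=
    ⟨_, fun S K n3 => ((PBE.const 1 16 le_rfl).mul (hcq S K)).mul ((hcg S K n3).pow k)⟩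
  obtain ⟨cp, hcp⟩ : ∃ c : ℕ, ∀ S K : ℕ, PBE c 2 (fun L => Qf k E S K L ^ (4 * (L + 1))) :=
    ⟨_, fun S K => PBE.powlin (n := 1) (hcq S K) 8 (g := fun L => 4 * (L + 1)) (by
      intro L hL
      rw [pow_one]
      omega)⟩
  obtain ⟨c1, hc1⟩ : ∃ c : ℕ, ∀ S K n3 : ℕ, PBE c 2 (T1f k E n2 S K n3) :=
    ⟨_, fun S K n3 => PBE.mul ((PBE.const 2 16 (by norm_num)).mul ((hcq S K).mono (by norm_num)))
      (PBE.add (((hcg S K n3).mono (by norm_num)).mul (hcp S K))
        ((PBE.const 2 4000 (by norm_num)).mul (((hcg S K n3).mono (by norm_num)).pow k)))⟩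
  have h2 : PBE 1 2 (fun L => 2 ^ L) := PBE.two_pow.mono (by norm_num)
  obtain ⟨c2, hc2⟩ : ∃ c : ℕ, ∀ S K : ℕ, PBE c 2 (T2f k E S K) :=
    ⟨_, fun S K => PBE.mul (PBE.const 2 (16 * S * 2 ^ k * S) (by norm_num))
      (PBE.pow (PBE.add (PBE.mul (PBE.pow (PBE.mul (PBE.const 2 (32 * K * (S * S)) (by norm_num)) h2) E)
        (PBE.mul (PBE.const 2 1000 (by norm_num)) (((hcq S K).mono (by norm_num)).pow 2)))
        (PBE.mul (PBE.const 2 (2 * k) (by norm_num)) h2)) k)⟩
  refine ⟨_, fun S K n3 => PBE.mul (PBE.add (hc1 S K n3) (hc2 S K)) (PBE.powlin (n := 1) (hcG S K n3)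
    ((e0 + 1) * 2001) (g := fun L => (e0 + 1) * ((2000 + 1) * L)) ?_)⟩
  intro L _
  apply le_of_eq
  ring

/-- the quantitative statement with powers of two; `c` depends only on the degree -/
theorem sqrt_pow_bound (k : ℕ) (hk : 1 ≤ k) : ∃ c : ℕ, ∀ h : ℤ[X], h.natDegree = k →
    0 < h.leadingCoeff → Intersective h →
    ∃ L0 : ℕ, ∀ (L N : ℕ) (A : Finset ℤ), L0 ≤ L → 2 ^ (c * L ^ 2) ≤ N →
      A ⊆ Finset.Icc (1 : ℤ) N → DiffFree h A → 2 ^ L * A.card < N := by
  obtain ⟨E, hE, hmajor0⟩ := major_arcs k hk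
  obtain ⟨E2, hE2, hcomp0⟩ := complete_sums k hk
  obtain ⟨C2, hC2, hcost0⟩ := cost_bound2 (k : ℝ) E2 (by positivity) hE2
  set n2 : ℕ := ⌈2 * C2⌉₊ with hn2
  set e0 : ℕ := k + k * E * k with he0
  obtain ⟨c, hc⟩ := exists_PBE_tot k E n2 e0
  refine ⟨c, ?_⟩
  intro h hdeg hpos hint
  have hk' : 1 ≤ h.natDegree := by rw [hdeg]; exact hk
  obtain ⟨lam, r, H, R, hR, hH, hmul, hdvd, hr, hrr, hgcd⟩ := exists_aux h hk' hpos hint
  have hA : AuxData h lam r H R := ⟨hR, hH, hmul, hdvd, hr, hrr, hgcd⟩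
  obtain ⟨K, hK, hmajor⟩ := hmajor0 R hR
  obtain ⟨K2, p0, kap, hK2, hk0, hk1, hkK, hkp1, hkpj, hkap⟩ := hcomp0 R hR
  obtain ⟨C3, hC3, hcost⟩ := hcost0 (K2 : ℝ) p0 (by (clear * - hK2; positivity))
  obtain ⟨S1, hS1, hcoef⟩ := hA.coeff_bound hk' hpos
  obtain ⟨S2, hS2, heval⟩ := hA.eval_bound hk' hpos
  obtain ⟨S, hSdef⟩ : ∃ S : ℕ, S = S1 + S2 := ⟨_, rfl⟩
  have hS : 1 ≤ S := by omega
  have hcoef' : ∀ d : ℕ, 1 ≤ d → (∀ j : ℕ, |(H d).coeff j| ≤ S * (H d).leadingCoeff) ∧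
      (H d).leadingCoeff ≤ S * (d : ℤ) ^ h.natDegree := by
    intro d hd
    have hl := hA.lead_pos hk' hpos d hd
    obtain ⟨h1, h2⟩ := hcoef d hd
    have hSS : (S1 : ℤ) ≤ S := by omega
    refine ⟨fun j => (h1 j).trans ?_, h2.trans ?_⟩
    · exact mul_le_mul_of_nonneg_right hSS hl.le
    · exact mul_le_mul_of_nonneg_right hSS (by (clear * - hd; positivity))
  have heval' : ∀ d : ℕ, 1 ≤ d → ∀ n : ℕ, 1 ≤ n →
      |(H d).eval (n : ℤ)| ≤ S * (H d).leadingCoeff * (n : ℤ) ^ h.natDegree := by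
    intro d hd n hn
    have hl := hA.lead_pos hk' hpos d hd
    have hSS : (S2 : ℤ) ≤ S := by omega
    refine (heval d hd n hn).trans ?_
    apply mul_le_mul_of_nonneg_right _ (by (clear * - hn; positivity))
    exact mul_le_mul_of_nonneg_right hSS hl.le
  -- H 1 = h
  have hH1 : H 1 = h := by
    have h1 := hH 1 (le_refl _)
    have h2 := (hdvd 1 (le_refl _)).2
    rw [one_pow, Nat.dvd_one] at h2
    have h3 := hr 1 (le_refl _)
    have h4 : r 1 = 0 := by omega
    rw [h2, h4] at h1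
    simpa only [Nat.cast_one, eq_intCast, Int.cast_one, one_mul, Int.cast_zero, zero_add, comp_X] using h1
  set n3 : ℕ := ⌈Real.exp (2 * C3)⌉₊ with hn3
  have hn3pos : 1 ≤ n3 := by
    rw [hn3]
    exact Nat.one_le_ceil_iff.mpr (by positivity)
  obtain ⟨L1, hL1⟩ := hc S K n3
  refine ⟨max (max L1 p0) 1, ?_⟩
  intro L N A hL hN hAN hfree
  have hL1' : L1 ≤ L := ((le_max_left _ _).trans (le_max_left _ _)).trans hL
  have hLp0 : p0 ≤ L := ((le_max_right _ _).trans (le_max_left _ _)).trans hL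
  have hLpos : 1 ≤ L := (le_max_right _ _).trans hL
  obtain ⟨Q, hQ⟩ : ∃ Q : ℕ, Q = Qf k E S K L := ⟨_, rfl⟩
  obtain ⟨y0, hy0⟩ : ∃ y : ℕ, y = yf k L := ⟨_, rfl⟩
  obtain ⟨g, hg⟩ : ∃ g : ℕ, g = gf k E n2 S K n3 L := ⟨_, rfl⟩
  have hQ1 : 1 ≤ Q := by
    apply Nat.one_le_iff_ne_zero.mpr
    rw [hQ, Qf]
    (clear * - hS hK; positivity)
  have hQr : (1 : ℝ) ≤ Q := by exact_mod_cast hQ1
  have hy1 : 1 ≤ y0 := by
    apply Nat.one_le_iff_ne_zero.mpr
    rw [hy0, yf]
    (clear * - hk hLpos; positivity)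
  have hyr : (1 : ℝ) ≤ y0 := by exact_mod_cast hy1
  have hyL : L ≤ y0 := by
    rw [hy0, yf]
    calc L ≤ L + 1 := by omega
      _ ≤ 14400000 * k * (L + 1) := Nat.le_mul_of_pos_left _ (by positivity)
  have hgeq : g = Q ^ 2 * (3 ^ (n2 * y0) * Q ^ n2 * n3) := by rw [hg, gf, ← hQ, ← hy0]
  have hg1 : 1 ≤ g := by
    apply Nat.one_le_iff_ne_zero.mpr
    rw [hgeq]
    (clear * - hQ1; positivity)
  have hGdef : Gf k E n2 S K n3 L = 16 * Q * g ^ k := by rw [Gf, ← hQ, ← hg]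
  have hG1 : 1 ≤ Gf k E n2 S K n3 L := Nat.one_le_iff_ne_zero.mpr (by rw [hGdef]; (clear * - hQ1 hg1; positivity))
  have hT2 : 1 ≤ T2f k E S K L := Nat.one_le_iff_ne_zero.mpr (by rw [T2f]; (clear * - hS hK hk; positivity))
  have hT1' : 1 ≤ T1f k E n2 S K n3 L + T2f k E S K L := by omega
  have hgG : g ≤ Gf k E n2 S K n3 L := by
    rw [hGdef]
    calc g ≤ g ^ k := Nat.le_self_pow (by (clear * - hk hdeg; omega)) _
      _ ≤ 16 * Q * g ^ k := Nat.le_mul_of_pos_left _ (by (clear * - hQ1; positivity))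
  -- the cost
  obtain ⟨Y, hY⟩ : ∃ Y : ℕ, Y = y0 ^ 2 := ⟨_, rfl⟩
  have hsqrtY : Real.sqrt Y = y0 := by
    rw [hY]
    push_cast
    exact Real.sqrt_sq (by (clear * - hy1; positivity))
  obtain ⟨X0, hX0def⟩ : ∃ X0 : ℝ, X0 = C2 * (y0 + Real.log Q) + C3 := ⟨_, rfl⟩
  have hlogQ : 0 ≤ Real.log Q := Real.log_nonneg hQr
  have hX0 : 0 < X0 := by
    rw [hX0def]
    (clear * - hC2 hy1 hC3; positivity)
  have hX : ∑ i ∈ items Y Q, kap i.1 i.2 * ((i.2 : ℝ) * Real.log i.1) ≤ X0 := by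
    have h1 := hcost kap hkK hkp1 hkpj Q Y hQ1 (items Y Q) (by
      intro i hi
      simp only [items, Finset.mem_filter] at hi
      exact hi.2)
    rw [hsqrtY] at h1
    rw [hX0def]
    exact h1
  have hg0 : (Q : ℝ) ^ 2 * Real.exp (2 * X0) ≤ g := by
    have h1 : 2 * X0 = (2 * C2) * y0 + (2 * C2) * Real.log Q + 2 * C3 := by rw [hX0def]; ring
    have h2 : 2 * C2 ≤ n2 := Nat.le_ceil _
    have h3 : Real.exp (2 * C3) ≤ n3 := Nat.le_ceil _
    have h4 : Real.exp ((2 * C2) * y0) ≤ 3 ^ (n2 * y0) := by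
      have h5 : Real.exp 1 ≤ 3 := by
        have := Real.exp_one_lt_d9
        linarith only [this]
      calc Real.exp ((2 * C2) * y0) ≤ Real.exp (n2 * y0) := by
            apply Real.exp_le_exp.mpr
            exact mul_le_mul_of_nonneg_right h2 (by (clear * - hy1; positivity))
        _ = (Real.exp 1) ^ (n2 * y0) := by
            rw [← Real.exp_nat_mul]
            push_cast
            ring_nf
        _ ≤ 3 ^ (n2 * y0) := pow_le_pow_left₀ (by positivity) h5 _
    have h6 : Real.exp ((2 * C2) * Real.log Q) ≤ (Q : ℝ) ^ n2 := by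
      calc Real.exp ((2 * C2) * Real.log Q) ≤ Real.exp (n2 * Real.log Q) := by
            apply Real.exp_le_exp.mpr
            exact mul_le_mul_of_nonneg_right h2 hlogQ
        _ = (Q : ℝ) ^ n2 := by
            rw [Real.exp_nat_mul, Real.exp_log (by linarith only [hQr])]
    rw [h1, Real.exp_add, Real.exp_add, hgeq]
    push_cast
    apply mul_le_mul_of_nonneg_left _ (by (clear * - hQ1; positivity))
    apply mul_le_mul _ h3 (by positivity) (by positivity)
    exact mul_le_mul h4 h6 (by positivity) (by positivity)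
  -- rho
  have hkr : (1 : ℝ) ≤ k := by exact_mod_cast hk
  have hρ : ∀ p : ℕ, p.Prime → Y < p → kap p 1 ≤ k / y0 := by
    intro p hp hYp
    have hp0 : p0 < p := by
      calc p0 ≤ y0 := hLp0.trans hyL
        _ ≤ y0 ^ 2 := Nat.le_self_pow (by norm_num) _
        _ = Y := hY.symm
        _ < p := hYp
    refine (hkp1 p hp hp0).trans ?_
    apply div_le_div_of_nonneg_left (by positivity) (by (clear * - hy1; positivity))
    rw [← hsqrtY]
    apply Real.sqrt_le_sqrt
    exact_mod_cast hYp.le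
  have hρε : 144 * ((L + 1 : ℕ) : ℝ) * (k / y0) ≤ 1 / 60000 := by
    have h1 : (y0 : ℝ) = 14400000 * k * (L + 1) := by
      rw [hy0, yf]
      push_cast
      ring
    rw [h1]
    push_cast
    have h2 : 144 * ((L : ℝ) + 1) * (k / (14400000 * k * (L + 1))) = 1 / 100000 := by
      have : (0 : ℝ) < L + 1 := by (clear * - hLpos; positivity)
      field_simp
      norm_num
    rw [h2]
    norm_num
  -- the iteration
  apply iterate2_contra H 2000 L (T1f k E n2 S K n3 L + T2f k E S K L) (Gf k E n2 S K n3 L) g e0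
    (by norm_num) hLpos hG1 hT1' hgG ?_ N A ((hL1 L hL1').trans hN) hAN (by rw [hH1]; exact hfree)
  intro N d A hd hNd hA0 hfree0 hAL
  have hd1 : 1 ≤ d ^ e0 := Nat.one_le_pow _ _ hd
  have hcond1 : 16 * Q * (g * Q ^ (4 * (L + 1)) + 4000 * g ^ k) ≤ N := by
    have h0 : T1f k E n2 S K n3 L = 16 * Q * (g * Q ^ (4 * (L + 1)) + 4000 * g ^ k) := by
      rw [T1f, ← hQ, ← hg]
    rw [← h0]
    refine le_trans ?_ hNd
    calc T1f k E n2 S K n3 L ≤ (T1f k E n2 S K n3 L + T2f k E S K L) := by omega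
      _ ≤ (T1f k E n2 S K n3 L + T2f k E S K L) * d ^ e0 := Nat.le_mul_of_pos_right _ hd1
  have hcond2 : 16 * S * 2 ^ k * (S * d ^ k) *
      ((32 * K * (S * (S * d ^ k)) * 2 ^ L) ^ E * (1000 * Q ^ 2) + 2 * k * 2 ^ L) ^ k ≤ N := by
    refine le_trans ?_ hNd
    have h1 : (32 * K * (S * (S * d ^ k)) * 2 ^ L) ^ E * (1000 * Q ^ 2) + 2 * k * 2 ^ L ≤
        ((32 * K * (S * S) * 2 ^ L) ^ E * (1000 * Q ^ 2) + 2 * k * 2 ^ L) * d ^ (k * E) := by
      have h2 : (32 * K * (S * (S * d ^ k)) * 2 ^ L) ^ E * (1000 * Q ^ 2) =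
          (32 * K * (S * S) * 2 ^ L) ^ E * (1000 * Q ^ 2) * d ^ (k * E) := by
        have h3 : (32 * K * (S * (S * d ^ k)) * 2 ^ L) = (32 * K * (S * S) * 2 ^ L) * d ^ k := by
          ring
        rw [h3, mul_pow, ← pow_mul]
        ring
      rw [h2, add_mul]
      apply Nat.add_le_add_left
      exact Nat.le_mul_of_pos_right _ (Nat.pow_pos hd)
    calc _ ≤ 16 * S * 2 ^ k * (S * d ^ k) *
          (((32 * K * (S * S) * 2 ^ L) ^ E * (1000 * Q ^ 2) + 2 * k * 2 ^ L) * d ^ (k * E)) ^ k := by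
          apply Nat.mul_le_mul_left
          exact Nat.pow_le_pow_left h1 _
      _ = T2f k E S K L * d ^ e0 := by
          rw [T2f, he0, mul_pow _ (d ^ (k * E)), ← pow_mul, pow_add, ← hQ]
          ring
      _ ≤ (T1f k E n2 S K n3 L + T2f k E S K L) * d ^ e0 := Nat.mul_le_mul_right _ (by omega)
  rw [hGdef]
  subst hdeg
  exact sqrt_step hA hk' hpos E K S hE hK hS hmajor kap hk0 hk1 hkap hcoef' heval' L Q Y (L + 1) g X0
    ((h.natDegree : ℝ) / y0) hLpos hQ hρ (by (clear * - hk' hy1; positivity)) hρε (by omega) (by omega) hX0 hX hg0 N d A hd hcond1 hcond2 hA0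
    hfree0 hAL

/-- the final bound, exponent `1/2` -/
theorem sqrt_final (k : ℕ) (hk : 1 ≤ k) : ∃ c : ℝ, 0 < c ∧ ∀ h : ℤ[X], h.natDegree = k →
    0 < h.leadingCoeff → Intersective h →
    ∃ C : ℝ, 0 < C ∧ ∀ N : ℕ, 1 ≤ N →
      (rMax h N : ℝ) ≤ C * N * Real.exp (-(c * Real.sqrt (Real.log N))) := by
  obtain ⟨c, hc⟩ := sqrt_pow_bound k hk
  refine ⟨Real.log 2 / Real.sqrt ((c + 1 : ℕ) * Real.log 2), ?_, ?_⟩
  · have : 0 < Real.log 2 := Real.log_pos (by norm_num)
    positivity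
  intro h hdeg hpos hint
  obtain ⟨L0, hL0⟩ := hc h hdeg hpos hint
  refine ⟨2 ^ (L0 + 1), by positivity, ?_⟩
  intro N hN
  exact sqrt_bound h c L0 hL0 N hN

end Vale.Agent.P042
end
end
end
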